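import Mathlib

/-!
# P142 (Brennan), block A: area formula with multiplicity and comparison of fibres
-/

open MeasureTheory Set Filter Topology
open scoped NNReal ENNReal

namespace Vale.Agent.P142.Brn

section General

variable {V : Type*} [NormedAddCommGroup V] [NormedSpace ℝ V] [FiniteDimensional ℝ V]

/-- A radius function `r` such that a map approximated by an invertible `A` up to `r A` is
injective. -/
theorem exists_radius_injOn :
    ∃ r : (V →L[ℝ] V) → ℝ≥0, (∀ A, r A ≠ 0) ∧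
      ∀ A : V →L[ℝ] V, A.det ≠ 0 → ∀ (s : Set V) (f : V → V),
        ApproximatesLinearOn f A s (r A) → InjOn f s := by
  have key : ∀ A : V →L[ℝ] V, ∃ r : ℝ≥0, r ≠ 0 ∧
      (A.det ≠ 0 → ∀ (s : Set V) (f : V → V), ApproximatesLinearOn f A s r → InjOn f s) := by
    intro A
    by_cases hA : A.det = 0
    · exact ⟨1, one_ne_zero, fun h => absurd hA h⟩
    · let B := A.toContinuousLinearEquivOfDetNeZero hA
      rcases subsingleton_or_nontrivial V with hV | hV
      · exact ⟨1, one_ne_zero, fun _ s f _ x _ y _ _ => Subsingleton.elim x y⟩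
      · have hpos : 0 < ‖(B.symm : V →L[ℝ] V)‖₊ := by
          rw [← NNReal.coe_pos]
          exact B.symm.norm_pos
        refine ⟨‖(B.symm : V →L[ℝ] V)‖₊⁻¹ / 2, ?_, ?_⟩
        · positivity
        · intro _ s f hf
          have hf' : ApproximatesLinearOn f (B : V →L[ℝ] V) s (‖(B.symm : V →L[ℝ] V)‖₊⁻¹ / 2) := hf
          refine hf'.injOn (Or.inr ?_)
          exact half_lt_self (by positivity)
  choose r hr1 hr2 using key
  exact ⟨r, hr1, hr2⟩

/-- The cardinality of a set as a sum over a countable disjoint cover. -/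
theorem encard_eq_tsum {α : Type*} (S : Set α) (t : ℕ → Set α)
    (hd : Pairwise (Function.onFun Disjoint t)) (hc : S ⊆ ⋃ n, t n) :
    ((S.encard : ℕ∞) : ℝ≥0∞) = ∑' n, (((S ∩ t n).encard : ℕ∞) : ℝ≥0∞) := by
  rw [← ENNReal.tsum_set_one]
  simp_rw [← ENNReal.tsum_set_one]
  have h1 : ∀ n, (∑' _ : (S ∩ t n : Set α), (1 : ℝ≥0∞))
      = ∑' x : α, (S ∩ t n).indicator (fun _ => (1 : ℝ≥0∞)) x := fun n =>
    tsum_subtype (S ∩ t n) (fun _ => (1 : ℝ≥0∞))
  have h2 : (∑' _ : S, (1 : ℝ≥0∞)) = ∑' x : α, S.indicator (fun _ => (1 : ℝ≥0∞)) x :=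
    tsum_subtype S (fun _ => (1 : ℝ≥0∞))
  rw [h2]
  simp_rw [h1]
  rw [ENNReal.tsum_comm]
  congr 1
  funext x
  by_cases hx : x ∈ S
  · obtain ⟨n, hn⟩ := mem_iUnion.1 (hc hx)
    rw [tsum_eq_single n]
    · simp [hx, hn]
    · intro m hm
      have : x ∉ t m := fun h => (Set.disjoint_left.1 (hd hm) h) hn
      simp [this]
  · simp [hx]

variable [MeasurableSpace V] [BorelSpace V] (μ : Measure V) [μ.IsAddHaarMeasure]

/-- Area formula with multiplicity. -/
theorem area_formula {s : Set V} {f : V → V} {f' : V → V →L[ℝ] V} (hs : MeasurableSet s)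
    (hf' : ∀ x ∈ s, HasFDerivWithinAt f (f' x) s x) (hdet : ∀ x ∈ s, (f' x).det ≠ 0) :
    ∫⁻ x in s, ENNReal.ofReal |(f' x).det| ∂μ
      = ∫⁻ y, (((s ∩ f ⁻¹' {y}).encard : ℕ∞) : ℝ≥0∞) ∂μ := by
  rcases s.eq_empty_or_nonempty with rfl | hne
  · simp
  obtain ⟨r, hr0, hr⟩ := exists_radius_injOn (V := V)
  obtain ⟨t, A, hd, ht, hcov, happ, hA⟩ :=
    exists_partition_approximatesLinearOn_of_hasFDerivWithinAt f s f' hf' r hr0
  have hinj : ∀ n, InjOn f (s ∩ t n) := by
    intro n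
    obtain ⟨y, hy, hAy⟩ := hA hne n
    exact hr (A n) (by rw [hAy]; exact hdet y hy) _ _ (happ n)
  have hmeas : ∀ n, MeasurableSet (s ∩ t n) := fun n => hs.inter (ht n)
  have hfd : ∀ n, ∀ x ∈ s ∩ t n, HasFDerivWithinAt f (f' x) (s ∩ t n) x := fun n x hx =>
    (hf' x hx.1).mono inter_subset_left
  have himg : ∀ n, MeasurableSet (f '' (s ∩ t n)) := fun n =>
    measurable_image_of_fderivWithin (hmeas n) (hfd n) (hinj n)
  have hunion : s = ⋃ n, s ∩ t n := by
    rw [← inter_iUnion]; exact (inter_eq_self_of_subset_left hcov).symm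
  have hdisj : Pairwise (Function.onFun Disjoint fun n => s ∩ t n) := by
    intro i j hij
    exact (hd hij).mono inter_subset_right inter_subset_right
  calc ∫⁻ x in s, ENNReal.ofReal |(f' x).det| ∂μ
      = ∫⁻ x in ⋃ n, s ∩ t n, ENNReal.ofReal |(f' x).det| ∂μ := by rw [← hunion]
    _ = ∑' n, ∫⁻ x in s ∩ t n, ENNReal.ofReal |(f' x).det| ∂μ :=
        lintegral_iUnion hmeas hdisj _
    _ = ∑' n, μ (f '' (s ∩ t n)) := by
        congr 1
        funext n
        exact lintegral_abs_det_fderiv_eq_addHaar_image μ (hmeas n) (hfd n) (hinj n)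
    _ = ∑' n, ∫⁻ y, (f '' (s ∩ t n)).indicator (fun _ => (1 : ℝ≥0∞)) y ∂μ := by
        congr 1
        funext n
        rw [lintegral_indicator (himg n)]
        simp
    _ = ∫⁻ y, ∑' n, (f '' (s ∩ t n)).indicator (fun _ => (1 : ℝ≥0∞)) y ∂μ := by
        rw [lintegral_tsum]
        intro n
        exact (measurable_const.indicator (himg n)).aemeasurable
    _ = ∫⁻ y, (((s ∩ f ⁻¹' {y}).encard : ℕ∞) : ℝ≥0∞) ∂μ := by
        congr 1
        funext y
        rw [encard_eq_tsum (s ∩ f ⁻¹' {y}) t hd (inter_subset_left.trans hcov)]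
        congr 1
        funext n
        by_cases hy : y ∈ f '' (s ∩ t n)
        · obtain ⟨x, hx, rfl⟩ := hy
          have : s ∩ f ⁻¹' {f x} ∩ t n = {x} := by
            ext z
            simp only [mem_inter_iff, mem_preimage, mem_singleton_iff]
            constructor
            · rintro ⟨⟨hz1, hz2⟩, hz3⟩
              exact hinj n ⟨hz1, hz3⟩ hx hz2
            · rintro rfl
              exact ⟨⟨hx.1, rfl⟩, hx.2⟩
          rw [this]
          have hmem : f x ∈ f '' (s ∩ t n) := ⟨x, hx, rfl⟩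
          simp [hmem]
        · have : s ∩ f ⁻¹' {y} ∩ t n = ∅ := by
            ext z
            simp only [mem_inter_iff, mem_preimage, mem_singleton_iff, mem_empty_iff_false,
              iff_false]
            rintro ⟨⟨hz1, hz2⟩, hz3⟩
            exact hy ⟨z, ⟨hz1, hz3⟩, hz2⟩
          rw [this]
          simp [hy]

/-- Full area formula with multiplicity (no condition on the Jacobian). -/
theorem area_formula_full {s : Set V} {f : V → V} {f' : V → V →L[ℝ] V} (hs : MeasurableSet s)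
    (hf' : ∀ x ∈ s, HasFDerivWithinAt f (f' x) s x) :
    ∫⁻ x in s, ENNReal.ofReal |(f' x).det| ∂μ
      = ∫⁻ y, (((s ∩ f ⁻¹' {y}).encard : ℕ∞) : ℝ≥0∞) ∂μ := by
  have hae : AEMeasurable f' (μ.restrict s) := aemeasurable_fderivWithin μ hs hf'
  have haed : AEMeasurable (fun x => (f' x).det) (μ.restrict s) :=
    ContinuousLinearMap.continuous_det.measurable.comp_aemeasurable hae
  have hN : NullMeasurableSet {x | (f' x).det ≠ 0} (μ.restrict s) :=
    haed.nullMeasurableSet_preimage (measurableSet_singleton (0 : ℝ)).compl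
  obtain ⟨t0, ht0s, ht0m, ht0e⟩ := hN.exists_measurable_subset_ae_eq
  set t : Set V := s ∩ t0 with htdef
  have htm : MeasurableSet t := hs.inter ht0m
  have hts : t ⊆ s := inter_subset_left
  have htdet : ∀ x ∈ t, (f' x).det ≠ 0 := fun x hx => ht0s hx.2
  -- the rest
  have hnull : μ {x | x ∈ s ∧ (f' x).det ≠ 0 ∧ x ∉ t0} = 0 := by
    have h1 : (μ.restrict s) ({x | (f' x).det ≠ 0} \ t0) = 0 :=
      (ae_le_set.1 ht0e.symm.le)
    have h2 : μ (({x | (f' x).det ≠ 0} \ t0) ∩ s) = 0 :=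
      nonpos_iff_eq_zero.1 ((Measure.le_restrict_apply s _).trans h1.le)
    refine measure_mono_null ?_ h2
    rintro x ⟨h, h', h''⟩
    exact ⟨⟨h', h''⟩, h⟩
  have hleft : ∫⁻ x in s, ENNReal.ofReal |(f' x).det| ∂μ
      = ∫⁻ x in t, ENNReal.ofReal |(f' x).det| ∂μ := by
    rw [← lintegral_indicator hs, ← lintegral_indicator htm]
    apply lintegral_congr_ae
    have : ∀ᵐ x ∂μ, x ∉ {x | x ∈ s ∧ (f' x).det ≠ 0 ∧ x ∉ t0} :=
      measure_eq_zero_iff_ae_notMem.1 hnull
    filter_upwards [this] with x hx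
    by_cases hxs : x ∈ s
    · by_cases hxt : x ∈ t0
      · simp [htdef, hxs, hxt]
      · have hd : (f' x).det = 0 := by
          by_contra h
          exact hx ⟨hxs, h, hxt⟩
        simp [htdef, hxs, hxt, hd]
    · simp [htdef, hxs]
  rw [hleft, area_formula μ htm (fun x hx => (hf' x (hts hx)).mono hts) htdet]
  apply lintegral_congr_ae
  -- critical values
  have hcrit : μ (f '' {x | x ∈ s ∧ (f' x).det = 0}) = 0 :=
    addHaar_image_eq_zero_of_det_fderivWithin_eq_zero μ
      (f' := f') (fun x hx => (hf' x hx.1).mono (fun y hy => hy.1)) (fun x hx => hx.2)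
  have himgN : μ (f '' {x | x ∈ s ∧ (f' x).det ≠ 0 ∧ x ∉ t0}) = 0 :=
    addHaar_image_eq_zero_of_differentiableOn_of_addHaar_eq_zero μ
      (fun x hx => ((hf' x hx.1).mono (fun y hy => hy.1)).differentiableWithinAt) hnull
  filter_upwards [measure_eq_zero_iff_ae_notMem.1 hcrit, measure_eq_zero_iff_ae_notMem.1 himgN]
    with y hy1 hy2
  have : t ∩ f ⁻¹' {y} = s ∩ f ⁻¹' {y} := by
    ext x
    simp only [mem_inter_iff, mem_preimage, mem_singleton_iff, htdef]
    constructor
    · rintro ⟨⟨h1, _⟩, h2⟩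
      exact ⟨h1, h2⟩
    · rintro ⟨h1, h2⟩
      refine ⟨⟨h1, ?_⟩, h2⟩
      by_contra h3
      by_cases h4 : (f' x).det = 0
      · exact hy1 ⟨x, ⟨h1, h4⟩, h2⟩
      · exact hy2 ⟨x, ⟨h1, h4, h3⟩, h2⟩
  rw [this]

end General

end Vale.Agent.P142.Brn
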