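import Vale.Agent.P142.Brn.Defs
import Vale.Agent.P142.Brn.Area

/-!
# P142 (Brennan), blocks A2 and A3: almost every value is good, comparison of the two parts

Block A2: almost every `w` is outside `f '' sphere 0 1` and a regular value of `EE f` on the
punctured disc.  Block A3: comparison of the positive and the negative part of the Jacobian
below a level.
-/

open Complex MeasureTheory Metric Set Filter Topology
open scoped Real ComplexConjugate ENNReal

namespace Vale.Agent.P142.Brn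

theorem isOpen_PD : IsOpen PD := by
  unfold PD
  exact isOpen_ball.sdiff isClosed_singleton

theorem PD_subset : PD ⊆ closedBall (0 : ℂ) 1 \ {0} :=
  sdiff_subset_sdiff_left ball_subset_closedBall

theorem ae_notMem_image_sphere {f : ℂ → ℂ} {R : ℝ} (hf : Nice f R) :
    ∀ᵐ w : ℂ, w ∉ f '' sphere (0 : ℂ) 1 := by
  rw [← measure_eq_zero_iff_ae_notMem]
  refine addHaar_image_eq_zero_of_differentiableOn_of_addHaar_eq_zero volume ?_
    (Measure.addHaar_sphere_of_ne_zero volume 0 one_ne_zero)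
  have hsub : sphere (0 : ℂ) 1 ⊆ ball 0 R := by
    intro z hz
    rw [mem_sphere_zero_iff_norm] at hz
    rw [mem_ball_zero_iff, hz]
    exact hf.one_lt
  intro z hz
  have h1 : DifferentiableAt ℂ f z :=
    (hf.diff z (hsub hz)).differentiableAt (isOpen_ball.mem_nhds (hsub hz))
  exact (h1.restrictScalars ℝ).differentiableWithinAt

theorem ae_regular {E : ℂ → ℂ} {E' : ℂ → ℂ →L[ℝ] ℂ} {s : Set ℂ}
    (hE : ∀ z ∈ s, HasFDerivWithinAt E (E' z) s z) :
    ∀ᵐ w : ℂ, ∀ z ∈ s, E z = w → (E' z).det ≠ 0 := by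
  have h := addHaar_image_eq_zero_of_det_fderivWithin_eq_zero volume (f := E) (f' := E')
    (s := s ∩ {z | (E' z).det = 0}) (fun z hz => (hE z hz.1).mono inter_subset_left)
    (fun z hz => hz.2)
  filter_upwards [measure_eq_zero_iff_ae_notMem.1 h] with w hw z hz hzw h0
  exact hw ⟨z, ⟨hz, h0⟩, hzw⟩

/-- **Block A2**, given block H1. -/
theorem blockA2 (h1 : BlockH1) : BlockA2 := by
  intro f R hf
  refine ⟨ae_notMem_image_sphere hf, ?_⟩
  obtain ⟨hdet, hH⟩ := h1
  obtain ⟨-, hE, -⟩ := hH f R hf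
  have h := ae_regular (E := EE f) (E' := fun z => wrt (Ez f z) (Ezb f z)) (s := PD)
    (fun z hz => (hE z hz).hasFDerivAt.hasFDerivWithinAt)
  filter_upwards [h] with w hw z hz hzw
  have := hw z hz hzw
  rw [hdet] at this
  exact this

/-- **Block A3**, given blocks H1, A2 and H4. -/
theorem blockA3 (h1 : BlockH1) (h2 : BlockA2) (h4 : BlockH4) : BlockA3 := by
  intro f R hf t ht
  obtain ⟨hdet, hH⟩ := h1
  obtain ⟨-, hE, -, hX, hJ⟩ := hH f R hf
  obtain ⟨hw1, hw2⟩ := h2 f R hf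
  set Up : Set ℂ := {z | z ∈ PD ∧ 0 < JJ f z ∧ XX f z < t} with hUp
  set Un : Set ℂ := {z | z ∈ PD ∧ JJ f z < 0 ∧ XX f z < t} with hUn
  have hJ' : ContinuousOn (JJ f) PD := hJ.mono PD_subset
  have hX' : ContinuousOn (XX f) PD := hX.mono PD_subset
  have hOX : IsOpen (PD ∩ XX f ⁻¹' Iio t) := hX'.isOpen_inter_preimage isOpen_PD isOpen_Iio
  have hOp : IsOpen (PD ∩ JJ f ⁻¹' Ioi 0) := hJ'.isOpen_inter_preimage isOpen_PD isOpen_Ioi
  have hOn : IsOpen (PD ∩ JJ f ⁻¹' Iio 0) := hJ'.isOpen_inter_preimage isOpen_PD isOpen_Iio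
  have hmp : MeasurableSet Up := by
    have : Up = (PD ∩ JJ f ⁻¹' Ioi 0) ∩ (PD ∩ XX f ⁻¹' Iio t) := by
      ext z
      simp only [hUp, mem_ofPred_eq, mem_inter_iff, mem_preimage, mem_Ioi, mem_Iio]
      tauto
    rw [this]
    exact (hOp.inter hOX).measurableSet
  have hmn : MeasurableSet Un := by
    have : Un = (PD ∩ JJ f ⁻¹' Iio 0) ∩ (PD ∩ XX f ⁻¹' Iio t) := by
      ext z
      simp only [hUn, mem_ofPred_eq, mem_inter_iff, mem_preimage, mem_Iio]
      tauto
    rw [this]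
    exact (hOn.inter hOX).measurableSet
  have hdE : ∀ z ∈ PD, (wrt (Ez f z) (Ezb f z)).det = JJ f z := fun z _ => by
    rw [hdet]; rfl
  have hEp : ∀ z ∈ Up, HasFDerivWithinAt (EE f) (wrt (Ez f z) (Ezb f z)) Up z :=
    fun z hz => (hE z hz.1).hasFDerivAt.hasFDerivWithinAt
  have hEn : ∀ z ∈ Un, HasFDerivWithinAt (EE f) (wrt (Ez f z) (Ezb f z)) Un z :=
    fun z hz => (hE z hz.1).hasFDerivAt.hasFDerivWithinAt
  have e1 : ∫⁻ z in Up, ENNReal.ofReal (JJ f z) =
      ∫⁻ w, ((Up ∩ EE f ⁻¹' {w}).encard : ℝ≥0∞) := by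
    rw [← area_formula volume hmp hEp (fun z hz => by rw [hdE z hz.1]; exact ne_of_gt hz.2.1)]
    refine setLIntegral_congr_fun hmp fun z hz => ?_
    change ENNReal.ofReal (JJ f z) = ENNReal.ofReal |(wrt (Ez f z) (Ezb f z)).det|
    rw [hdE z hz.1, abs_of_pos hz.2.1]
  have e2 : ∫⁻ z in Un, ENNReal.ofReal (-JJ f z) =
      ∫⁻ w, ((Un ∩ EE f ⁻¹' {w}).encard : ℝ≥0∞) := by
    rw [← area_formula volume hmn hEn (fun z hz => by rw [hdE z hz.1]; exact ne_of_lt hz.2.1)]
    refine setLIntegral_congr_fun hmn fun z hz => ?_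
    change ENNReal.ofReal (-JJ f z) = ENNReal.ofReal |(wrt (Ez f z) (Ezb f z)).det|
    rw [hdE z hz.1, abs_of_neg hz.2.1]
  rw [e1, e2]
  refine lintegral_mono_ae ?_
  filter_upwards [hw1, hw2] with w hws hwr
  have key := h4 f R hf w hws hwr t ht
  have s1 : Up ∩ EE f ⁻¹' {w} = {z | z ∈ PD ∧ EE f z = w ∧ 0 < JJ f z ∧ XX f z < t} := by
    ext z
    simp only [hUp, mem_inter_iff, mem_ofPred_eq, mem_preimage, mem_singleton_iff]
    tauto
  have s2 : Un ∩ EE f ⁻¹' {w} = {z | z ∈ PD ∧ EE f z = w ∧ JJ f z < 0 ∧ XX f z < t} := by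
    ext z
    simp only [hUn, mem_inter_iff, mem_ofPred_eq, mem_preimage, mem_singleton_iff]
    tauto
  rw [s1, s2]
  exact_mod_cast key

end Vale.Agent.P142.Brn
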