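import Vale.Agent.P142.Brn.Defs

/-!
# Brennan's conjecture, block H2: `PHI f w` is continuous, proper and has the weak maximum
principle
-/

open Complex MeasureTheory Metric Set Filter Topology
open scoped Real ComplexConjugate ENNReal

namespace Vale.Agent.P142.Brn

theorem tau_pos_of_mem {z : ℂ} (hz : z ∈ ball (0 : ℂ) 1) : 0 < tau z := by
  have h : ‖z‖ < 1 := by simpa using hz
  have h0 : 0 ≤ ‖z‖ := norm_nonneg z
  unfold tau
  nlinarith

theorem continuous_tau : Continuous tau := by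
  unfold tau
  fun_prop

theorem nice_closedBall_sub {f : ℂ → ℂ} {R : ℝ} (h : Nice f R) :
    closedBall (0 : ℂ) 1 ⊆ ball 0 R := closedBall_subset_ball h.one_lt

/-- `|1 - conj p q|^2 >= (1 - |p|^2) (1 - |q|^2)` -/
theorem one_sub_conj_mul_sq (p q : ℂ) :
    (1 - ‖p‖ ^ 2) * (1 - ‖q‖ ^ 2) ≤ ‖1 - conj p * q‖ ^ 2 := by
  rw [Complex.sq_norm, Complex.sq_norm, Complex.sq_norm]
  simp only [Complex.normSq_apply, Complex.sub_re, Complex.sub_im, Complex.one_re, Complex.one_im,
    Complex.mul_re, Complex.mul_im, Complex.conj_re, Complex.conj_im]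
  nlinarith [sq_nonneg (p.re - q.re), sq_nonneg (p.im - q.im)]

theorem PHI_compact {f : ℂ → ℂ} {R : ℝ} (h : Nice f R) {w : ℂ}
    (hw : w ∉ f '' sphere (0 : ℂ) 1) (c : ℝ) :
    IsCompact {z | z ∈ ball (0 : ℂ) 1 ∧ PHI f w z ≤ c} := by
  have hcont : ContinuousOn f (closedBall (0 : ℂ) 1) :=
    h.diff.continuousOn.mono (nice_closedBall_sub h)
  have heq : {z | z ∈ ball (0 : ℂ) 1 ∧ PHI f w z ≤ c} =
      {z | z ∈ closedBall (0 : ℂ) 1 ∧ ‖f z - w‖ ≤ c * tau z} := by
    ext z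
    constructor
    · rintro ⟨hz, hz2⟩
      refine ⟨ball_subset_closedBall hz, ?_⟩
      have ht := tau_pos_of_mem hz
      unfold PHI at hz2
      rwa [div_le_iff₀ ht] at hz2
    · rintro ⟨hz, hz2⟩
      have hz1 : z ∈ ball (0 : ℂ) 1 := by
        by_contra hne
        have hs : z ∈ sphere (0 : ℂ) 1 := by
          rw [mem_sphere]
          rw [mem_closedBall] at hz
          rw [mem_ball, not_lt] at hne
          exact le_antisymm hz hne
        have h1 : ‖z‖ = 1 := by simpa using hs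
        have ht : tau z = 0 := by unfold tau; rw [h1]; norm_num
        rw [ht, mul_zero] at hz2
        have h2 : f z - w = 0 := norm_le_zero_iff.1 hz2
        exact hw ⟨z, hs, sub_eq_zero.1 h2⟩
      refine ⟨hz1, ?_⟩
      have ht := tau_pos_of_mem hz1
      unfold PHI
      rwa [div_le_iff₀ ht]
  rw [heq]
  have hclosed : IsClosed {z | z ∈ closedBall (0 : ℂ) 1 ∧ ‖f z - w‖ ≤ c * tau z} := by
    have h1 : ContinuousOn (fun z => ‖f z - w‖) (closedBall (0 : ℂ) 1) :=
      (hcont.sub continuousOn_const).norm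
    have h2 : ContinuousOn (fun z => c * tau z) (closedBall (0 : ℂ) 1) :=
      (continuous_const.mul continuous_tau).continuousOn
    exact isClosed_closedBall.isClosed_le h1 h2
  exact (isCompact_closedBall (0 : ℂ) 1).of_isClosed_subset hclosed (fun z hz => hz.1)

theorem PHI_weakMax {f : ℂ → ℂ} {R : ℝ} (h : Nice f R) (w : ℂ) : WeakMax (PHI f w) := by
  intro O hO hcl p hp
  have hOb : O ⊆ ball (0 : ℂ) 1 := subset_closure.trans hcl
  have hp1 : p ∈ ball (0 : ℂ) 1 := hOb hp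
  have hpn : ‖p‖ < 1 := by simpa using hp1
  have hden : ∀ z ∈ closure O, (1 : ℂ) - conj p * z ≠ 0 := by
    intro z hz h0
    have hz1 : ‖z‖ < 1 := by simpa using hcl hz
    have h1 : conj p * z = 1 := (sub_eq_zero.1 h0).symm
    have h2 : ‖p‖ * ‖z‖ = 1 := by
      have := congrArg norm h1
      rwa [norm_mul, RCLike.norm_conj, norm_one] at this
    have := norm_nonneg p
    have := norm_nonneg z
    nlinarith
  let P : ℂ → ℂ := fun z => (f z - w) * (((1 - ‖p‖ ^ 2 : ℝ) : ℂ) / (1 - conj p * z)) ^ 2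
  have hPd : DifferentiableOn ℂ P (closure O) := by
    have hf : DifferentiableOn ℂ f (closure O) :=
      h.diff.mono (hcl.trans (ball_subset_closedBall.trans (nice_closedBall_sub h)))
    have h1 : DifferentiableOn ℂ (fun z : ℂ => (1 : ℂ) - conj p * z) (closure O) := by
      fun_prop
    exact (hf.sub (differentiableOn_const w)).mul
      (((differentiableOn_const _).div h1 hden).pow 2)
  have hdiff : DiffContOnCl ℂ P O := hPd.diffContOnCl
  have hbdd : Bornology.IsBounded O := isBounded_ball.subset hOb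
  obtain ⟨q, hq, hmax⟩ := Complex.exists_mem_frontier_isMaxOn_norm hbdd ⟨p, hp⟩ hdiff
  refine ⟨q, hq, ?_⟩
  have hqc : q ∈ closure O := frontier_subset_closure hq
  have hq1 : q ∈ ball (0 : ℂ) 1 := hcl hqc
  have hle : ‖P p‖ ≤ ‖P q‖ := hmax (subset_closure hp)
  have htp := tau_pos_of_mem hp1
  have htq := tau_pos_of_mem hq1
  have hPp : ‖P p‖ = ‖f p - w‖ := by
    have h1 : (1 : ℂ) - conj p * p = ((1 - ‖p‖ ^ 2 : ℝ) : ℂ) := by
      rw [Complex.conj_mul']
      push_cast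
      ring
    have h2 : (((1 - ‖p‖ ^ 2 : ℝ) : ℂ)) ≠ 0 := by
      rw [← h1]; exact hden p (subset_closure hp)
    show ‖(f p - w) * (((1 - ‖p‖ ^ 2 : ℝ) : ℂ) / (1 - conj p * p)) ^ 2‖ = _
    rw [h1, div_self h2, one_pow, mul_one]
  have hPq : ‖P q‖ = ‖f q - w‖ * ((1 - ‖p‖ ^ 2) ^ 2 / ‖1 - conj p * q‖ ^ 2) := by
    show ‖(f q - w) * (((1 - ‖p‖ ^ 2 : ℝ) : ℂ) / (1 - conj p * q)) ^ 2‖ = _
    rw [norm_mul, norm_pow, norm_div, div_pow, Complex.norm_real, Real.norm_eq_abs, sq_abs]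
  have hA : 0 < 1 - ‖p‖ ^ 2 := by
    have : 0 < (1 - ‖p‖ ^ 2) / 2 := htp
    linarith
  have hB : 0 < 1 - ‖q‖ ^ 2 := by
    have : 0 < (1 - ‖q‖ ^ 2) / 2 := htq
    linarith
  have hD : 0 < ‖1 - conj p * q‖ ^ 2 := by
    have := norm_pos_iff.2 (hden q hqc)
    positivity
  have hI := one_sub_conj_mul_sq p q
  have hkey : ‖f p - w‖ ≤ ‖f q - w‖ * ((1 - ‖p‖ ^ 2) / (1 - ‖q‖ ^ 2)) := by
    rw [← hPp]
    refine hle.trans ?_
    rw [hPq]
    refine mul_le_mul_of_nonneg_left ?_ (norm_nonneg _)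
    rw [div_le_div_iff₀ hD hB]
    nlinarith
  unfold PHI tau
  rw [div_le_div_iff₀ (by linarith) (by linarith)]
  have h3 : ‖f p - w‖ * (1 - ‖q‖ ^ 2) ≤ ‖f q - w‖ * (1 - ‖p‖ ^ 2) := by
    have := mul_le_mul_of_nonneg_right hkey hB.le
    rwa [mul_assoc, div_mul_cancel₀ _ hB.ne'] at this
  linarith

/-- Block H2. -/
theorem blockH2 : BlockH2 := by
  intro f R h w hw
  refine ⟨?_, fun c => PHI_compact h hw c, PHI_weakMax h w⟩
  have hf : ContinuousOn f (ball (0 : ℂ) 1) :=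
    h.diff.continuousOn.mono (ball_subset_closedBall.trans (nice_closedBall_sub h))
  unfold PHI
  exact ((hf.sub continuousOn_const).norm).div continuous_tau.continuousOn
    (fun z hz => (tau_pos_of_mem hz).ne')

end Vale.Agent.P142.Brn
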