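import Vale.Agent.P142.Brn.Defs

open Complex MeasureTheory Metric Set Filter Topology
open scoped Real ComplexConjugate ENNReal

namespace Vale.Agent.P142.Brn

/-- Second order expansion of a holomorphic function. -/
lemma h3_expand {f : ℂ → ℂ} {U : Set ℂ} (hU : IsOpen U) (hf : DifferentiableOn ℂ f U) {q : ℂ}
    (hq : q ∈ U) : ∃ F : ℂ → ℂ, ContinuousAt F 0 ∧ F 0 = deriv (deriv f) q / 2 ∧
      ∀ h, f (q + h) = f q + deriv f q * h + h ^ 2 * F h := by
  have hfa : DifferentiableAt ℂ f q := hf.differentiableAt (hU.mem_nhds hq)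
  -- first slope
  set g : ℂ → ℂ := dslope f q with hg
  have hgd : DifferentiableOn ℂ g U := (differentiableOn_dslope (hU.mem_nhds hq)).mpr hf
  set k : ℂ → ℂ := dslope g q with hk
  have hkd : DifferentiableOn ℂ k U := (differentiableOn_dslope (hU.mem_nhds hq)).mpr hgd
  have hgq : g q = deriv f q := dslope_same f q
  have hkq : k q = deriv g q := dslope_same g q
  have e1 : ∀ z, f z = f q + (z - q) * g z := by
    intro z
    have := sub_smul_dslope f q z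
    simp only [smul_eq_mul] at this
    rw [hg, this]; ring
  have e2 : ∀ z, g z = g q + (z - q) * k z := by
    intro z
    have := sub_smul_dslope g q z
    simp only [smul_eq_mul] at this
    rw [hk, this]; ring
  have e3 : ∀ z, f z = f q + deriv f q * (z - q) + (z - q) ^ 2 * k z := by
    intro z
    rw [e1 z, e2 z, hgq]; ring
  -- second derivative
  have hkc : ContinuousAt k q := (hkd.differentiableAt (hU.mem_nhds hq)).continuousAt
  have hd2 : deriv (deriv f) q = 2 * k q := by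
    have h1 : ∀ᶠ z in 𝓝 q, deriv f z = deriv f q + 2 * (z - q) * k z + (z - q) ^ 2 * deriv k z := by
      filter_upwards [hU.mem_nhds hq] with z hz
      have hkz : HasDerivAt k (deriv k z) z := (hkd.differentiableAt (hU.mem_nhds hz)).hasDerivAt
      have h2 : HasDerivAt (fun z => f q + deriv f q * (z - q) + (z - q) ^ 2 * k z)
          (deriv f q * 1 + ((2 : ℕ) * (z - q) ^ (2 - 1) * 1 * k z + (z - q) ^ 2 * deriv k z)) z := by
        have a1 : HasDerivAt (fun z : ℂ => z - q) 1 z := (hasDerivAt_id z).sub_const q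
        have a2 := (a1.const_mul (deriv f q)).const_add (f q)
        exact a2.add ((a1.pow 2).mul hkz)
      have h3 : f = fun z => f q + deriv f q * (z - q) + (z - q) ^ 2 * k z := funext e3
      have h4 := h2.deriv
      rw [← h3] at h4
      rw [h4]; push_cast; ring
    have hk1 : HasDerivAt k (deriv k q) q := (hkd.differentiableAt (hU.mem_nhds hq)).hasDerivAt
    have hdk : DifferentiableAt ℂ (deriv k) q :=
      ((hkd.deriv hU).differentiableAt (hU.mem_nhds hq))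
    have a1 : HasDerivAt (fun z : ℂ => z - q) 1 q := (hasDerivAt_id q).sub_const q
    have h2 : HasDerivAt (fun z => deriv f q + 2 * (z - q) * k z + (z - q) ^ 2 * deriv k z)
        (2 * 1 * k q + 2 * (q - q) * deriv k q +
          ((2 : ℕ) * (q - q) ^ (2 - 1) * 1 * deriv k q + (q - q) ^ 2 * deriv (deriv k) q)) q := by
      have b1 := ((a1.const_mul 2).mul hk1).const_add (deriv f q)
      exact b1.add ((a1.pow 2).mul hdk.hasDerivAt)
    have h3 := (h2.congr_of_eventuallyEq h1).deriv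
    rw [h3]; simp
  refine ⟨fun h => k (q + h), ?_, ?_, ?_⟩
  · have : ContinuousAt (fun h : ℂ => q + h) 0 := by fun_prop
    exact ContinuousAt.comp (g := k) (by simpa using hkc) this
  · simp [hd2]
  · intro h
    rw [e3 (q + h)]; ring

/-- The key algebraic identity. -/
lemma h3_tau {q z : ℂ} :
    (1 - ‖z‖ ^ 2) * (1 - ‖q‖ ^ 2) = ‖1 - conj q * z‖ ^ 2 - ‖z - q‖ ^ 2 := by
  have e : ∀ a : ℂ, ‖a‖ ^ 2 = a.re * a.re + a.im * a.im := fun a => by
    rw [← Complex.normSq_eq_norm_sq, Complex.normSq_apply]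
  rw [e, e, e, e]
  simp
  ring


lemma h3_den {q : ℂ} (hq : q ∈ ball (0 : ℂ) 1) : 0 < 1 - ‖q‖ ^ 2 := by
  have : ‖q‖ < 1 := mem_ball_zero_iff.mp hq
  nlinarith [norm_nonneg q]

/-- The normalised function `P`. -/
noncomputable def h3P (f : ℂ → ℂ) (w q h : ℂ) : ℂ :=
  (f (q + h) - w) / (f q - w) * ((1 - ‖q‖ ^ 2 : ℝ) / (1 - conj q * (q + h))) ^ 2

/-- The factor `S`. -/
noncomputable def h3S (q h : ℂ) : ℝ := 1 - ‖h‖ ^ 2 / ‖1 - conj q * (q + h)‖ ^ 2

lemma h3_ne {q z : ℂ} (hq : q ∈ ball (0 : ℂ) 1) (hz : z ∈ ball (0 : ℂ) 1) :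
    1 - conj q * z ≠ 0 := by
  intro h
  have h1 : conj q * z = 1 := by linear_combination -h
  have h2 : ‖q‖ * ‖z‖ = 1 := by
    have := congrArg norm h1
    rwa [norm_mul, Complex.norm_conj, norm_one] at this
  have h3 : ‖q‖ < 1 := mem_ball_zero_iff.mp hq
  have h4 : ‖z‖ < 1 := mem_ball_zero_iff.mp hz
  nlinarith [norm_nonneg q, norm_nonneg z]

lemma h3_phi {f : ℂ → ℂ} {w q h : ℂ} (hq : q ∈ ball (0 : ℂ) 1) (hz : q + h ∈ ball (0 : ℂ) 1)
    (hw : f q ≠ w) : PHI f w (q + h) * h3S q h = PHI f w q * ‖h3P f w q h‖ := by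
  have hne := h3_ne hq hz
  have hm : 0 < ‖1 - conj q * (q + h)‖ := norm_pos_iff.mpr hne
  have hq1 := h3_den hq
  have hz1 := h3_den hz
  have h0 : 0 < ‖f q - w‖ := norm_pos_iff.mpr (sub_ne_zero.mpr hw)
  have hS : h3S q h = (1 - ‖q + h‖ ^ 2) * (1 - ‖q‖ ^ 2) / ‖1 - conj q * (q + h)‖ ^ 2 := by
    rw [h3S, h3_tau]
    have : q + h - q = h := by ring
    rw [this]
    field_simp
  rw [hS, h3P, norm_mul, norm_div, norm_pow, norm_div, Complex.norm_real, Real.norm_eq_abs,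
    abs_of_pos hq1]
  unfold PHI tau
  field_simp

lemma h3_S_pos {q h : ℂ} (hq : q ∈ ball (0 : ℂ) 1) (hz : q + h ∈ ball (0 : ℂ) 1) :
    0 < h3S q h := by
  have hne := h3_ne hq hz
  have hm : 0 < ‖1 - conj q * (q + h)‖ := norm_pos_iff.mpr hne
  have hS : h3S q h = (1 - ‖q + h‖ ^ 2) * (1 - ‖q‖ ^ 2) / ‖1 - conj q * (q + h)‖ ^ 2 := by
    rw [h3S, h3_tau]
    have : q + h - q = h := by ring
    rw [this]
    field_simp
  rw [hS]
  have := h3_den hq
  have := h3_den hz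
  positivity

lemma h3_phi_pos {f : ℂ → ℂ} {w q : ℂ} (hq : q ∈ ball (0 : ℂ) 1) (hw : f q ≠ w) :
    0 < PHI f w q := by
  have h0 : 0 < ‖f q - w‖ := norm_pos_iff.mpr (sub_ne_zero.mpr hw)
  have := h3_den hq
  unfold PHI tau
  positivity

lemma h3_lt {f : ℂ → ℂ} {w q h : ℂ} (hq : q ∈ ball (0 : ℂ) 1) (hz : q + h ∈ ball (0 : ℂ) 1)
    (hw : f q ≠ w) (h1 : ‖h3P f w q h‖ ^ 2 - h3S q h ^ 2 < 0) : PHI f w (q + h) < PHI f w q := by
  have hS := h3_S_pos hq hz
  have hlt : ‖h3P f w q h‖ < h3S q h := by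
    by_contra hc
    rw [not_lt] at hc
    nlinarith [norm_nonneg (h3P f w q h)]
  have e := h3_phi hq hz hw
  have hp := h3_phi_pos hq hw
  have : PHI f w (q + h) * h3S q h < PHI f w q * h3S q h := by
    rw [e]; exact mul_lt_mul_of_pos_left hlt hp
  exact lt_of_mul_lt_mul_right this hS.le

lemma h3_gt {f : ℂ → ℂ} {w q h : ℂ} (hq : q ∈ ball (0 : ℂ) 1) (hz : q + h ∈ ball (0 : ℂ) 1)
    (hw : f q ≠ w) (h1 : 0 < ‖h3P f w q h‖ ^ 2 - h3S q h ^ 2) : PHI f w q < PHI f w (q + h) := by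
  have hS := h3_S_pos hq hz
  have hlt : h3S q h < ‖h3P f w q h‖ := by
    by_contra hc
    rw [not_lt] at hc
    nlinarith [norm_nonneg (h3P f w q h)]
  have e := h3_phi hq hz hw
  have hp := h3_phi_pos hq hw
  have : PHI f w q * h3S q h < PHI f w (q + h) * h3S q h := by
    rw [e]; exact mul_lt_mul_of_pos_left hlt hp
  exact lt_of_mul_lt_mul_right this hS.le

/-- Expansion of `P`. -/
lemma h3_P_expand {f : ℂ → ℂ} {R : ℝ} (hf : Nice f R) {w q : ℂ} (hq : q ∈ ball (0 : ℂ) 1)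
    (hw : f q ≠ w) : ∃ T : ℂ → ℂ, ContinuousAt T 0 ∧
      T 0 = deriv (deriv f) q / (2 * (f q - w)) + 3 * (conj q / (1 - ‖q‖ ^ 2 : ℝ)) ^ 2 +
        2 * (conj q / (1 - ‖q‖ ^ 2 : ℝ)) * (deriv f q / (f q - w)) ∧
      ∀ h, q + h ∈ ball (0 : ℂ) 1 → h3P f w q h =
        1 + (deriv f q / (f q - w) + 2 * (conj q / (1 - ‖q‖ ^ 2 : ℝ))) * h + h ^ 2 * T h := by
  have hball : ball (0 : ℂ) 1 ⊆ ball 0 R := ball_subset_ball hf.one_lt.le
  obtain ⟨F, hF1, hF2, hF3⟩ := h3_expand isOpen_ball hf.diff (hball hq)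
  have hq1 := h3_den hq
  have hs : ((1 - ‖q‖ ^ 2 : ℝ) : ℂ) ≠ 0 := by exact_mod_cast hq1.ne'
  have hN : f q - w ≠ 0 := sub_ne_zero.mpr hw
  set u : ℂ := conj q / (1 - ‖q‖ ^ 2 : ℝ) with hu
  set a : ℂ := deriv f q / (f q - w) with ha
  set b : ℂ → ℂ := fun h => F h / (f q - w) with hb
  set d : ℂ → ℂ := fun h => (3 * u ^ 2 - 2 * u ^ 3 * h) / (1 - u * h) ^ 2 with hd
  have hbc : ContinuousAt b 0 := hF1.div_const _
  have hdc : ContinuousAt d 0 := by
    apply ContinuousAt.div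
    · fun_prop
    · fun_prop
    · simp
  refine ⟨fun h => b h + d h + 2 * u * a + h * (a * d h + 2 * u * b h) + h ^ 2 * (b h * d h),
    ?_, ?_, ?_⟩
  · have hid : ContinuousAt (fun h : ℂ => h) 0 := continuousAt_id
    exact (((hbc.add hdc).add continuousAt_const).add
      (hid.mul ((continuousAt_const.mul hdc).add (continuousAt_const.mul hbc)))).add
      ((hid.pow 2).mul (hbc.mul hdc))
  · simp only [hb, hd, hF2]
    field_simp
    ring
  · intro h hz
    have hne := h3_ne hq hz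
    have hcq : conj q * q = ((‖q‖ ^ 2 : ℝ) : ℂ) := by
      rw [mul_comm, Complex.mul_conj, Complex.normSq_eq_norm_sq]
    have e1 : 1 - conj q * (q + h) = ((1 - ‖q‖ ^ 2 : ℝ) : ℂ) * (1 - u * h) := by
      rw [hu, mul_add, hcq]
      push_cast
      push_cast at hs
      field_simp
      ring
    have hne2 : 1 - u * h ≠ 0 := by
      intro h2
      rw [e1, h2, mul_zero] at hne
      exact hne rfl
    have e2 : (1 - ‖q‖ ^ 2 : ℝ) / (1 - conj q * (q + h)) = 1 / (1 - u * h) := by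
      rw [e1]; field_simp
    have e3 : (f (q + h) - w) / (f q - w) = 1 + a * h + h ^ 2 * b h := by
      rw [hF3 h, ha, hb]; field_simp; ring
    have hd' : d h * (1 - u * h) ^ 2 = 3 * u ^ 2 - 2 * u ^ 3 * h :=
      div_mul_cancel₀ _ (pow_ne_zero 2 hne2)
    rw [h3P, e2, e3, div_pow, one_pow, mul_one_div, div_eq_iff (pow_ne_zero 2 hne2)]
    linear_combination (-(h ^ 2 * (1 + a * h + h ^ 2 * b h))) * hd'


lemma h3_norm_sq (a : ℂ) : ‖a‖ ^ 2 = a.re * a.re + a.im * a.im := by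
  rw [← Complex.normSq_eq_norm_sq, Complex.normSq_apply]

lemma h3_one_add (y : ℝ) (v : ℂ) :
    ‖1 + (y : ℂ) * v‖ ^ 2 = 1 + 2 * y * v.re + y ^ 2 * ‖v‖ ^ 2 := by
  rw [h3_norm_sq, h3_norm_sq v]
  simp
  ring

lemma h3_inball {q : ℂ} (hq : q ∈ ball (0 : ℂ) 1) (e : ℂ) :
    ∀ᶠ x : ℝ in 𝓝 0, q + x * e ∈ ball (0 : ℂ) 1 := by
  have : ContinuousAt (fun x : ℝ => q + x * e) 0 := by fun_prop
  apply this.eventually_mem
  simpa using isOpen_ball.mem_nhds hq

/-- First order: a descending direction exists when the linear coefficient is not zero. -/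
lemma h3_first {f : ℂ → ℂ} {R : ℝ} (hf : Nice f R) {w q : ℂ} (hq : q ∈ ball (0 : ℂ) 1)
    (hw : f q ≠ w) {e : ℂ} (he : ‖e‖ = 1)
    (hc : ((deriv f q / (f q - w) + 2 * (conj q / (1 - ‖q‖ ^ 2 : ℝ))) * e).re < 0) :
    ∀ᶠ x : ℝ in 𝓝 0, 0 < x → PHI f w (q + x * e) < PHI f w q := by
  obtain ⟨T, hT1, -, hT3⟩ := h3_P_expand hf hq hw
  set c : ℂ := deriv f q / (f q - w) + 2 * (conj q / (1 - ‖q‖ ^ 2 : ℝ)) with hcdef
  have hq1 := h3_den hq
  set G : ℝ → ℝ := fun x => 2 * (e * (c + x * e * T (x * e))).re +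
    x * ‖e * (c + x * e * T (x * e))‖ ^ 2 +
    x * (2 / ‖1 - conj q * (q + x * e)‖ ^ 2 - x ^ 2 / (‖1 - conj q * (q + x * e)‖ ^ 2) ^ 2) with hG
  have hx : ContinuousAt (fun x : ℝ => ((x : ℂ) * e)) 0 := by fun_prop
  have hTx : ContinuousAt (fun x : ℝ => T (x * e)) 0 :=
    ContinuousAt.comp (g := T) (by simpa using hT1) hx
  have hTT : ContinuousAt (fun x : ℝ => e * (c + x * e * T (x * e))) 0 :=
    continuousAt_const.mul (continuousAt_const.add (hx.mul hTx))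
  have hm : ContinuousAt (fun x : ℝ => ‖1 - conj q * (q + x * e)‖ ^ 2) 0 := by fun_prop
  have hne0 : ‖1 - conj q * (q + (0 : ℝ) * e)‖ ^ 2 ≠ 0 := by
    have := h3_ne hq hq
    simpa using this
  have hGc : ContinuousAt G 0 := by
    apply ContinuousAt.add
    · apply ContinuousAt.add
      · exact continuousAt_const.mul (Complex.continuous_re.continuousAt.comp hTT)
      · exact continuousAt_id.mul ((hTT.norm).pow 2)
    · apply ContinuousAt.mul continuousAt_id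
      apply ContinuousAt.sub
      · exact continuousAt_const.div hm hne0
      · exact (continuousAt_id.pow 2).div (hm.pow 2) (pow_ne_zero 2 hne0)
  have hG0 : G 0 < 0 := by
    simp only [hG]
    have : (e * c).re = (c * e).re := by rw [mul_comm]
    simp
    rw [← Complex.mul_re, this]
    linarith
  filter_upwards [hGc.eventually_lt_const hG0, h3_inball hq e] with x hxG hxb hx0
  apply h3_lt hq hxb hw
  have hP := hT3 (x * e) hxb
  have hform : h3P f w q (x * e) = 1 + x * (e * (c + x * e * T (x * e))) := by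
    rw [hP]; ring
  have hS : h3S q (x * e) = 1 - x ^ 2 / ‖1 - conj q * (q + x * e)‖ ^ 2 := by
    rw [h3S, norm_mul, he, Complex.norm_real, Real.norm_eq_abs, mul_one, sq_abs]
  have hpos : 0 < ‖1 - conj q * (q + x * e)‖ ^ 2 := by
    have := h3_ne hq hxb
    positivity
  have key : ‖h3P f w q (x * e)‖ ^ 2 - h3S q (x * e) ^ 2 = x * G x := by
    rw [hform, hS]
    simp only [hG]
    set v : ℂ := e * (c + x * e * T (x * e))
    set m : ℝ := ‖1 - conj q * (q + x * e)‖ ^ 2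
    have h1 : ‖1 + x * v‖ ^ 2 = 1 + 2 * x * v.re + x ^ 2 * ‖v‖ ^ 2 := by
      rw [h3_norm_sq, h3_norm_sq v]
      simp
      ring
    rw [h1]
    field_simp
    ring
  rw [key]
  exact mul_neg_of_pos_of_neg hx0 hxG

/-- Second order comparison along a direction. -/
lemma h3_second {f : ℂ → ℂ} {R : ℝ} (hf : Nice f R) {w q : ℂ} (hq : q ∈ ball (0 : ℂ) 1)
    (hw : f q ≠ w) (hc : deriv f q / (f q - w) + 2 * (conj q / (1 - ‖q‖ ^ 2 : ℝ)) = 0)
    {e : ℂ} (he : ‖e‖ = 1) :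
    (((e ^ 2 * (deriv (deriv f) q / (2 * (f q - w)) -
        (conj q / (1 - ‖q‖ ^ 2 : ℝ)) ^ 2)).re + 1 / (1 - ‖q‖ ^ 2) ^ 2 < 0) →
      ∀ᶠ x : ℝ in 𝓝 0, x ≠ 0 → PHI f w (q + x * e) < PHI f w q) ∧
    ((0 < (e ^ 2 * (deriv (deriv f) q / (2 * (f q - w)) -
        (conj q / (1 - ‖q‖ ^ 2 : ℝ)) ^ 2)).re + 1 / (1 - ‖q‖ ^ 2) ^ 2) →
      ∀ᶠ x : ℝ in 𝓝 0, x ≠ 0 → PHI f w q < PHI f w (q + x * e)) := by
  obtain ⟨T, hT1, hT2, hT3⟩ := h3_P_expand hf hq hw
  have hq1 := h3_den hq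
  have hT0 : T 0 = deriv (deriv f) q / (2 * (f q - w)) - (conj q / (1 - ‖q‖ ^ 2 : ℝ)) ^ 2 := by
    rw [hT2]
    have : deriv f q / (f q - w) = -(2 * (conj q / (1 - ‖q‖ ^ 2 : ℝ))) :=
      eq_neg_of_add_eq_zero_left hc
    rw [this]; ring
  rw [← hT0]
  set G : ℝ → ℝ := fun x => 2 * (e ^ 2 * T (x * e)).re +
    x ^ 2 * ‖e ^ 2 * T (x * e)‖ ^ 2 +
    (2 / ‖1 - conj q * (q + x * e)‖ ^ 2 - x ^ 2 / (‖1 - conj q * (q + x * e)‖ ^ 2) ^ 2) with hG
  have hx : ContinuousAt (fun x : ℝ => ((x : ℂ) * e)) 0 := by fun_prop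
  have hTx : ContinuousAt (fun x : ℝ => T (x * e)) 0 :=
    ContinuousAt.comp (g := T) (by simpa using hT1) hx
  have hTT : ContinuousAt (fun x : ℝ => e ^ 2 * T (x * e)) 0 := continuousAt_const.mul hTx
  have hm : ContinuousAt (fun x : ℝ => ‖1 - conj q * (q + x * e)‖ ^ 2) 0 := by fun_prop
  have hne0 : ‖1 - conj q * (q + (0 : ℝ) * e)‖ ^ 2 ≠ 0 := by
    have := h3_ne hq hq
    simpa using this
  have hGc : ContinuousAt G 0 := by
    apply ContinuousAt.add
    · apply ContinuousAt.add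
      · exact continuousAt_const.mul (Complex.continuous_re.continuousAt.comp hTT)
      · exact (continuousAt_id.pow 2).mul ((hTT.norm).pow 2)
    · apply ContinuousAt.sub
      · exact continuousAt_const.div hm hne0
      · exact (continuousAt_id.pow 2).div (hm.pow 2) (pow_ne_zero 2 hne0)
  have hcq : conj q * q = ((‖q‖ ^ 2 : ℝ) : ℂ) := by
    rw [mul_comm, Complex.mul_conj, Complex.normSq_eq_norm_sq]
  have hG0 : G 0 = 2 * ((e ^ 2 * T 0).re + 1 / (1 - ‖q‖ ^ 2) ^ 2) := by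
    simp only [hG]
    have h1 : ‖1 - conj q * (q + ((0 : ℝ) : ℂ) * e)‖ = 1 - ‖q‖ ^ 2 := by
      rw [Complex.ofReal_zero, zero_mul, add_zero, hcq, ← Complex.ofReal_one,
        ← Complex.ofReal_sub, Complex.norm_real, Real.norm_eq_abs, abs_of_pos hq1]
    rw [h1, Complex.ofReal_zero, zero_mul]
    ring
  have key : ∀ x : ℝ, q + x * e ∈ ball (0 : ℂ) 1 →
      ‖h3P f w q (x * e)‖ ^ 2 - h3S q (x * e) ^ 2 = x ^ 2 * G x := by
    intro x hxb
    have hP := hT3 (x * e) hxb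
    have hform : h3P f w q (x * e) = 1 + x ^ 2 * (e ^ 2 * T (x * e)) := by
      rw [hP, hc]; ring
    have hS : h3S q (x * e) = 1 - x ^ 2 / ‖1 - conj q * (q + x * e)‖ ^ 2 := by
      rw [h3S, norm_mul, he, Complex.norm_real, Real.norm_eq_abs, mul_one, sq_abs]
    have hpos : 0 < ‖1 - conj q * (q + x * e)‖ ^ 2 := by
      have := h3_ne hq hxb
      positivity
    rw [hform, hS]
    simp only [hG]
    set v : ℂ := e ^ 2 * T (x * e)
    set m : ℝ := ‖1 - conj q * (q + x * e)‖ ^ 2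
    have h1 : ‖1 + (x : ℂ) ^ 2 * v‖ ^ 2 = 1 + 2 * x ^ 2 * v.re + x ^ 4 * ‖v‖ ^ 2 := by
      rw [← Complex.ofReal_pow, h3_one_add]
      ring
    rw [h1]
    field_simp
    ring
  constructor
  · intro hneg
    have hG0' : G 0 < 0 := by rw [hG0]; linarith
    filter_upwards [hGc.eventually_lt_const hG0', h3_inball hq e] with x hxG hxb hx0
    apply h3_lt hq hxb hw
    rw [key x hxb]
    exact mul_neg_of_pos_of_neg (by positivity) hxG
  · intro hpos
    have hG0' : 0 < G 0 := by rw [hG0]; linarith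
    filter_upwards [hGc.eventually_const_lt hG0', h3_inball hq e] with x hxG hxb hx0
    apply h3_gt hq hxb hw
    rw [key x hxb]
    positivity


lemma h3_crit {f : ℂ → ℂ} {w z : ℂ} (hz : z ∈ ball (0 : ℂ) 1) (h0 : z ≠ 0)
    (hd : deriv f z ≠ 0) (hE : EE f z = w) :
    f z ≠ w ∧ PHI f w z = XX f z ∧ f z - w = -((tau z : ℂ) * deriv f z / conj z) ∧
      deriv f z / (f z - w) + 2 * (conj z / (1 - ‖z‖ ^ 2 : ℝ)) = 0 := by
  have hq1 := h3_den hz
  have ht : 0 < tau z := by unfold tau; linarith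
  have htc : (tau z : ℂ) ≠ 0 := by exact_mod_cast ht.ne'
  have hcz : conj z ≠ 0 := by simpa using h0
  have e1 : f z - w = -((tau z : ℂ) * deriv f z / conj z) := by
    rw [← hE, EE]; ring
  have hne : f z - w ≠ 0 := by
    rw [e1]
    exact neg_ne_zero.mpr (div_ne_zero (mul_ne_zero htc hd) hcz)
  refine ⟨sub_ne_zero.mp hne, ?_, e1, ?_⟩
  · unfold PHI XX
    rw [e1, norm_neg, norm_div, norm_mul, Complex.norm_real, Real.norm_eq_abs, abs_of_pos ht,
      Complex.norm_conj]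
    have : 0 < ‖z‖ := norm_pos_iff.mpr h0
    field_simp
  · rw [e1]
    have h2 : ((1 - ‖z‖ ^ 2 : ℝ) : ℂ) = 2 * (tau z : ℂ) := by
      unfold tau; push_cast; ring
    rw [h2]
    field_simp
    ring

/-- The second order coefficient in terms of `Ez`. -/
lemma h3_beta {f : ℂ → ℂ} {w z : ℂ} (hz : z ∈ ball (0 : ℂ) 1) (h0 : z ≠ 0)
    (hd : deriv f z ≠ 0) (hE : EE f z = w) (hJ : 0 < JJ f z) :
    1 / (1 - ‖z‖ ^ 2) ^ 2 <
      ‖deriv (deriv f) z / (2 * (f z - w)) - (conj z / (1 - ‖z‖ ^ 2 : ℝ)) ^ 2‖ := by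
  obtain ⟨-, -, e1, -⟩ := h3_crit hz h0 hd hE
  have hq1 := h3_den hz
  have ht : 0 < tau z := by unfold tau; linarith
  have htc : (tau z : ℂ) ≠ 0 := by exact_mod_cast ht.ne'
  have hcz : conj z ≠ 0 := by simpa using h0
  have hz0 : 0 < ‖z‖ := norm_pos_iff.mpr h0
  have hd0 : 0 < ‖deriv f z‖ := norm_pos_iff.mpr hd
  have h2 : ((1 - ‖z‖ ^ 2 : ℝ) : ℂ) = 2 * (tau z : ℂ) := by
    unfold tau; push_cast; ring
  have h2' : 1 - ‖z‖ ^ 2 = 2 * tau z := by unfold tau; ring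
  have e2 : deriv (deriv f) z / (2 * (f z - w)) - (conj z / (1 - ‖z‖ ^ 2 : ℝ)) ^ 2 =
      -((conj z) ^ 2 / (2 * (tau z : ℂ) ^ 2 * deriv f z)) * Ez f z := by
    rw [e1, h2, Ez]
    field_simp
    ring
  rw [e2, norm_mul, norm_neg, norm_div, norm_mul, norm_mul, norm_pow, norm_pow,
    Complex.norm_conj, Complex.norm_real, Real.norm_eq_abs, abs_of_pos ht, h2']
  have h3 : ‖Ezb f z‖ < ‖Ez f z‖ := by
    unfold JJ at hJ
    by_contra hc
    rw [not_lt] at hc
    nlinarith [norm_nonneg (Ez f z)]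
  have h4 : ‖Ezb f z‖ = ‖deriv f z‖ / (2 * ‖z‖ ^ 2) := by
    unfold Ezb
    rw [norm_div, norm_neg, norm_mul, norm_pow, Complex.norm_conj]
    norm_num
  rw [h4] at h3
  have h5 : ‖(2 : ℂ)‖ = 2 := by norm_num
  rw [h5]
  calc 1 / (2 * tau z) ^ 2 = ‖z‖ ^ 2 / (2 * tau z ^ 2 * ‖deriv f z‖) *
        (‖deriv f z‖ / (2 * ‖z‖ ^ 2)) := by field_simp
    _ < _ := mul_lt_mul_of_pos_left h3 (by positivity)

lemma h3_dir (b : ℂ) : ∃ e : ℂ, ‖e‖ = 1 ∧ e ^ 2 * b = -(‖b‖ : ℂ) := by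
  refine ⟨cexp (((π - b.arg) / 2 : ℝ) * I), Complex.norm_exp_ofReal_mul_I _, ?_⟩
  have h1 : b = ‖b‖ * cexp (b.arg * I) := (Complex.norm_mul_exp_arg_mul_I b).symm
  rw [← Complex.exp_nat_mul]
  calc cexp ((2 : ℕ) * (((π - b.arg) / 2 : ℝ) * I)) * b
      = cexp ((2 : ℕ) * (((π - b.arg) / 2 : ℝ) * I)) * (‖b‖ * cexp (b.arg * I)) := by
        rw [← h1]
    _ = ‖b‖ * (cexp ((2 : ℕ) * (((π - b.arg) / 2 : ℝ) * I)) * cexp (b.arg * I)) := by ring
    _ = ‖b‖ * cexp (π * I) := by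
        rw [← Complex.exp_add]; congr 2; push_cast; ring
    _ = _ := by rw [Complex.exp_pi_mul_I]; ring

lemma h3_saddle {f : ℂ → ℂ} {R : ℝ} (hf : Nice f R) (hdf : ∀ z ∈ ball (0 : ℂ) 1, deriv f z ≠ 0)
    {w z : ℂ} (hz : z ∈ ball (0 : ℂ) 1) (h0 : z ≠ 0) (hE : EE f z = w) (hJ : 0 < JJ f z) :
    SaddleAt (PHI f w) z := by
  obtain ⟨hw, -, -, hc⟩ := h3_crit hz h0 (hdf z hz) hE
  have hb := h3_beta hz h0 (hdf z hz) hE hJ
  set b : ℂ := deriv (deriv f) z / (2 * (f z - w)) - (conj z / (1 - ‖z‖ ^ 2 : ℝ)) ^ 2 with hbdef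
  obtain ⟨e, he, heb⟩ := h3_dir b
  have heI : ‖I * e‖ = 1 := by rw [norm_mul, Complex.norm_I, one_mul, he]
  have hlow := (h3_second hf hz hw hc he).1 (by
    rw [← hbdef, heb, Complex.neg_re, Complex.ofReal_re]; linarith)
  have hup := (h3_second hf hz hw hc heI).2 (by
    have : (I * e) ^ 2 * b = ‖b‖ := by rw [mul_pow, Complex.I_sq]; linear_combination -heb
    rw [← hbdef, this, Complex.ofReal_re]
    have := h3_den hz
    positivity)
  have h1 := h3_inball hz e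
  have h2 := h3_inball hz (I * e)
  have hall : ∀ᶠ x : ℝ in 𝓝 0, z + x * e ∈ ball (0 : ℂ) 1 ∧ z + x * (I * e) ∈ ball (0 : ℂ) 1 ∧
      (x ≠ 0 → PHI f w (z + x * e) < PHI f w z) ∧
      (x ≠ 0 → PHI f w z < PHI f w (z + x * (I * e))) := by
    filter_upwards [hlow, hup, h1, h2] with x a1 a2 a3 a4
    exact ⟨a3, a4, a1, a2⟩
  obtain ⟨δ, hδ, hδ2⟩ := Metric.eventually_nhds_iff.mp hall
  refine ⟨e, he, δ / 2, by positivity, ?_⟩
  intro x hx0 hx
  have p1 := @hδ2 x (by rw [Real.dist_eq, sub_zero, abs_of_pos hx0]; linarith)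
  have p2 := @hδ2 (-x) (by rw [Real.dist_eq, sub_zero, abs_neg, abs_of_pos hx0]; linarith)
  have e1 : z + ((-x : ℝ) : ℂ) * e = z - x * e := by push_cast; ring
  have e2 : z + ((-x : ℝ) : ℂ) * (I * e) = z - x * (I * e) := by push_cast; ring
  rw [e1, e2] at p2
  have hxne : x ≠ 0 := hx0.ne'
  exact ⟨⟨p1.1, p2.1, p1.2.1, p2.2.1⟩, p1.2.2.1 hxne, p2.2.2.1 (neg_ne_zero.mpr hxne),
    p1.2.2.2 hxne, p2.2.2.2 (neg_ne_zero.mpr hxne)⟩

/-- **Block H3** from the non-vanishing of the derivative. -/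
theorem blockH3b_of (hH1 : BlockH1) : BlockH3 := by
  intro f R hf w z hz
  have hdf : ∀ z ∈ ball (0 : ℂ) 1, deriv f z ≠ 0 := fun z hz =>
    (hH1.2 f R hf).1 z (ball_subset_closedBall hz)
  refine ⟨?_, ?_, ?_⟩
  · intro hw hmin
    -- the linear coefficient vanishes
    have hc : deriv f z / (f z - w) + 2 * (conj z / (1 - ‖z‖ ^ 2 : ℝ)) = 0 := by
      by_contra hne
      set c : ℂ := deriv f z / (f z - w) + 2 * (conj z / (1 - ‖z‖ ^ 2 : ℝ)) with hcdef
      have hcn : 0 < ‖c‖ := norm_pos_iff.mpr hne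
      have he : ‖-(conj c / ‖c‖)‖ = 1 := by
        rw [norm_neg, norm_div, Complex.norm_conj, Complex.norm_real, norm_norm, div_self hcn.ne']
      have hre : (c * -(conj c / ‖c‖)).re < 0 := by
        have : c * -(conj c / ‖c‖) = ((-‖c‖ : ℝ) : ℂ) := by
          rw [mul_neg, ← mul_div_assoc, Complex.mul_conj, Complex.normSq_eq_norm_sq]
          have : (‖c‖ : ℂ) ≠ 0 := by exact_mod_cast hcn.ne'
          push_cast
          field_simp
        rw [this, Complex.ofReal_re]; linarith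
      have h1 := h3_first hf hz hw he hre
      have h2 : ∀ᶠ x : ℝ in 𝓝 0, PHI f w z ≤ PHI f w (z + x * -(conj c / ‖c‖)) := by
        have hcont : ContinuousAt (fun x : ℝ => z + x * -(conj c / ‖c‖)) 0 := by fun_prop
        have := hcont.tendsto
        simp only [Complex.ofReal_zero, zero_mul, add_zero] at this
        exact this.eventually hmin
      obtain ⟨x, hx0, hx⟩ := ((h1.and h2).filter_mono (nhdsWithin_le_nhds (s := Ioi 0))).and
        self_mem_nhdsWithin |>.exists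
      exact absurd (hx0.1 hx) (not_lt.mpr hx0.2)
    have hq1 := h3_den hz
    have hs : ((1 - ‖z‖ ^ 2 : ℝ) : ℂ) ≠ 0 := by exact_mod_cast hq1.ne'
    have hN : f z - w ≠ 0 := sub_ne_zero.mpr hw
    have h0 : z ≠ 0 := by
      rintro rfl
      simp only [map_zero, zero_div, mul_zero, add_zero] at hc
      exact div_ne_zero (hdf 0 hz) hN hc
    have hcz : conj z ≠ 0 := by simpa using h0
    have hE : EE f z = w := by
      have h2 : ((1 - ‖z‖ ^ 2 : ℝ) : ℂ) = 2 * (tau z : ℂ) := by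
        unfold tau; push_cast; ring
      rw [h2] at hc hs
      have ht : (tau z : ℂ) ≠ 0 := by
        intro h; rw [h] at hs; simp at hs
      rw [EE]
      field_simp at hc ⊢
      linear_combination hc
    refine ⟨h0, hE, ?_⟩
    by_contra hJ
    rw [not_le] at hJ
    obtain ⟨e, he, δ, hδ, hall⟩ := h3_saddle hf hdf hz h0 hE hJ
    have h2 : ∀ᶠ x : ℝ in 𝓝 0, PHI f w z ≤ PHI f w (z + x * e) := by
      have hcont : ContinuousAt (fun x : ℝ => z + x * e) 0 := by fun_prop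
      have := hcont.tendsto
      simp only [Complex.ofReal_zero, zero_mul, add_zero] at this
      exact this.eventually hmin
    have h3 : ∀ᶠ x : ℝ in 𝓝[>] 0, x ≤ δ := by
      filter_upwards [Ioc_mem_nhdsGT hδ] with x hx using hx.2
    obtain ⟨x, hx0, hx⟩ := ((h2.filter_mono (nhdsWithin_le_nhds (s := Ioi 0))).and h3).and
        self_mem_nhdsWithin |>.exists
    exact absurd (hall x hx hx0.2).2.1 (not_lt.mpr hx0.1)
  · intro h0 hE
    obtain ⟨h1, h2, -, -⟩ := h3_crit hz h0 (hdf z hz) hE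
    exact ⟨h1, h2⟩
  · intro h0 hE hJ
    exact h3_saddle hf hdf hz h0 hE hJ

end Vale.Agent.P142.Brn
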