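import Vale.Agent.P142.Brn.Defs

open Complex MeasureTheory Metric Set Filter Topology
open scoped Real ComplexConjugate ENNReal

namespace Vale.Agent.P142.Brn

theorem blockH4_of (hT : BlockT) (hH2 : BlockH2) (hH3 : BlockH3) : BlockH4 := by
  intro f R hf w hw hreg t ht
  set St : Set ℂ := {z | z ∈ PD ∧ EE f z = w ∧ 0 < JJ f z ∧ XX f z < t} with hSt
  set Mt : Set ℂ := {z | z ∈ PD ∧ EE f z = w ∧ JJ f z < 0 ∧ XX f z < t} with hMt
  by_cases hfin : Mt.Finite
  swap
  · rw [Set.Infinite.encard_eq hfin]; exact le_top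
  obtain ⟨hc, hp, hm⟩ := hH2 f R hf w hw
  -- the pole
  set P : Set ℂ := {z | z ∈ ball (0 : ℂ) 1 ∧ f z = w} with hP
  have hball : ball (0 : ℂ) 1 ⊆ ball 0 R := ball_subset_ball hf.one_lt.le
  have hPs : P.Subsingleton := by
    intro a ha b hb
    exact hf.inj (hball ha.1) (hball hb.1) (ha.2.trans hb.2.symm)
  have hPf : P.Finite := hPs.finite
  have hPc : hPf.toFinset.card ≤ 1 := by
    rw [Finset.card_le_one]
    intro a ha b hb
    rw [Set.Finite.mem_toFinset] at ha hb
    exact hPs ha hb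
  have key : ∀ S : Finset ℂ, (S : Set ℂ) ⊆ St → S.card ≤ hfin.toFinset.card := by
    intro S hS
    rcases S.eq_empty_or_nonempty with rfl | hne
    · simp
    have h := hT (PHI f w) t S (hfin.toFinset ∪ hPf.toFinset) hc hp hm ?_ ?_ hne
    · have h2 := Finset.card_union_le hfin.toFinset hPf.toFinset
      omega
    · intro s hs
      obtain ⟨h1, h2, h3, h4⟩ := hS hs
      have hs0 : s ≠ 0 := fun h => h1.2 (by simp [h])
      obtain ⟨-, hb, hcc⟩ := hH3 f R hf w s h1.1
      exact ⟨h1.1, by rw [(hb hs0 h2).2]; exact h4, hcc hs0 h2 h3⟩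
    · intro z hz hzt hmin
      rw [Finset.mem_union, Set.Finite.mem_toFinset, Set.Finite.mem_toFinset]
      by_cases hzw : f z = w
      · exact Or.inr ⟨hz, hzw⟩
      left
      obtain ⟨ha, hb, -⟩ := hH3 f R hf w z hz
      obtain ⟨h0, hE, hJ⟩ := ha hzw hmin
      have hzP : z ∈ PD := ⟨hz, h0⟩
      refine ⟨hzP, hE, lt_of_le_of_ne hJ (hreg z hzP hE), ?_⟩
      rw [← (hb h0 hE).2]; exact hzt
  by_contra hcon
  rw [not_le] at hcon
  have hMcard : Mt.encard = (hfin.toFinset.card : ℕ∞) := hfin.encard_eq_coe_toFinset_card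
  rw [hMcard] at hcon
  have h1 : ((hfin.toFinset.card + 1 : ℕ) : ℕ∞) ≤ St.encard := by
    have := Order.add_one_le_of_lt hcon
    simpa using this
  obtain ⟨T, hTS, hTc⟩ := Set.exists_subset_encard_eq h1
  have hTf : T.Finite := Set.finite_of_encard_eq_coe hTc
  have h2 := key hTf.toFinset (by simpa using hTS)
  have h3 : hTf.toFinset.card = hfin.toFinset.card + 1 := by
    have := hTf.encard_eq_coe_toFinset_card
    rw [hTc] at this
    exact_mod_cast this.symm
  omega

end Vale.Agent.P142.Brn
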