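import Vale.Agent.P142.Brn.Defs

open Complex MeasureTheory Metric Set Filter Topology
open scoped Real ComplexConjugate ENNReal

namespace Vale.Agent.P142.Brn

/-- The Jacobian in explicit form. -/
noncomputable def JE (f : ℂ → ℂ) (z : ℂ) : ℝ :=
  ‖deriv f z / 2 + (1 - (‖z‖ : ℂ) ^ 2) / (2 * (starRingEnd ℂ) z) * deriv (deriv f) z‖ ^ 2 -
    ‖deriv f z‖ ^ 2 / (4 * ‖z‖ ^ 4)

lemma JE_eq (f : ℂ → ℂ) (z : ℂ) : JE f z = JJ f z := by
  unfold JE JJ Ez Ezb tau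
  congr 1
  · congr 2
    push_cast
    by_cases hz : z = 0
    · simp [hz]
    · have : (starRingEnd ℂ) z ≠ 0 := by simpa using hz
      field_simp
  · rw [norm_div, norm_neg, norm_mul, norm_pow, Complex.norm_conj, div_pow]
    congr 1
    norm_num
    ring

theorem key_of (hH1 : BlockH1) (hA3 : BlockA3) {f : ℂ → ℂ} {R : ℝ} (hR : 1 < R)
    (hf : DifferentiableOn ℂ f (ball 0 R)) (hinj : Set.InjOn f (ball 0 R)) {t : ℝ} (ht : 0 < t) :
    ∫⁻ z in {z : ℂ | ‖z‖ < 1 ∧ ‖deriv f z‖ < t * ‖z‖}, ENNReal.ofReal (JE f z) ≤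
      ∫⁻ z in {z : ℂ | ‖z‖ < 1 ∧ ‖deriv f z‖ < t * ‖z‖}, ENNReal.ofReal (- JE f z) := by
  have hN : Nice f R := ⟨hR, hf, hinj⟩
  obtain ⟨-, h1⟩ := hH1
  obtain ⟨-, -, -, hX, hJ⟩ := h1 f R hN
  set S : Set ℂ := {z : ℂ | ‖z‖ < 1 ∧ ‖deriv f z‖ < t * ‖z‖} with hS
  have hSPD : S = {z | z ∈ PD ∧ XX f z < t} := by
    ext z
    simp only [hS, mem_setOf_eq, PD, mem_diff, mem_ball_zero_iff, mem_singleton_iff, XX]
    constructor
    · rintro ⟨h1, h2⟩
      have hz : z ≠ 0 := by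
        rintro rfl
        simp at h2
        exact absurd h2 (not_lt.mpr (norm_nonneg _))
      exact ⟨⟨h1, hz⟩, by rwa [div_lt_iff₀ (norm_pos_iff.mpr hz)]⟩
    · rintro ⟨⟨h1, hz⟩, h2⟩
      exact ⟨h1, by rwa [div_lt_iff₀ (norm_pos_iff.mpr hz)] at h2⟩
  have hPDo : IsOpen (PD) := isOpen_ball.sdiff isClosed_singleton
  have hsub : PD ⊆ closedBall (0 : ℂ) 1 \ {0} := diff_subset_diff_left ball_subset_closedBall
  have hJ' := hJ.mono hsub
  have hX' := hX.mono hsub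
  have hSo : IsOpen S := by
    rw [hSPD]
    exact hX'.isOpen_inter_preimage hPDo isOpen_Iio
  have hSsub : S ⊆ PD := by rw [hSPD]; exact fun z hz => hz.1
  have hJS := hJ'.mono hSsub
  have hpos : IsOpen (S ∩ JJ f ⁻¹' Ioi 0) := hJS.isOpen_inter_preimage hSo isOpen_Ioi
  have hneg : IsOpen (S ∩ JJ f ⁻¹' Iio 0) := hJS.isOpen_inter_preimage hSo isOpen_Iio
  have e1 : ∫⁻ z in S, ENNReal.ofReal (JE f z) =
      ∫⁻ z in {z | z ∈ PD ∧ 0 < JJ f z ∧ XX f z < t}, ENNReal.ofReal (JJ f z) := by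
    have hset : {z | z ∈ PD ∧ 0 < JJ f z ∧ XX f z < t} = S ∩ JJ f ⁻¹' Ioi 0 := by
      rw [hSPD]; ext z; simp only [mem_setOf_eq, mem_inter_iff, mem_preimage, mem_Ioi]; tauto
    rw [hset, ← lintegral_indicator hSo.measurableSet, ← lintegral_indicator hpos.measurableSet]
    apply lintegral_congr
    intro z
    by_cases hz : z ∈ S
    · by_cases hz2 : 0 < JJ f z
      · rw [indicator_of_mem hz, indicator_of_mem (show z ∈ S ∩ JJ f ⁻¹' Ioi 0 from ⟨hz, hz2⟩),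
          JE_eq]
      · rw [indicator_of_mem hz, indicator_of_notMem (fun h => hz2 h.2), JE_eq,
          ENNReal.ofReal_of_nonpos (not_lt.mp hz2)]
    · rw [indicator_of_notMem hz, indicator_of_notMem (fun h => hz h.1)]
  have e2 : ∫⁻ z in S, ENNReal.ofReal (- JE f z) =
      ∫⁻ z in {z | z ∈ PD ∧ JJ f z < 0 ∧ XX f z < t}, ENNReal.ofReal (-JJ f z) := by
    have hset : {z | z ∈ PD ∧ JJ f z < 0 ∧ XX f z < t} = S ∩ JJ f ⁻¹' Iio 0 := by
      rw [hSPD]; ext z; simp only [mem_setOf_eq, mem_inter_iff, mem_preimage, mem_Iio]; tauto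
    rw [hset, ← lintegral_indicator hSo.measurableSet, ← lintegral_indicator hneg.measurableSet]
    apply lintegral_congr
    intro z
    by_cases hz : z ∈ S
    · by_cases hz2 : JJ f z < 0
      · rw [indicator_of_mem hz, indicator_of_mem (show z ∈ S ∩ JJ f ⁻¹' Iio 0 from ⟨hz, hz2⟩),
          JE_eq]
      · rw [indicator_of_mem hz, indicator_of_notMem (fun h => hz2 h.2), JE_eq,
          ENNReal.ofReal_of_nonpos (by linarith [not_lt.mp hz2])]
    · rw [indicator_of_notMem hz, indicator_of_notMem (fun h => hz h.1)]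
  rw [e1, e2]
  exact hA3 f R hN t ht

end Vale.Agent.P142.Brn
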