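import Mathlib

/-!
P142, Brennan's conjecture: layer cake comparison (abstract part of block I).
-/

open MeasureTheory Set
open scoped ENNReal

namespace Vale.Agent.P142.Brn

noncomputable section

variable {α : Type*} [MeasurableSpace α] {μ : Measure α}

/-- comparison of the weights of the superlevel sets gives the comparison of the moments -/
theorem lintegral_rpow_mul_le {Y : α → ℝ} (hY : Measurable Y) (hY0 : ∀ z, 0 ≤ Y z)
    {g h : α → ℝ≥0∞} (hg : Measurable g) (hh : Measurable h) {q : ℝ} (hq : 0 < q)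
    (H : ∀ t : ℝ, 0 < t → ∫⁻ z in {z | t < Y z}, g z ∂μ ≤ ∫⁻ z in {z | t < Y z}, h z ∂μ) :
    ∫⁻ z, ENNReal.ofReal (Y z ^ q) * g z ∂μ ≤ ∫⁻ z, ENNReal.ofReal (Y z ^ q) * h z ∂μ := by
  have key : ∀ {g : α → ℝ≥0∞}, Measurable g → ∫⁻ z, ENNReal.ofReal (Y z ^ q) * g z ∂μ =
      ENNReal.ofReal q * ∫⁻ t in Ioi (0 : ℝ), (∫⁻ z in {z | t < Y z}, g z ∂μ) *
        ENNReal.ofReal (t ^ (q - 1)) := by
    intro g hg
    have h1 := lintegral_rpow_eq_lintegral_meas_lt_mul (μ := μ.withDensity g) (f := Y)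
      (Filter.Eventually.of_forall hY0) hY.aemeasurable hq
    have h2 : ∫⁻ z, ENNReal.ofReal (Y z ^ q) ∂(μ.withDensity g) =
        ∫⁻ z, ENNReal.ofReal (Y z ^ q) * g z ∂μ := by
      rw [lintegral_withDensity_eq_lintegral_mul _ hg (hY.pow_const q).ennreal_ofReal]
      refine lintegral_congr fun z => ?_
      rw [Pi.mul_apply, mul_comm]
    rw [← h2, h1]
    congr 1
    refine lintegral_congr fun t => ?_
    rw [withDensity_apply _ (measurableSet_lt measurable_const hY)]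
  rw [key hg, key hh]
  refine mul_le_mul_right ?_ _
  refine setLIntegral_mono' measurableSet_Ioi fun t ht => ?_
  exact mul_le_mul_left (H t ht) _

/-- real form: if `∫_{t < Y} J ≤ 0` in the sense of positive and negative parts for every level,
then `∫ Y^q J ≤ 0`. -/
theorem integral_rpow_mul_nonpos {Y J : α → ℝ} (hY : Measurable Y) (hY0 : ∀ z, 0 ≤ Y z)
    (hJ : Measurable J) {q : ℝ} (hq : 0 < q)
    (H : ∀ t : ℝ, 0 < t → ∫⁻ z in {z | t < Y z}, ENNReal.ofReal (J z) ∂μ ≤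
      ∫⁻ z in {z | t < Y z}, ENNReal.ofReal (-J z) ∂μ)
    (hI : Integrable (fun z => Y z ^ q * J z) μ) : ∫ z, Y z ^ q * J z ∂μ ≤ 0 := by
  have h1 := lintegral_rpow_mul_le hY hY0 hJ.ennreal_ofReal hJ.neg.ennreal_ofReal hq H
  have e1 : ∀ z, ENNReal.ofReal (Y z ^ q) * ENNReal.ofReal (J z) =
      ENNReal.ofReal (Y z ^ q * J z) := fun z =>
    (ENNReal.ofReal_mul (Real.rpow_nonneg (hY0 z) q)).symm
  have e2 : ∀ z, ENNReal.ofReal (Y z ^ q) * ENNReal.ofReal (-J z) =
      ENNReal.ofReal (-(Y z ^ q * J z)) := fun z => by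
    rw [← ENNReal.ofReal_mul (Real.rpow_nonneg (hY0 z) q), mul_neg]
  simp only [e1, Pi.neg_apply, e2] at h1
  rw [integral_eq_lintegral_pos_part_sub_lintegral_neg_part hI, sub_nonpos]
  refine ENNReal.toReal_mono ?_ h1
  have h3 := hI.neg.lintegral_lt_top
  exact h3.ne

end

end Vale.Agent.P142.Brn
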