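import Vale.Agent.P142.Brn.Defs
import Vale.Agent.P142.Brn.LayerAbs

/-!
# Brennan's conjecture, block I: layer cake in the critical value
-/

open Complex MeasureTheory Metric Set Filter Topology
open scoped Real ComplexConjugate ENNReal

namespace Vale.Agent.P142.Brn

noncomputable section

theorem measurable_XX (f : ℂ → ℂ) : Measurable (XX f) :=
  (measurable_deriv f).norm.div measurable_norm

theorem measurable_tau : Measurable tau := by
  unfold tau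
  fun_prop

theorem measurable_Ez (f : ℂ → ℂ) : Measurable (Ez f) := by
  have h1 := measurable_deriv f
  have h2 := measurable_deriv (deriv f)
  have h3 := measurable_tau
  unfold Ez
  have h4 : Measurable fun z : ℂ => conj z := continuous_conj.measurable
  exact (h1.div_const 2).add (((measurable_ofReal.comp h3).mul h2).div h4)

theorem measurable_Ezb (f : ℂ → ℂ) : Measurable (Ezb f) := by
  have h1 := measurable_deriv f
  unfold Ezb
  have h4 : Measurable fun z : ℂ => conj z := continuous_conj.measurable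
  exact h1.neg.div ((h4.pow_const 2).const_mul 2)

theorem measurable_JJ (f : ℂ → ℂ) : Measurable (JJ f) := by
  unfold JJ
  exact ((measurable_Ez f).norm.pow_const 2).sub ((measurable_Ezb f).norm.pow_const 2)

theorem XX_nonneg (f : ℂ → ℂ) (z : ℂ) : 0 ≤ XX f z := by
  unfold XX
  positivity

theorem XX_rpow_neg (f : ℂ → ℂ) (z : ℂ) (q : ℝ) :
    XX f z ^ (-q) = (‖z‖ / ‖deriv f z‖) ^ q := by
  rw [Real.rpow_neg (XX_nonneg f z), ← Real.inv_rpow (XX_nonneg f z)]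
  unfold XX
  rw [inv_div]

theorem setLIntegral_pos_part {A : Set ℂ} {J : ℂ → ℝ} (hJ : Measurable J) :
    ∫⁻ z in A, ENNReal.ofReal (J z) = ∫⁻ z in {z | 0 < J z} ∩ A, ENNReal.ofReal (J z) := by
  rw [← setLIntegral_indicator (measurableSet_lt measurable_const hJ)]
  refine lintegral_congr fun z => ?_
  by_cases h : 0 < J z
  · rw [indicator_of_mem (show z ∈ {z | 0 < J z} from h)]
  · rw [indicator_of_notMem (show z ∉ {z | 0 < J z} from h),
      ENNReal.ofReal_of_nonpos (not_lt.1 h)]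

/-- the levels of `1 / X` -/
theorem level_le (h1 : BlockH1) (h3 : BlockA3) {f : ℂ → ℂ} {R : ℝ} (hf : Nice f R) {s : ℝ}
    (hs : 0 < s) :
    ∫⁻ z in {z | s < ‖z‖ / ‖deriv f z‖}, ENNReal.ofReal (JJ f z) ∂(volume.restrict (ball 0 1)) ≤
      ∫⁻ z in {z | s < ‖z‖ / ‖deriv f z‖}, ENNReal.ofReal (-JJ f z)
        ∂(volume.restrict (ball 0 1)) := by
  have hne := (h1.2 f R hf).1
  have hJ := measurable_JJ f
  have hms : MeasurableSet {z : ℂ | s < ‖z‖ / ‖deriv f z‖} :=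
    measurableSet_lt measurable_const (measurable_norm.div (measurable_deriv f).norm)
  rw [Measure.restrict_restrict hms]
  have hset : {z : ℂ | s < ‖z‖ / ‖deriv f z‖} ∩ ball 0 1 = {z | z ∈ PD ∧ XX f z < s⁻¹} := by
    ext z
    simp only [mem_inter_iff, mem_ofPred_eq, PD, Set.mem_sdiff, mem_singleton_iff]
    constructor
    · rintro ⟨h2, hz⟩
      have hd : 0 < ‖deriv f z‖ := norm_pos_iff.2 (hne z (ball_subset_closedBall hz))
      have hz0 : z ≠ 0 := by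
        rintro rfl
        rw [norm_zero, zero_div] at h2
        linarith
      have hzn : 0 < ‖z‖ := norm_pos_iff.2 hz0
      refine ⟨⟨hz, hz0⟩, ?_⟩
      unfold XX
      rw [lt_div_iff₀ hd] at h2
      rw [div_lt_iff₀ hzn, ← div_eq_inv_mul, lt_div_iff₀ hs, mul_comm]
      exact h2
    · rintro ⟨⟨hz, hz0⟩, h2⟩
      have hd : 0 < ‖deriv f z‖ := norm_pos_iff.2 (hne z (ball_subset_closedBall hz))
      have hzn : 0 < ‖z‖ := norm_pos_iff.2 hz0
      refine ⟨?_, hz⟩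
      unfold XX at h2
      rw [div_lt_iff₀ hzn, ← div_eq_inv_mul, lt_div_iff₀ hs, mul_comm] at h2
      rw [lt_div_iff₀ hd]
      exact h2
  have hJn : Measurable fun z => -JJ f z := hJ.neg
  rw [hset, setLIntegral_pos_part hJ, setLIntegral_pos_part hJn]
  have e1 : {z | 0 < JJ f z} ∩ {z | z ∈ PD ∧ XX f z < s⁻¹} =
      {z | z ∈ PD ∧ 0 < JJ f z ∧ XX f z < s⁻¹} := by
    ext z
    simp only [mem_inter_iff, mem_ofPred_eq]
    tauto
  have e2 : {z | 0 < -JJ f z} ∩ {z | z ∈ PD ∧ XX f z < s⁻¹} =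
      {z | z ∈ PD ∧ JJ f z < 0 ∧ XX f z < s⁻¹} := by
    ext z
    simp only [mem_inter_iff, mem_ofPred_eq, Left.neg_pos_iff]
    tauto
  rw [e1, e2]
  exact h3 f R hf s⁻¹ (inv_pos.2 hs)

/-- the weighted comparison, Tonelli form -/
theorem lintegral_weight_le (h1 : BlockH1) (h3 : BlockA3) {f : ℂ → ℂ} {R : ℝ} (hf : Nice f R)
    {q : ℝ} (hq : 0 < q) :
    ∫⁻ z in ball (0 : ℂ) 1, ENNReal.ofReal ((‖z‖ / ‖deriv f z‖) ^ q * JJ f z) ≤
      ∫⁻ z in ball (0 : ℂ) 1, ENNReal.ofReal (-((‖z‖ / ‖deriv f z‖) ^ q * JJ f z)) := by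
  have h := lintegral_rpow_mul_le (μ := volume.restrict (ball (0 : ℂ) 1))
    (Y := fun z : ℂ => ‖z‖ / ‖deriv f z‖) (measurable_norm.div (measurable_deriv f).norm)
    (fun z => by positivity) (measurable_JJ f).ennreal_ofReal (measurable_JJ f).neg.ennreal_ofReal
    hq (fun s hs => level_le h1 h3 hf hs)
  have e : ∀ (z : ℂ) (J : ℝ), ENNReal.ofReal ((‖z‖ / ‖deriv f z‖) ^ q) * ENNReal.ofReal J =
      ENNReal.ofReal ((‖z‖ / ‖deriv f z‖) ^ q * J) := fun z J =>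
    (ENNReal.ofReal_mul (by positivity)).symm
  simp only [e, Pi.neg_apply, mul_neg] at h
  exact h

/-- bounds of the derivatives on the closed disc -/
theorem exists_deriv_bounds (h1 : BlockH1) {f : ℂ → ℂ} {R : ℝ} (hf : Nice f R) :
    ∃ m M M2 : ℝ, 0 < m ∧ 0 ≤ M ∧ 0 ≤ M2 ∧ ∀ z ∈ closedBall (0 : ℂ) 1,
      m ≤ ‖deriv f z‖ ∧ ‖deriv f z‖ ≤ M ∧ ‖deriv (deriv f) z‖ ≤ M2 := by
  have hsub : closedBall (0 : ℂ) 1 ⊆ ball 0 R := closedBall_subset_ball hf.one_lt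
  have hd : DifferentiableOn ℂ (deriv f) (ball 0 R) := hf.diff.deriv isOpen_ball
  have hdd : DifferentiableOn ℂ (deriv (deriv f)) (ball 0 R) := hd.deriv isOpen_ball
  have hc1 : ContinuousOn (fun z => ‖deriv f z‖) (closedBall (0 : ℂ) 1) :=
    (hd.continuousOn.mono hsub).norm
  have hc2 : ContinuousOn (fun z => ‖deriv (deriv f) z‖) (closedBall (0 : ℂ) 1) :=
    (hdd.continuousOn.mono hsub).norm
  have hK : IsCompact (closedBall (0 : ℂ) 1) := isCompact_closedBall 0 1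
  have hne : (closedBall (0 : ℂ) 1).Nonempty := ⟨0, by simp⟩
  obtain ⟨a, ha, ha'⟩ := hK.exists_isMinOn hne hc1
  obtain ⟨b, hb, hb'⟩ := hK.exists_isMaxOn hne hc1
  obtain ⟨c, hc, hc'⟩ := hK.exists_isMaxOn hne hc2
  exact ⟨‖deriv f a‖, ‖deriv f b‖, ‖deriv (deriv f) c‖,
    norm_pos_iff.2 ((h1.2 f R hf).1 a ha), norm_nonneg _, norm_nonneg _,
    fun z hz => ⟨ha' hz, hb' hz, hc' hz⟩⟩

/-- the weighted Jacobian is bounded by `|z|^(p-2)` -/
theorem weight_JJ_le {f : ℂ → ℂ} {m M M2 : ℝ} (hm : 0 < m) (hM : 0 ≤ M) (hM2 : 0 ≤ M2) {z : ℂ}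
    (hz0 : z ≠ 0) (hz1 : ‖z‖ ≤ 1) (ha : m ≤ ‖deriv f z‖) (hb : ‖deriv f z‖ ≤ M)
    (hc : ‖deriv (deriv f) z‖ ≤ M2) {p : ℝ} (hp : 0 < p) :
    ‖XX f z ^ (-p - 2) * JJ f z‖ ≤
      (m ^ (p + 2))⁻¹ * ((M + M2) ^ 2 + M ^ 2) * ‖z‖ ^ (-(2 - p)) := by
  have hzn : 0 < ‖z‖ := norm_pos_iff.2 hz0
  have hd : 0 < ‖deriv f z‖ := lt_of_lt_of_le hm ha
  have hcz : ‖conj z‖ = ‖z‖ := RCLike.norm_conj z
  have htau : ‖(tau z : ℂ)‖ ≤ 1 / 2 := by
    rw [norm_real, Real.norm_eq_abs]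
    unfold tau
    have h5 : ‖z‖ ^ 2 ≤ 1 := by nlinarith
    rw [abs_of_nonneg (by nlinarith [sq_nonneg ‖z‖])]
    nlinarith [sq_nonneg ‖z‖]
  have hEz : ‖Ez f z‖ ≤ (M + M2) / ‖z‖ ^ 2 := by
    unfold Ez
    refine (norm_add_le _ _).trans ?_
    rw [norm_div, norm_div, norm_mul, hcz]
    have h2 : ‖(2 : ℂ)‖ = 2 := by simp
    rw [h2]
    have h3 : ‖(tau z : ℂ)‖ * ‖deriv (deriv f) z‖ ≤ 1 / 2 * M2 :=
      mul_le_mul htau hc (norm_nonneg _) (by norm_num)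
    have h4 : ‖z‖ ^ 2 ≤ 1 := by nlinarith
    have h5 : ‖deriv f z‖ / 2 ≤ M / ‖z‖ ^ 2 := by
      rw [div_le_div_iff₀ (by norm_num) (by positivity)]
      nlinarith [mul_nonneg hM (sq_nonneg ‖z‖)]
    have h6 : ‖(tau z : ℂ)‖ * ‖deriv (deriv f) z‖ / ‖z‖ ≤ M2 / ‖z‖ ^ 2 := by
      rw [div_le_div_iff₀ hzn (by positivity)]
      have h7 : ‖z‖ ^ 2 ≤ ‖z‖ := by nlinarith
      calc ‖(tau z : ℂ)‖ * ‖deriv (deriv f) z‖ * ‖z‖ ^ 2
          ≤ (1 / 2 * M2) * ‖z‖ := mul_le_mul h3 h7 (by positivity) (by positivity)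
        _ ≤ M2 * ‖z‖ := by nlinarith [mul_nonneg hM2 hzn.le]
    rw [add_div]
    exact add_le_add h5 h6
  have hEzb : ‖Ezb f z‖ ≤ M / ‖z‖ ^ 2 := by
    unfold Ezb
    rw [norm_div, norm_neg, norm_mul, norm_pow, hcz]
    have h2 : ‖(2 : ℂ)‖ = 2 := by simp
    rw [h2]
    exact div_le_div₀ hM hb (by positivity) (by nlinarith [sq_nonneg ‖z‖])
  have hJ : |JJ f z| ≤ ((M + M2) ^ 2 + M ^ 2) / ‖z‖ ^ 4 := by
    unfold JJ
    have h8 : ‖Ez f z‖ ^ 2 ≤ ((M + M2) / ‖z‖ ^ 2) ^ 2 := pow_le_pow_left₀ (norm_nonneg _) hEz 2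
    have h9 : ‖Ezb f z‖ ^ 2 ≤ (M / ‖z‖ ^ 2) ^ 2 := pow_le_pow_left₀ (norm_nonneg _) hEzb 2
    have h10 : ((M + M2) / ‖z‖ ^ 2) ^ 2 = (M + M2) ^ 2 / ‖z‖ ^ 4 := by
      rw [div_pow, ← pow_mul]
    have h11 : (M / ‖z‖ ^ 2) ^ 2 = M ^ 2 / ‖z‖ ^ 4 := by
      rw [div_pow, ← pow_mul]
    rw [add_div, ← h10, ← h11, abs_le]
    constructor <;> nlinarith [sq_nonneg ‖Ez f z‖, sq_nonneg ‖Ezb f z‖]
  have hX : XX f z ^ (-p - 2) ≤ (m ^ (p + 2))⁻¹ * ‖z‖ ^ (p + 2) := by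
    rw [show -p - 2 = -(p + 2) by ring, XX_rpow_neg, Real.div_rpow hzn.le hd.le, div_eq_inv_mul]
    refine mul_le_mul_of_nonneg_right ?_ (by positivity)
    exact inv_anti₀ (by positivity) (Real.rpow_le_rpow hm.le ha (by linarith))
  have hX0 : 0 ≤ XX f z ^ (-p - 2) := Real.rpow_nonneg (XX_nonneg f z) _
  rw [norm_mul, Real.norm_eq_abs, Real.norm_eq_abs, abs_of_nonneg hX0]
  refine (mul_le_mul hX hJ (abs_nonneg _) (by positivity)).trans (le_of_eq ?_)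
  have e1 : ‖z‖ ^ (p + 2) = ‖z‖ ^ (-(2 - p)) * ‖z‖ ^ (4 : ℕ) := by
    rw [← Real.rpow_natCast, ← Real.rpow_add hzn]
    congr 1
    push_cast
    ring
  rw [e1]
  field_simp

/-- integrability of the weighted Jacobian -/
theorem integrableOn_weight (h1 : BlockH1) {f : ℂ → ℂ} {R : ℝ} (hf : Nice f R) {p : ℝ}
    (hp : 0 < p) : IntegrableOn (fun z => XX f z ^ (-p - 2) * JJ f z) (ball 0 1) := by
  obtain ⟨m, M, M2, hm, hM, hM2, hb⟩ := exists_deriv_bounds h1 hf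
  have hmeas : Measurable fun z => XX f z ^ (-p - 2) * JJ f z :=
    ((measurable_XX f).pow_const _).mul (measurable_JJ f)
  refine integrableOn_ball_of_norm_le_rpow (E := ℂ) (α := 2 - p)
    (C := (m ^ (p + 2))⁻¹ * ((M + M2) ^ 2 + M ^ 2)) (by rw [Complex.finrank_real_complex]; norm_num)
    (by rw [Complex.finrank_real_complex]; push_cast; linarith) ?_ hmeas.aestronglyMeasurable
  have h0 : ∀ᵐ z : ℂ ∂(volume.restrict (ball (0 : ℂ) 1)), z ≠ 0 := by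
    refine ae_restrict_of_ae ?_
    rw [ae_iff]
    simp
  filter_upwards [h0, ae_restrict_mem measurableSet_ball] with z hz0 hz
  have hz1 : z ∈ closedBall (0 : ℂ) 1 := ball_subset_closedBall hz
  obtain ⟨a, b, c⟩ := hb z hz1
  exact weight_JJ_le hm hM hM2 hz0 (mem_closedBall_zero_iff.1 hz1) a b c hp

/-- **Block I** -/
theorem blockI_of (h1 : BlockH1) (h3 : BlockA3) : BlockI := by
  intro f R hf p hp
  have hI := integrableOn_weight h1 hf hp
  refine ⟨hI, ?_⟩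
  have h := lintegral_weight_le h1 h3 hf (q := p + 2) (by linarith)
  have e : ∀ z, (‖z‖ / ‖deriv f z‖) ^ (p + 2) = XX f z ^ (-p - 2) := fun z => by
    rw [← XX_rpow_neg]
    congr 1
    ring
  simp only [e] at h
  rw [integral_eq_lintegral_pos_part_sub_lintegral_neg_part hI, sub_nonpos]
  exact ENNReal.toReal_mono hI.neg.lintegral_lt_top.ne h

end

end Vale.Agent.P142.Brn
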