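import Vale.Agent.P142.Brn.Topo2

/-!
Counting: an exhaustion of the disc without local maxima has fewer saddles than minima below
every level.
-/

namespace Vale.Agent.P142.Brn

open Set Filter Topology Metric

/-- Abstract forest lemma. -/
theorem forest {α β : Type*} [DecidableEq α] [DecidableEq β] (lev : β → ℝ) (m1 m2 : β → α)
    (R : β → α → α → Prop) (hrefl : ∀ e x, R e x x) (hsymm : ∀ e x y, R e x y → R e y x)
    (htrans : ∀ e x y z, R e x y → R e y z → R e x z)
    (hne : ∀ e, ¬ R e (m1 e) (m2 e))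
    (hR : ∀ e e', e' ≠ e → lev e' ≤ lev e → R e (m1 e') (m2 e')) :
    ∀ (n : ℕ) (E : Finset β) (V : Finset α), E.card = n → V.Nonempty →
      (∀ e ∈ E, m1 e ∈ V ∧ m2 e ∈ V) → E.card + 1 ≤ V.card := by
  classical
  intro n
  induction n using Nat.strong_induction_on with
  | _ n ih =>
    intro E V hn hV hEV
    rcases E.eq_empty_or_nonempty with rfl | hE
    · simpa using hV.card_pos
    · obtain ⟨e, heE, hmax⟩ := E.exists_max_image lev hE
      set A := V.filter (fun x => R e (m1 e) x) with hA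
      set B := V.filter (fun x => ¬ R e (m1 e) x) with hB
      have hAB : A.card + B.card = V.card := Finset.card_filter_add_card_filter_not _
      set E' := E.erase e with hE'
      set EA := E'.filter (fun e' => R e (m1 e) (m1 e')) with hEA
      set EB := E'.filter (fun e' => ¬ R e (m1 e) (m1 e')) with hEB
      have hEAB : EA.card + EB.card = E'.card := Finset.card_filter_add_card_filter_not _
      have hE'c : E'.card + 1 = E.card := Finset.card_erase_add_one heE
      have hAne : A.Nonempty := ⟨m1 e, by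
        rw [hA, Finset.mem_filter]; exact ⟨(hEV e heE).1, hrefl _ _⟩⟩
      have hBne : B.Nonempty := ⟨m2 e, by
        rw [hB, Finset.mem_filter]; exact ⟨(hEV e heE).2, hne e⟩⟩
      have hRe : ∀ e' ∈ E', R e (m1 e') (m2 e') := by
        intro e' he'
        rw [hE', Finset.mem_erase] at he'
        exact hR e e' he'.1 (hmax e' he'.2)
      have h1 : EA.card + 1 ≤ A.card := by
        refine ih EA.card (by omega) EA A rfl hAne ?_
        intro e' he'
        rw [hEA, Finset.mem_filter] at he'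
        have hm := hEV e' (Finset.mem_of_mem_erase he'.1)
        refine ⟨?_, ?_⟩
        · rw [hA, Finset.mem_filter]; exact ⟨hm.1, he'.2⟩
        · rw [hA, Finset.mem_filter]; exact ⟨hm.2, htrans _ _ _ _ he'.2 (hRe e' he'.1)⟩
      have h2 : EB.card + 1 ≤ B.card := by
        refine ih EB.card (by omega) EB B rfl hBne ?_
        intro e' he'
        rw [hEB, Finset.mem_filter] at he'
        have hm := hEV e' (Finset.mem_of_mem_erase he'.1)
        refine ⟨?_, ?_⟩
        · rw [hB, Finset.mem_filter]; exact ⟨hm.1, he'.2⟩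
        · rw [hB, Finset.mem_filter]
          exact ⟨hm.2, fun h => he'.2 (htrans _ _ _ _ h (hsymm _ _ _ (hRe e' he'.1)))⟩
      omega

variable {v : ℂ → ℝ} {D : Set ℂ}

/-- every point of an open sublevel set is joined inside it to a local minimum -/
theorem to_min (hDo : IsOpen D) (hcont : ContinuousOn v D)
    (hprop : ∀ c : ℝ, ∃ ρ : ℝ, closedBall (0 : ℂ) ρ ⊆ D ∧ ∀ z ∈ D, v z ≤ c → ‖z‖ ≤ ρ)
    {c : ℝ} {p : ℂ} (hp : p ∈ D) (hpc : v p < c) :
    ∃ m ∈ D, v m < c ∧ IsLocalMin v m ∧ Ch {z | z ∈ D ∧ v z < c} p m := by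
  set M : Set ℂ := {z | z ∈ D ∧ v z < c} with hM
  have hMo : IsOpen M := by
    have : M = D ∩ v ⁻¹' (Iio c) := rfl
    rw [this]
    exact hcont.isOpen_inter_preimage hDo isOpen_Iio
  set N : Set ℂ := {z | z ∈ M ∧ Ch M p z} with hN
  have hpN : p ∈ N := ⟨⟨hp, hpc⟩, Ch.refl _ _⟩
  obtain ⟨ρ, hρD, hρ⟩ := hprop c
  have hNρ : N ⊆ closedBall 0 ρ := by
    intro z hz
    simpa using hρ z hz.1.1 hz.1.2.le
  have hcl : closure N ⊆ closedBall 0 ρ := closure_minimal hNρ isClosed_closedBall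
  have hcomp : IsCompact (closure N) := (isCompact_closedBall 0 ρ).of_isClosed_subset
    isClosed_closure hcl
  obtain ⟨m, hm, hmin⟩ := hcomp.exists_isMinOn ⟨p, subset_closure hpN⟩
    (hcont.mono (hcl.trans hρD))
  have hmD : m ∈ D := hρD (hcl hm)
  have hvm : v m < c := lt_of_le_of_lt (hmin (subset_closure hpN)) hpc
  obtain ⟨ε, hε, hb⟩ := Metric.isOpen_iff.1 hMo m ⟨hmD, hvm⟩
  obtain ⟨z, hzb, hzN⟩ := mem_closure_iff_nhds.1 hm _ (ball_mem_nhds m hε)
  have hball : ∀ w ∈ ball m ε, w ∈ N := by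
    intro w hw
    refine ⟨hb hw, hzN.2.trans (Ch.single ?_)⟩
    exact ((convex_ball m ε).segment_subset hzb hw).trans hb
  refine ⟨m, hmD, hvm, ?_, (hball m (mem_ball_self hε)).2⟩
  filter_upwards [ball_mem_nhds m hε] with w hw
  exact hmin (subset_closure (hball w hw))

/-- Data of a nondegenerate saddle: a vector `u` with `v < v s` on the punctured segment
`s + [-1,1] u` and `v > v s` on the punctured segment `s + [-1,1] i u`. -/
def IsSaddle (v : ℂ → ℝ) (D : Set ℂ) (s : ℂ) : Prop :=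
  ∃ u : ℂ, u ≠ 0 ∧ (∀ x : ℝ, -1 ≤ x → x ≤ 1 → s + x * u ∈ D ∧ (x ≠ 0 → v (s + x * u) < v s)) ∧
    (∀ x : ℝ, x ≠ 0 → -1 ≤ x → x ≤ 1 →
      s + x * (Complex.I * u) ∈ D ∧ v s < v (s + x * (Complex.I * u)))

/-- **Lemma T.** -/
theorem card_saddles (hDo : IsOpen D) (hcont : ContinuousOn v D)
    (hprop : ∀ c : ℝ, ∃ ρ : ℝ, closedBall (0 : ℂ) ρ ⊆ D ∧ ∀ z ∈ D, v z ≤ c → ‖z‖ ≤ ρ)
    (hwm : ∀ O : Set ℂ, IsOpen O → closure O ⊆ D → ∀ p ∈ O, ∃ q ∈ frontier O, v p ≤ v q)
    {t : ℝ} (S M : Finset ℂ)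
    (hS : ∀ s ∈ S, s ∈ D ∧ v s < t ∧ IsSaddle v D s)
    (hM : ∀ m ∈ D, v m < t → IsLocalMin v m → m ∈ M) (hne : ∃ p ∈ D, v p < t) :
    S.card + 1 ≤ M.card := by
  classical
  -- a version where everything is indexed by the saddles
  have hdata : ∀ s : {s // s ∈ S}, ∃ u : ℂ, ∃ a b : ℂ, u ≠ 0 ∧
      (∀ x : ℝ, -1 ≤ x → x ≤ 1 → s.1 + x * u ∈ D ∧ (x ≠ 0 → v (s.1 + x * u) < v s.1)) ∧
      (∀ x : ℝ, x ≠ 0 → -1 ≤ x → x ≤ 1 →
        s.1 + x * (Complex.I * u) ∈ D ∧ v s.1 < v (s.1 + x * (Complex.I * u))) ∧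
      a ∈ M ∧ b ∈ M ∧ Ch {z | z ∈ D ∧ v z < v s.1} (s.1 + u) a ∧
      Ch {z | z ∈ D ∧ v z < v s.1} (s.1 - u) b := by
    rintro ⟨s, hs⟩
    obtain ⟨hsD, hst, u, hu, h1, h2⟩ := hS s hs
    have hp := h1 1 (by norm_num) le_rfl
    have hm := h1 (-1) le_rfl (by norm_num)
    have hp1 : s + u ∈ D ∧ v (s + u) < v s := by
      have := hp.2 one_ne_zero
      constructor
      · simpa using hp.1
      · simpa using this
    have hm1 : s - u ∈ D ∧ v (s - u) < v s := by
      have := hm.2 (by norm_num)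
      constructor
      · simpa [sub_eq_add_neg] using hm.1
      · simpa [sub_eq_add_neg] using this
    obtain ⟨a, haD, hac, hamin, ha⟩ := to_min hDo hcont hprop hp1.1 hp1.2
    obtain ⟨b, hbD, hbc, hbmin, hb⟩ := to_min hDo hcont hprop hm1.1 hm1.2
    exact ⟨u, a, b, hu, h1, h2, hM a haD (hac.trans hst) hamin, hM b hbD (hbc.trans hst) hbmin,
      ha, hb⟩
  choose u a b hu h1 h2 ha hb hca hcb using hdata
  obtain ⟨p, hpD, hpt⟩ := hne
  obtain ⟨m0, hm0D, hm0t, hm0min, -⟩ := to_min hDo hcont hprop hpD hpt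
  have hMne : M.Nonempty := ⟨m0, hM m0 hm0D hm0t hm0min⟩
  have hsub : ∀ s : {s // s ∈ S}, {z | z ∈ D ∧ v z < v s.1} ⊆
      {z | z ∈ D ∧ v z ≤ v s.1 ∧ z ≠ s.1} := by
    intro s z hz
    refine ⟨hz.1, hz.2.le, ?_⟩
    rintro rfl
    exact lt_irrefl _ hz.2
  have key := forest (α := ℂ) (β := {s // s ∈ S}) (fun s => v s.1) a b
    (fun s x y => Ch {z | z ∈ D ∧ v z ≤ v s.1 ∧ z ≠ s.1} x y)
    (fun s x => Ch.refl _ _) (fun s x y h => h.symm) (fun s x y z h h' => h.trans h')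
    (by
      intro s hch
      have hfull : Ch {z | z ∈ D ∧ v z ≤ v s.1 ∧ z ≠ s.1} (s.1 + u s) (s.1 - u s) :=
        ((hca s).mono (hsub s)).trans (hch.trans ((hcb s).symm.mono (hsub s)))
      obtain ⟨ρ, hρD, hρ⟩ := hprop (v s.1)
      have hsD := (hS s.1 s.2).1
      have hρ0 : 0 ≤ ρ := (norm_nonneg _).trans (hρ s.1 hsD le_rfl)
      refine jump hρ0 hρD hDo hcont hwm hρ (hu s) ?_ (h2 s) hfull
      intro x hx1 hx2
      refine ⟨(h1 s x hx1 hx2).1, ?_⟩
      by_cases hx : x = 0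
      · subst hx; simp
      · exact ((h1 s x hx1 hx2).2 hx).le)
    (by
      intro s s' hss' hlev
      have hss : s'.1 ≠ s.1 := fun h => hss' (Subtype.ext h)
      have hF : {z | z ∈ D ∧ v z < v s'.1} ⊆ {z | z ∈ D ∧ v z ≤ v s.1 ∧ z ≠ s.1} := by
        intro z hz
        have hlt : v z < v s.1 := lt_of_lt_of_le hz.2 hlev
        refine ⟨hz.1, hlt.le, ?_⟩
        rintro rfl
        exact lt_irrefl _ hlt
      have hseg : segment ℝ (s'.1 + u s') (s'.1 - u s') ⊆
          {z | z ∈ D ∧ v z ≤ v s.1 ∧ z ≠ s.1} := by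
        rintro z ⟨α, β, hα, hβ, hαβ, rfl⟩
        have e : α • (s'.1 + u s') + β • (s'.1 - u s') = s'.1 + ((α - β : ℝ) : ℂ) * u s' := by
          have : (α : ℂ) + β = 1 := by exact_mod_cast hαβ
          simp only [Complex.real_smul]
          push_cast
          linear_combination s'.1 * this
        rw [e]
        have h := h1 s' (α - β) (by linarith) (by linarith)
        by_cases hx : α - β = 0
        · rw [hx]
          have e0 : s'.1 + ((0 : ℝ) : ℂ) * u s' = s'.1 := by simp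
          rw [e0]
          exact ⟨(hS s'.1 s'.2).1, hlev, hss⟩
        · have hlt : v (s'.1 + ((α - β : ℝ) : ℂ) * u s') < v s.1 :=
            lt_of_lt_of_le (h.2 hx) hlev
          refine ⟨h.1, hlt.le, ?_⟩
          intro h3
          rw [h3] at hlt
          exact lt_irrefl _ hlt
      exact (((hca s').mono hF).symm.trans (Ch.single hseg)).trans ((hcb s').mono hF))
    S.attach.card S.attach M rfl hMne (fun s _ => ⟨ha s, hb s⟩)
  simpa using key

end Vale.Agent.P142.Brn
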