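import Vale.Agent.P142.Brn.Defs
import Vale.Agent.P142.Brn.Topo3

/-!
Block T: the number of saddles below a level is smaller than the number of minima.
-/

open Complex MeasureTheory Metric Set Filter Topology
open scoped Real ComplexConjugate ENNReal

namespace Vale.Agent.P142.Brn

theorem isSaddle_of_saddleAt {Φ : ℂ → ℝ} {s : ℂ} (hs : s ∈ ball (0 : ℂ) 1)
    (h : SaddleAt Φ s) : IsSaddle Φ (ball 0 1) s := by
  obtain ⟨e, he, δ, hδ, h⟩ := h
  have he0 : e ≠ 0 := by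
    intro h0
    rw [h0, norm_zero] at he
    exact zero_ne_one he
  refine ⟨(δ : ℂ) * e, mul_ne_zero (by exact_mod_cast hδ.ne') he0, ?_, ?_⟩
  · intro x h1 h2
    rcases lt_trichotomy x 0 with hx | hx | hx
    · have hy : 0 < -x * δ := mul_pos (by linarith) hδ
      have hy2 : -x * δ ≤ δ := by nlinarith
      obtain ⟨h3, h4, h5, h6, h7⟩ := h _ hy hy2
      have e1 : s + (x : ℂ) * ((δ : ℂ) * e) = s - ((-x * δ : ℝ) : ℂ) * e := by push_cast; ring
      rw [e1]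
      exact ⟨h3.2.1, fun _ => h5⟩
    · subst hx
      simpa using hs
    · have hy : 0 < x * δ := mul_pos hx hδ
      have hy2 : x * δ ≤ δ := by nlinarith
      obtain ⟨h3, h4, h5, h6, h7⟩ := h _ hy hy2
      have e1 : s + (x : ℂ) * ((δ : ℂ) * e) = s + ((x * δ : ℝ) : ℂ) * e := by push_cast; ring
      rw [e1]
      exact ⟨h3.1, fun _ => h4⟩
  · intro x hx0 h1 h2
    rcases lt_or_gt_of_ne hx0 with hx | hx
    · have hy : 0 < -x * δ := mul_pos (by linarith) hδ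
      have hy2 : -x * δ ≤ δ := by nlinarith
      obtain ⟨h3, h4, h5, h6, h7⟩ := h _ hy hy2
      have e1 : s + (x : ℂ) * (I * ((δ : ℂ) * e)) = s - ((-x * δ : ℝ) : ℂ) * (I * e) := by
        push_cast; ring
      rw [e1]
      exact ⟨h3.2.2.2, h7⟩
    · have hy : 0 < x * δ := mul_pos hx hδ
      have hy2 : x * δ ≤ δ := by nlinarith
      obtain ⟨h3, h4, h5, h6, h7⟩ := h _ hy hy2
      have e1 : s + (x : ℂ) * (I * ((δ : ℂ) * e)) = s + ((x * δ : ℝ) : ℂ) * (I * e) := by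
        push_cast; ring
      rw [e1]
      exact ⟨h3.2.2.1, h6⟩

theorem blockT : BlockT := by
  intro Φ t S N hcont hcomp hwm hS hN hSne
  have hprop : ∀ c : ℝ, ∃ ρ : ℝ, closedBall (0 : ℂ) ρ ⊆ ball (0 : ℂ) 1 ∧
      ∀ z ∈ ball (0 : ℂ) 1, Φ z ≤ c → ‖z‖ ≤ ρ := by
    intro c
    rcases ({z | z ∈ ball (0 : ℂ) 1 ∧ Φ z ≤ c} : Set ℂ).eq_empty_or_nonempty with he | hne
    · refine ⟨0, closedBall_subset_ball one_pos, ?_⟩
      intro z hz hzc
      exact absurd (show z ∈ ({z | z ∈ ball (0 : ℂ) 1 ∧ Φ z ≤ c} : Set ℂ) from ⟨hz, hzc⟩)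
        (by rw [he]; exact notMem_empty z)
    · obtain ⟨m, hm, hmax⟩ := (hcomp c).exists_isMaxOn hne continuous_norm.continuousOn
      have hm1 : ‖m‖ < 1 := by simpa using hm.1
      exact ⟨‖m‖, closedBall_subset_ball hm1, fun z hz hzc => hmax (⟨hz, hzc⟩ :
        z ∈ ({z | z ∈ ball (0 : ℂ) 1 ∧ Φ z ≤ c} : Set ℂ))⟩
  obtain ⟨s0, hs0⟩ := hSne
  have key := card_saddles isOpen_ball hcont hprop hwm S N
    (fun s hs => ⟨(hS s hs).1, (hS s hs).2.1, isSaddle_of_saddleAt (hS s hs).1 (hS s hs).2.2⟩)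
    hN ⟨s0, (hS s0 hs0).1, (hS s0 hs0).2.1⟩
  omega

end Vale.Agent.P142.Brn
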