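import Vale.Agent.P142.Brn.H1
import Vale.Agent.P142.Brn.H2
import Vale.Agent.P142.Brn.H3b
import Vale.Agent.P142.Brn.H4
import Vale.Agent.P142.Brn.T
import Vale.Agent.P142.Brn.Compare
import Vale.Agent.P142.Brn.Layer
import Vale.Agent.P142.Brn.Key

/-! Assembly of the topological half. -/

open Complex MeasureTheory Metric Set Filter Topology
open scoped Real ENNReal

namespace Vale.Agent.P142.Brn

theorem blockH4 : BlockH4 := blockH4_of blockT blockH2 (blockH3b_of blockH1)

theorem blockA3' : BlockA3 := blockA3 blockH1 (blockA2 blockH1) blockH4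

theorem blockI : BlockI := blockI_of blockH1 blockA3'

end Vale.Agent.P142.Brn
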