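import Mathlib

/-!
# Brennan's conjecture: definitions and block statements (interface file)

`tau z = (1 - |z|^2)/2`, `EE f z = f z + tau z * f' z / conj z`, `XX f z = |f' z| / |z|`,
`JJ f` = real Jacobian of `EE f`, `PHI f w z = |f z - w| / tau z`.
-/

open Complex MeasureTheory Metric Set Filter Topology
open scoped Real ComplexConjugate ENNReal

namespace Vale.Agent.P142.Brn

noncomputable section

/-- Real-linear map `h ↦ a * h + b * conj h`. -/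
def wrt (a b : ℂ) : ℂ →L[ℝ] ℂ :=
  ContinuousLinearMap.mul ℝ ℂ a + (ContinuousLinearMap.mul ℝ ℂ b).comp
    (conjCLE : ℂ →L[ℝ] ℂ)

@[simp] lemma wrt_apply (a b v : ℂ) : wrt a b v = a * v + b * conj v := by
  simp [wrt]

/-- Half the distance-like function `(1 - |z|^2)/2`. -/
def tau (z : ℂ) : ℝ := (1 - ‖z‖ ^ 2) / 2

/-- The map `E`. -/
def EE (f : ℂ → ℂ) (z : ℂ) : ℂ := f z + (tau z : ℂ) * deriv f z / conj z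

/-- The critical value. -/
def XX (f : ℂ → ℂ) (z : ℂ) : ℝ := ‖deriv f z‖ / ‖z‖

/-- `∂E`. -/
def Ez (f : ℂ → ℂ) (z : ℂ) : ℂ := deriv f z / 2 + (tau z : ℂ) * deriv (deriv f) z / conj z

/-- `∂̄E`. -/
def Ezb (f : ℂ → ℂ) (z : ℂ) : ℂ := -(deriv f z) / (2 * (conj z) ^ 2)

/-- Jacobian of `E`. -/
def JJ (f : ℂ → ℂ) (z : ℂ) : ℝ := ‖Ez f z‖ ^ 2 - ‖Ezb f z‖ ^ 2

/-- The function whose critical points are counted. -/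
def PHI (f : ℂ → ℂ) (w z : ℂ) : ℝ := ‖f z - w‖ / tau z

/-- Punctured unit disc. -/
def PD : Set ℂ := ball (0 : ℂ) 1 \ {0}

/-- `f` is holomorphic and injective on a disc of radius `R > 1`. -/
structure Nice (f : ℂ → ℂ) (R : ℝ) : Prop where
  one_lt : 1 < R
  diff : DifferentiableOn ℂ f (ball 0 R)
  inj : InjOn f (ball 0 R)

/-- Four-sector condition at a saddle `s` of `Φ` (inside the unit disc). -/
def SaddleAt (Φ : ℂ → ℝ) (s : ℂ) : Prop :=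
  ∃ e : ℂ, ‖e‖ = 1 ∧ ∃ δ : ℝ, 0 < δ ∧ ∀ x : ℝ, 0 < x → x ≤ δ →
    (s + x * e ∈ ball (0 : ℂ) 1 ∧ s - x * e ∈ ball (0 : ℂ) 1 ∧
      s + x * (I * e) ∈ ball (0 : ℂ) 1 ∧ s - x * (I * e) ∈ ball (0 : ℂ) 1) ∧
    Φ (s + x * e) < Φ s ∧ Φ (s - x * e) < Φ s ∧
    Φ s < Φ (s + x * (I * e)) ∧ Φ s < Φ (s - x * (I * e))

/-- Weak maximum principle. -/
def WeakMax (Φ : ℂ → ℝ) : Prop :=
  ∀ O : Set ℂ, IsOpen O → closure O ⊆ ball (0 : ℂ) 1 → ∀ p ∈ O, ∃ q ∈ frontier O, Φ p ≤ Φ q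

/-- Block T (809 + 221): counting. -/
def BlockT : Prop := ∀ (Φ : ℂ → ℝ) (t : ℝ) (S N : Finset ℂ),
  ContinuousOn Φ (ball 0 1) →
  (∀ c : ℝ, IsCompact {z | z ∈ ball (0 : ℂ) 1 ∧ Φ z ≤ c}) →
  WeakMax Φ →
  (∀ s ∈ S, s ∈ ball (0 : ℂ) 1 ∧ Φ s < t ∧ SaddleAt Φ s) →
  (∀ z ∈ ball (0 : ℂ) 1, Φ z < t → IsLocalMin Φ z → z ∈ N) →
  S.Nonempty → S.card < N.card

/-- Block H1 (935): derivative of `E`, determinant, continuity. -/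
def BlockH1 : Prop :=
  (∀ a b : ℂ, (wrt a b).det = ‖a‖ ^ 2 - ‖b‖ ^ 2) ∧
  ∀ (f : ℂ → ℂ) (R : ℝ), Nice f R →
    (∀ z ∈ closedBall (0 : ℂ) 1, deriv f z ≠ 0) ∧
    (∀ z ∈ PD, HasStrictFDerivAt (EE f) (wrt (Ez f z) (Ezb f z)) z) ∧
    ContinuousOn (EE f) (closedBall 0 1 \ {0}) ∧
    ContinuousOn (XX f) (closedBall 0 1 \ {0}) ∧
    ContinuousOn (JJ f) (closedBall 0 1 \ {0})

/-- Block H2 (73): `PHI f w` is continuous, proper and satisfies the weak maximum principle. -/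
def BlockH2 : Prop := ∀ (f : ℂ → ℂ) (R : ℝ), Nice f R → ∀ w : ℂ, w ∉ f '' sphere (0 : ℂ) 1 →
  ContinuousOn (PHI f w) (ball 0 1) ∧
  (∀ c : ℝ, IsCompact {z | z ∈ ball (0 : ℂ) 1 ∧ PHI f w z ≤ c}) ∧ WeakMax (PHI f w)

/-- Block H3 (393): local structure of `PHI f w`. -/
def BlockH3 : Prop := ∀ (f : ℂ → ℂ) (R : ℝ), Nice f R → ∀ w z : ℂ, z ∈ ball (0 : ℂ) 1 →
  (f z ≠ w → IsLocalMin (PHI f w) z → z ≠ 0 ∧ EE f z = w ∧ JJ f z ≤ 0) ∧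
  (z ≠ 0 → EE f z = w → f z ≠ w ∧ PHI f w z = XX f z) ∧
  (z ≠ 0 → EE f z = w → 0 < JJ f z → SaddleAt (PHI f w) z)

/-- Block H4 (942): the fibre count. -/
def BlockH4 : Prop := ∀ (f : ℂ → ℂ) (R : ℝ), Nice f R → ∀ w : ℂ, w ∉ f '' sphere (0 : ℂ) 1 →
  (∀ z ∈ PD, EE f z = w → JJ f z ≠ 0) → ∀ t : ℝ, 0 < t →
  {z | z ∈ PD ∧ EE f z = w ∧ 0 < JJ f z ∧ XX f z < t}.encard ≤
  {z | z ∈ PD ∧ EE f z = w ∧ JJ f z < 0 ∧ XX f z < t}.encard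

/-- Block A1 (656): area formula with multiplicity. -/
def BlockA1 : Prop := ∀ (E : ℂ → ℂ) (E' : ℂ → ℂ →L[ℝ] ℂ) (U : Set ℂ), MeasurableSet U →
  (∀ z ∈ U, HasFDerivWithinAt E (E' z) U z) →
  ∫⁻ z in U, ENNReal.ofReal |(E' z).det| = ∫⁻ w, ((U ∩ E ⁻¹' {w}).encard : ℝ≥0∞)

/-- Block A2 (113): almost every `w` is good. -/
def BlockA2 : Prop := ∀ (f : ℂ → ℂ) (R : ℝ), Nice f R →
  (∀ᵐ w : ℂ, w ∉ f '' sphere (0 : ℂ) 1) ∧ (∀ᵐ w : ℂ, ∀ z ∈ PD, EE f z = w → JJ f z ≠ 0)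

/-- Block A3 (113): comparison of the two parts of the Jacobian below a level. -/
def BlockA3 : Prop := ∀ (f : ℂ → ℂ) (R : ℝ), Nice f R → ∀ t : ℝ, 0 < t →
  ∫⁻ z in {z | z ∈ PD ∧ 0 < JJ f z ∧ XX f z < t}, ENNReal.ofReal (JJ f z) ≤
  ∫⁻ z in {z | z ∈ PD ∧ JJ f z < 0 ∧ XX f z < t}, ENNReal.ofReal (-JJ f z)

/-- Block I (383): layer cake. -/
def BlockI : Prop := ∀ (f : ℂ → ℂ) (R : ℝ), Nice f R → ∀ p : ℝ, 0 < p →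
  IntegrableOn (fun z => XX f z ^ (-p - 2) * JJ f z) (ball 0 1) ∧
  ∫ z in ball (0 : ℂ) 1, XX f z ^ (-p - 2) * JJ f z ≤ 0

/-- Block P (344): Parseval computation. -/
def BlockP : Prop := ∀ (f : ℂ → ℂ) (R : ℝ), Nice f R → ∀ p : ℝ, 0 < p → p < 2 →
  IntegrableOn (fun z => (‖z‖ / ‖deriv f z‖) ^ p * (4 * ‖z‖ ^ 2 - 2 - p)) (ball (0 : ℂ) 1) ∧
  ∫ z in ball (0 : ℂ) 1, XX f z ^ (-p - 2) * JJ f z =
    (1 / p ^ 2) * ∫ z in ball (0 : ℂ) 1, (‖z‖ / ‖deriv f z‖) ^ p * (4 * ‖z‖ ^ 2 - 2 - p)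

/-- Block F (164 / 178 / 585): the final estimate for every univalent function. -/
def BlockF : Prop := ∀ f : ℂ → ℂ, DifferentiableOn ℂ f (ball 0 1) → InjOn f (ball 0 1) →
  ∀ p : ℝ, 0 < p → p < 2 → ∫⁻ z in ball (0 : ℂ) 1, ENNReal.ofReal (‖deriv f z‖ ^ (-p)) < ⊤

end

end Vale.Agent.P142.Brn
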