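import Mathlib

/-! Block F: from the integral inequality for maps univalent near the closed disc to the
integrability of `|f'|^(-p)`, `0 < p < 2`, for every univalent `f` on the unit disc. -/

open Complex MeasureTheory Metric Set Filter Topology
open scoped Real ENNReal

namespace Vale.Agent.P142.Brn

/-- The weighted density of the star inequality. -/
noncomputable def wB (g : ℂ → ℂ) (p : ℝ) (z : ℂ) : ℝ :=
  (‖z‖ / ‖deriv g z‖) ^ p * (4 * ‖z‖ ^ 2 - 2 - p)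

/-- Uniform bound: if `g` satisfies the star inequality, `g'` is continuous and nonvanishing on the
closed disc and `m ≤ |g'|` on `|z| ≤ r₁ = √((p+6)/8)`, then `∫ |g'|^{-p} ≤ C(p) m^{-p}`. -/
theorem bound_of_star {g : ℂ → ℂ} {p m : ℝ} (hp : 0 < p) (hp2 : p < 2) (hm : 0 < m)
    (hc : ContinuousOn (deriv g) (closedBall 0 1)) (hne : ∀ z ∈ closedBall (0 : ℂ) 1, deriv g z ≠ 0)
    (hlow : ∀ z : ℂ, ‖z‖ ^ 2 ≤ (p + 6) / 8 → m ≤ ‖deriv g z‖)
    (hstar : ∫ z in ball (0 : ℂ) 1, wB g p z ≤ 0) :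
    ∫⁻ z in ball (0 : ℂ) 1, ENNReal.ofReal (‖deriv g z‖ ^ (-p)) ≤
      ENNReal.ofReal (m ^ (-p) * (1 + 16 / (2 - p)) * π) := by
  have hcN : ContinuousOn (fun z => ‖deriv g z‖ ^ (-p)) (closedBall (0 : ℂ) 1) := by
    apply ContinuousOn.rpow_const hc.norm
    intro z hz
    exact Or.inl (norm_ne_zero_iff.mpr (hne z hz))
  have hcW : ContinuousOn (wB g p) (closedBall (0 : ℂ) 1) := by
    unfold wB
    apply ContinuousOn.mul
    · apply ContinuousOn.rpow_const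
      · apply ContinuousOn.div continuous_norm.continuousOn hc.norm
        intro z hz
        exact norm_ne_zero_iff.mpr (hne z hz)
      · intro z hz
        exact Or.inr hp.le
    · fun_prop
  have hiN : IntegrableOn (fun z => ‖deriv g z‖ ^ (-p)) (ball (0 : ℂ) 1) :=
    (hcN.integrableOn_compact (isCompact_closedBall 0 1)).mono_set ball_subset_closedBall
  have hiW : IntegrableOn (wB g p) (ball (0 : ℂ) 1) :=
    (hcW.integrableOn_compact (isCompact_closedBall 0 1)).mono_set ball_subset_closedBall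
  -- pointwise lower bound for `wB`
  have hpt : ∀ z ∈ ball (0 : ℂ) 1,
      (2 - p) / 4 * ‖deriv g z‖ ^ (-p) - (2 - p) / 4 * (1 + 16 / (2 - p)) * m ^ (-p) ≤
        wB g p z := by
    intro z hz
    have hz1 : ‖z‖ < 1 := by simpa using hz
    have hd : 0 < ‖deriv g z‖ := norm_pos_iff.mpr (hne z (ball_subset_closedBall hz))
    have hmp : 0 < m ^ (-p) := Real.rpow_pos_of_pos hm _
    have hdp : 0 < ‖deriv g z‖ ^ (-p) := Real.rpow_pos_of_pos hd _
    have e1 : (‖z‖ / ‖deriv g z‖) ^ p = ‖z‖ ^ p * ‖deriv g z‖ ^ (-p) := by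
      rw [Real.div_rpow (norm_nonneg _) (norm_nonneg _), Real.rpow_neg (norm_nonneg _)]
      rfl
    have hzp0 : 0 ≤ ‖z‖ ^ p := Real.rpow_nonneg (norm_nonneg _) _
    have hzp1 : ‖z‖ ^ p ≤ 1 := Real.rpow_le_one (norm_nonneg _) hz1.le hp.le
    have h2p : (0 : ℝ) < 2 - p := by linarith
    have e2 : (2 - p) / 4 * (1 + 16 / (2 - p)) = (2 - p) / 4 + 4 := by
      field_simp
      norm_num
    rw [e2]
    unfold wB
    rw [e1]
    rcases le_or_gt (‖z‖ ^ 2) ((p + 6) / 8) with h | h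
    · have h1 : ‖deriv g z‖ ^ (-p) ≤ m ^ (-p) :=
        Real.rpow_le_rpow_of_nonpos hm (hlow z h) (by linarith)
      have h3 : -(4 : ℝ) ≤ 4 * ‖z‖ ^ 2 - 2 - p := by nlinarith [sq_nonneg ‖z‖]
      have h4 : ‖z‖ ^ p * ‖deriv g z‖ ^ (-p) ≤ m ^ (-p) := by
        calc ‖z‖ ^ p * ‖deriv g z‖ ^ (-p) ≤ 1 * ‖deriv g z‖ ^ (-p) := by gcongr
          _ ≤ m ^ (-p) := by linarith
      have h5 : 0 ≤ ‖z‖ ^ p * ‖deriv g z‖ ^ (-p) := by positivity
      have h6 : -(4 : ℝ) * (‖z‖ ^ p * ‖deriv g z‖ ^ (-p)) ≤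
          ‖z‖ ^ p * ‖deriv g z‖ ^ (-p) * (4 * ‖z‖ ^ 2 - 2 - p) := by
        nlinarith
      nlinarith
    · have h3 : (2 - p) / 2 ≤ 4 * ‖z‖ ^ 2 - 2 - p := by linarith
      have h7 : (1 : ℝ) / 2 ≤ ‖z‖ ^ p := by
        have h8 : ‖z‖ ^ (2 : ℝ) ≤ ‖z‖ ^ p := by
          apply Real.rpow_le_rpow_of_exponent_ge' (norm_nonneg _) hz1.le hp.le hp2.le
        have h9 : ‖z‖ ^ (2 : ℝ) = ‖z‖ ^ 2 := by norm_num
        rw [h9] at h8
        linarith
      have h8 : (2 - p) / 4 * ‖deriv g z‖ ^ (-p) ≤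
          ‖z‖ ^ p * ‖deriv g z‖ ^ (-p) * (4 * ‖z‖ ^ 2 - 2 - p) := by
        calc (2 - p) / 4 * ‖deriv g z‖ ^ (-p)
            = (1 / 2 * ‖deriv g z‖ ^ (-p)) * ((2 - p) / 2) := by ring
          _ ≤ (‖z‖ ^ p * ‖deriv g z‖ ^ (-p)) * (4 * ‖z‖ ^ 2 - 2 - p) := by gcongr
      have : 0 ≤ ((2 - p) / 4 + 4) * m ^ (-p) := by positivity
      linarith
  have hvol : (volume (ball (0 : ℂ) 1)).toReal = π := by
    rw [Complex.volume_ball]
    simp
  have hfin : volume (ball (0 : ℂ) 1) ≠ ⊤ := measure_ball_lt_top.ne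
  have hconst : IntegrableOn (fun _ : ℂ => (2 - p) / 4 * (1 + 16 / (2 - p)) * m ^ (-p))
      (ball (0 : ℂ) 1) := integrableOn_const hfin
  have hint : ∫ z in ball (0 : ℂ) 1, ((2 - p) / 4 * ‖deriv g z‖ ^ (-p) -
      (2 - p) / 4 * (1 + 16 / (2 - p)) * m ^ (-p)) ≤ ∫ z in ball (0 : ℂ) 1, wB g p z := by
    apply setIntegral_mono_on ((hiN.const_mul _).sub hconst) hiW measurableSet_ball hpt
  rw [integral_sub (hiN.const_mul _) hconst, integral_const_mul, setIntegral_const,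
    smul_eq_mul] at hint
  have hvol2 : volume.real (ball (0 : ℂ) 1) = π := hvol
  rw [hvol2] at hint
  have h2p : (0 : ℝ) < 2 - p := by linarith
  have hfinal : ∫ z in ball (0 : ℂ) 1, ‖deriv g z‖ ^ (-p) ≤
      m ^ (-p) * (1 + 16 / (2 - p)) * π := by
    have h1 : (2 - p) / 4 * (∫ z in ball (0 : ℂ) 1, ‖deriv g z‖ ^ (-p)) ≤
        (2 - p) / 4 * (m ^ (-p) * (1 + 16 / (2 - p)) * π) := by linarith
    exact le_of_mul_le_mul_left h1 (by positivity)
  rw [← ofReal_integral_eq_lintegral_ofReal hiN]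
  · exact ENNReal.ofReal_le_ofReal hfinal
  · filter_upwards with z
    positivity

/-- Block F. -/
theorem neg_range_of_star
    (hB : ∀ (g : ℂ → ℂ) (R : ℝ), 1 < R → DifferentiableOn ℂ g (ball 0 R) → InjOn g (ball 0 R) →
      ∀ p : ℝ, 0 < p → p < 2 →
        ∫ z in ball (0 : ℂ) 1, (‖z‖ / ‖deriv g z‖) ^ p * (4 * ‖z‖ ^ 2 - 2 - p) ≤ 0)
    {f : ℂ → ℂ} (hf : DifferentiableOn ℂ f (ball 0 1)) (hinj : InjOn f (ball 0 1))
    (hne : ∀ z ∈ ball (0 : ℂ) 1, deriv f z ≠ 0) {p : ℝ} (hp : 0 < p) (hp2 : p < 2) :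
    ∫⁻ z in ball (0 : ℂ) 1, ENNReal.ofReal (‖deriv f z‖ ^ (-p)) < ⊤ := by
  have hfd : ContinuousOn (deriv f) (ball (0 : ℂ) 1) := (hf.deriv isOpen_ball).continuousOn
  set r₁ : ℝ := √((p + 6) / 8) with hr₁
  have hr₁0 : 0 ≤ r₁ := Real.sqrt_nonneg _
  have hr₁1 : r₁ < 1 := by
    rw [hr₁, Real.sqrt_lt' one_pos]
    linarith
  -- lower bound of `|f'|` on the smaller closed disc
  obtain ⟨m, hm, hmle⟩ : ∃ m : ℝ, 0 < m ∧ ∀ z ∈ closedBall (0 : ℂ) r₁, m ≤ ‖deriv f z‖ := by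
    have hcpt : IsCompact (closedBall (0 : ℂ) r₁) := isCompact_closedBall 0 r₁
    have hsub : closedBall (0 : ℂ) r₁ ⊆ ball 0 1 := closedBall_subset_ball hr₁1
    obtain ⟨z₀, hz₀, hmin⟩ := hcpt.exists_isMinOn ⟨0, by simp [hr₁0]⟩ (hfd.norm.mono hsub)
    exact ⟨‖deriv f z₀‖, norm_pos_iff.mpr (hne z₀ (hsub hz₀)), fun z hz => hmin hz⟩
  -- the dilations
  set ρ : ℕ → ℝ := fun n => 1 - 1 / (n + 2) with hρ
  have hρ1 : ∀ n, ρ n < 1 := fun n => by
    have : (0 : ℝ) < 1 / (n + 2) := by positivity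
    simp only [hρ]; linarith
  have hρ2 : ∀ n, 1 / 2 ≤ ρ n := fun n => by
    have : (1 : ℝ) / (n + 2) ≤ 1 / 2 := by
      apply one_div_le_one_div_of_le (by norm_num)
      have : (0 : ℝ) ≤ n := Nat.cast_nonneg n
      linarith
    simp only [hρ]; linarith
  have hρlim : Tendsto ρ atTop (𝓝 1) := by
    have h1 : Tendsto (fun n : ℕ => 1 / ((n : ℝ) + 2)) atTop (𝓝 0) := by
      have := (tendsto_const_div_atTop_nhds_zero_nat (1 : ℝ)).comp (tendsto_add_atTop_nat 2)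
      refine this.congr fun n => ?_
      simp
    have h2 := (tendsto_const_nhds (x := (1 : ℝ))).sub h1
    rw [sub_zero] at h2
    exact h2
  have hmem : ∀ (n : ℕ) {z : ℂ}, z ∈ closedBall (0 : ℂ) 1 → (ρ n : ℂ) * z ∈ ball (0 : ℂ) 1 := by
    intro n z hz
    have h0 : 0 < ρ n := by linarith [hρ2 n]
    rw [mem_ball_zero_iff, norm_mul, norm_real, Real.norm_eq_abs, abs_of_pos h0]
    rw [mem_closedBall_zero_iff] at hz
    calc ρ n * ‖z‖ ≤ ρ n * 1 := by gcongr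
      _ < 1 := by linarith [hρ1 n]
  have hderiv : ∀ (n : ℕ) {z : ℂ}, (ρ n : ℂ) * z ∈ ball (0 : ℂ) 1 →
      deriv (fun z => f ((ρ n : ℂ) * z)) z = (ρ n : ℂ) * deriv f ((ρ n : ℂ) * z) := by
    intro n z hz
    have h1 : HasDerivAt f (deriv f ((ρ n : ℂ) * z)) ((ρ n : ℂ) * z) :=
      (hf.differentiableAt (isOpen_ball.mem_nhds hz)).hasDerivAt
    have h2 : HasDerivAt (fun z : ℂ => (ρ n : ℂ) * z) (ρ n : ℂ) z := by
      simpa using (hasDerivAt_id z).const_mul (ρ n : ℂ)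
    have h3 := h1.comp z h2
    rw [mul_comm] at h3
    exact h3.deriv
  have hbound : ∀ n, ∫⁻ z in ball (0 : ℂ) 1,
      ENNReal.ofReal (‖deriv (fun z => f ((ρ n : ℂ) * z)) z‖ ^ (-p)) ≤
      ENNReal.ofReal ((m / 2) ^ (-p) * (1 + 16 / (2 - p)) * π) := by
    intro n
    have h0 : 0 < ρ n := by linarith [hρ2 n]
    have h0' : (ρ n : ℂ) ≠ 0 := by exact_mod_cast h0.ne'
    have hR : 1 < 1 / ρ n := by
      rw [lt_div_iff₀ h0]; linarith [hρ1 n]
    have hmaps : MapsTo (fun z : ℂ => (ρ n : ℂ) * z) (ball 0 (1 / ρ n)) (ball 0 1) := by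
      intro z hz
      rw [mem_ball_zero_iff] at hz ⊢
      rw [norm_mul, norm_real, Real.norm_eq_abs, abs_of_pos h0]
      rwa [lt_div_iff₀ h0, mul_comm] at hz
    apply bound_of_star hp hp2 (by positivity)
    · have hce : ContinuousOn (fun z => (ρ n : ℂ) * deriv f ((ρ n : ℂ) * z))
          (closedBall (0 : ℂ) 1) := by
        apply ContinuousOn.mul continuousOn_const
        exact hfd.comp (by fun_prop) fun z hz => hmem n hz
      exact hce.congr fun z hz => hderiv n (hmem n hz)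
    · intro z hz
      rw [hderiv n (hmem n hz)]
      exact mul_ne_zero h0' (hne _ (hmem n hz))
    · intro z hz
      have hz1 : ‖z‖ ≤ r₁ := by
        rw [hr₁]
        exact Real.le_sqrt_of_sq_le hz
      have hz2 : z ∈ closedBall (0 : ℂ) 1 := by
        rw [mem_closedBall_zero_iff]; linarith
      rw [hderiv n (hmem n hz2), norm_mul, norm_real, Real.norm_eq_abs, abs_of_pos h0]
      have h3 : m ≤ ‖deriv f ((ρ n : ℂ) * z)‖ := by
        apply hmle
        rw [mem_closedBall_zero_iff, norm_mul, norm_real, Real.norm_eq_abs, abs_of_pos h0]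
        calc ρ n * ‖z‖ ≤ 1 * ‖z‖ := by
              gcongr
              exact (hρ1 n).le
          _ ≤ r₁ := by linarith
      calc m / 2 = 1 / 2 * m := by ring
        _ ≤ ρ n * ‖deriv f ((ρ n : ℂ) * z)‖ := by
            gcongr
            exact hρ2 n
    · exact hB _ (1 / ρ n) hR
        (hf.comp (by fun_prop) hmaps)
        (hinj.comp (fun x _ y _ h => mul_left_cancel₀ h0' h) hmaps) p hp hp2
  -- Fatou
  have hlim : ∀ᵐ z ∂(volume.restrict (ball (0 : ℂ) 1)),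
      ENNReal.ofReal (‖deriv f z‖ ^ (-p)) = liminf (fun n =>
        ENNReal.ofReal (‖deriv (fun z => f ((ρ n : ℂ) * z)) z‖ ^ (-p))) atTop := by
    refine (ae_restrict_iff' measurableSet_ball).mpr (Eventually.of_forall fun z hz => ?_)
    symm
    apply Tendsto.liminf_eq
    have h1 : Tendsto (fun n => (ρ n : ℂ) * z) atTop (𝓝 z) := by
      have := ((continuous_ofReal.tendsto 1).comp hρlim).mul_const z
      simpa using this
    have h2 : Tendsto (fun n => deriv f ((ρ n : ℂ) * z)) atTop (𝓝 (deriv f z)) :=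
      ((hfd.continuousAt (isOpen_ball.mem_nhds hz)).tendsto).comp h1
    have h3 : Tendsto (fun n => (ρ n : ℂ) * deriv f ((ρ n : ℂ) * z)) atTop (𝓝 (deriv f z)) := by
      have := ((continuous_ofReal.tendsto 1).comp hρlim).mul h2
      simpa using this
    have h4 : Tendsto (fun n => ‖(ρ n : ℂ) * deriv f ((ρ n : ℂ) * z)‖ ^ (-p)) atTop
        (𝓝 (‖deriv f z‖ ^ (-p))) :=
      (h3.norm).rpow_const (Or.inl (norm_ne_zero_iff.mpr (hne z hz)))
    have h5 := (ENNReal.continuous_ofReal.tendsto _).comp h4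
    refine h5.congr fun n => ?_
    simp only [Function.comp_apply]
    rw [hderiv n (hmem n (ball_subset_closedBall hz))]
  calc ∫⁻ z in ball (0 : ℂ) 1, ENNReal.ofReal (‖deriv f z‖ ^ (-p))
      = ∫⁻ z in ball (0 : ℂ) 1, liminf (fun n =>
        ENNReal.ofReal (‖deriv (fun z => f ((ρ n : ℂ) * z)) z‖ ^ (-p))) atTop :=
        lintegral_congr_ae hlim
    _ ≤ liminf (fun n => ∫⁻ z in ball (0 : ℂ) 1,
        ENNReal.ofReal (‖deriv (fun z => f ((ρ n : ℂ) * z)) z‖ ^ (-p))) atTop := by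
        apply lintegral_liminf_le
        intro n
        apply ENNReal.measurable_ofReal.comp
        exact (measurable_deriv _).norm.pow_const _
    _ ≤ ENNReal.ofReal ((m / 2) ^ (-p) * (1 + 16 / (2 - p)) * π) := by
        apply liminf_le_of_frequently_le'
        exact Frequently.of_forall hbound
    _ < ⊤ := ENNReal.ofReal_lt_top

end Vale.Agent.P142.Brn
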