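import Vale.Agent.P142.Brn.Defs
import Vale.Agent.P142.Brn.FatouF
import Vale.Agent.P142.JetsDeriv

/-! Block F of the proof of Brennan's conjecture, from blocks I and P. -/

open Complex MeasureTheory Metric Set Filter Topology
open scoped Real ENNReal

namespace Vale.Agent.P142.Brn

theorem blockF_of (hI : BlockI) (hP : BlockP) : BlockF := by
  intro f hf hinj p hp hp2
  apply neg_range_of_star _ hf hinj
    (fun z hz => Vale.Agent.P142.injOn_deriv_ne_zero isOpen_ball hf hinj hz) hp hp2
  intro g R hR hg hginj q hq hq2
  have hN : Nice g R := ⟨hR, hg, hginj⟩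
  have h1 := (hI g R hN q hq).2
  rw [(hP g R hN q hq hq2).2] at h1
  have h2 : 0 < 1 / q ^ 2 := by positivity
  by_contra h3
  rw [not_le] at h3
  have := mul_pos h2 h3
  linarith

end Vale.Agent.P142.Brn
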