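import Vale.Agent.P142.Brn.Defs
import Vale.Agent.P142.SpectrumGlue
import Vale.Agent.P142.PosRange

/-! Brennan's conjecture from block F and the landed classical range. -/

open Complex MeasureTheory Metric Set Filter Topology
open scoped Real ENNReal

namespace Vale.Agent.P142.Brn

/-- The disc form: `∫_D |f'|^t dA < ∞` for every univalent `f` and `-2 < t < 2/3`. -/
theorem disc_form (hF : BlockF) {f : ℂ → ℂ} (hf : DifferentiableOn ℂ f (ball 0 1))
    (hinj : InjOn f (ball 0 1)) {t : ℝ} (ht1 : -2 < t) (ht2 : t < 2 / 3) :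
    ∫⁻ z in ball (0 : ℂ) 1, ENNReal.ofReal (‖deriv f z‖ ^ t) < ⊤ := by
  rcases lt_trichotomy t 0 with h | h | h
  · have := hF f hf hinj (-t) (by linarith) (by linarith)
    rwa [neg_neg] at this
  · subst h
    simp only [Real.rpow_zero, ENNReal.ofReal_one, lintegral_const, one_mul,
      Measure.restrict_apply MeasurableSet.univ, univ_inter]
    exact measure_ball_lt_top
  · exact Vale.Agent.P142.lintegral_pos_range ⟨hf, hinj⟩ h ht2

/-- Brennan's conjecture from block F. -/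
theorem brennan_of (hF : BlockF) :
    (∀ (W : Set ℂ) (φ : ℂ → ℂ), IsOpen W → DifferentiableOn ℂ φ W → BijOn φ W (ball 0 1) →
      ∀ s : ℝ, 4 / 3 < s → s < 4 → ∫⁻ w in W, ENNReal.ofReal (‖deriv φ w‖ ^ s) < ⊤) ∧
    (∀ f : ℂ → ℂ, DifferentiableOn ℂ f (ball 0 1) → InjOn f (ball 0 1) →
      ∀ t : ℝ, -2 < t → t < 2 / 3 →
        ∫⁻ z in ball (0 : ℂ) 1, ENNReal.ofReal (‖deriv f z‖ ^ t) < ⊤) := by
  refine ⟨?_, fun f hf hinj t ht1 ht2 => disc_form hF hf hinj ht1 ht2⟩
  intro W φ hW hφ hbij s hs1 hs2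
  obtain ⟨f, hf, hint⟩ := Vale.Agent.P142.exists_inverse hW hφ hbij
  rw [hint s]
  exact disc_form hF hf.1 hf.2 (by linarith) (by linarith)

end Vale.Agent.P142.Brn
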