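import Vale.Agent.P142.Brn.Par6
import Vale.Agent.P142.SpectrumGlue
import Vale.Agent.P142.FixedFrame

/-! From block F to `B_S(-2) ≤ 1`. -/

open Complex MeasureTheory Metric Set Filter Topology
open scoped Real ENNReal

namespace Vale.Agent.P142.Brn.G1s

noncomputable section

variable {f : ℂ → ℂ} {p r s : ℝ}

/-- The circle means of `|f'|^(-p)` as a series. -/
lemma exists_series (hf : Univ f) (p : ℝ) : ∃ G : ℂ → ℂ, DifferentiableOn ℂ G (ball 0 1) ∧
    (∀ z ∈ ball (0 : ℂ) 1, ‖G z‖ ^ 2 = ‖deriv f z‖ ^ (-p)) ∧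
    ∀ r : ℝ, 0 ≤ r → r < 1 → HasSum (fun n : ℕ => 2 * π * (‖tc G n‖ ^ 2 * r ^ (2 * n)))
      (MM f (-p) r) := by
  obtain ⟨G, hG, hGp⟩ := Par6.exists_G one_pos (hf.1.deriv isOpen_ball)
    (fun z hz => univ_deriv_ne_zero hf hz) p
  refine ⟨G, hG, fun z hz => (hGp z hz).2, fun r hr0 hr1 => ?_⟩
  have h := Par6.parseval_sq hr0 hr1 hG.continuousOn (fun z hz => hasSum_tc hG hz)
  have e : ∫ θ in (-π)..π, ‖G (circleMap 0 r θ)‖ ^ 2 = MM f (-p) r := by
    unfold MM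
    congr 1
    ext θ
    exact (hGp _ (circleMap_mem_unit hr0 hr1 θ)).2
  rwa [e] at h

lemma MM_mono (hf : Univ f) (p : ℝ) (hr0 : 0 ≤ r) (hrs : r ≤ s) (hs1 : s < 1) :
    MM f (-p) r ≤ MM f (-p) s := by
  obtain ⟨G, hG, _, hS⟩ := exists_series hf p
  refine hasSum_le (fun n => ?_) (hS r hr0 (by linarith)) (hS s (by linarith) hs1)
  have : r ^ (2 * n) ≤ s ^ (2 * n) := pow_le_pow_left₀ hr0 hrs _
  have := Real.pi_pos
  gcongr

/-- The circle means are bounded by the area integral. -/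
lemma mm_area (hf : Univ f) (hI : ∫⁻ z in ball (0 : ℂ) 1, ENNReal.ofReal (‖deriv f z‖ ^ (-p)) < ⊤) :
    ∃ C : ℝ, 0 < C ∧ ∀ r : ℝ, 1 / 2 ≤ r → r < 1 → (1 - r) * MM f (-p) r ≤ C := by
  set I : ℝ≥0∞ := ∫⁻ z in ball (0 : ℂ) 1, ENNReal.ofReal (‖deriv f z‖ ^ (-p)) with hIdef
  refine ⟨2 * I.toReal + 1, by positivity, fun r hr hr1 => ?_⟩
  have hm : Measurable (fun z => ENNReal.ofReal (‖deriv f z‖ ^ (-p))) :=
    ENNReal.measurable_ofReal.comp ((measurable_deriv f).norm.pow_const _)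
  have hd : ∀ z ∈ ball (0 : ℂ) 1, deriv f z ≠ 0 := fun z hz => univ_deriv_ne_zero hf hz
  have hr0 : (0 : ℝ) ≤ r := by linarith
  have hMpos := MM_pos hf (-p) hr0 hr1
  have h1 : ENNReal.ofReal ((1 - r) * (1 / 2 * MM f (-p) r)) ≤ I := by
    rw [hIdef, FF.lintegral_ball_polar hm]
    calc ENNReal.ofReal ((1 - r) * (1 / 2 * MM f (-p) r))
        = ∫⁻ _ in Ioo r 1, ENNReal.ofReal (1 / 2 * MM f (-p) r) := by
          rw [setLIntegral_const, Real.volume_Ioo, ← ENNReal.ofReal_mul (by positivity), mul_comm]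
      _ ≤ ∫⁻ ρ in Ioo r 1, ENNReal.ofReal ρ *
          ∫⁻ θ in Ioo (-π) π, ENNReal.ofReal (‖deriv f (circleMap 0 ρ θ)‖ ^ (-p)) := by
          apply setLIntegral_mono' measurableSet_Ioo
          intro ρ hρ
          have hρ0 : 0 ≤ ρ := by linarith [hρ.1]
          have hc := continuous_weight (t := -p) hf.1 hd hρ0 hρ.2
          have hint : IntegrableOn (fun θ => ‖deriv f (circleMap 0 ρ θ)‖ ^ (-p)) (Ioo (-π) π) :=
            (hc.integrableOn_Icc (a := -π) (b := π)).mono_set Ioo_subset_Icc_self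
          rw [← ofReal_integral_eq_lintegral_ofReal hint
            (Eventually.of_forall fun θ => Real.rpow_nonneg (norm_nonneg _) _),
            ← ENNReal.ofReal_mul hρ0]
          apply ENNReal.ofReal_le_ofReal
          have e : ∫ θ in Ioo (-π) π, ‖deriv f (circleMap 0 ρ θ)‖ ^ (-p) = MM f (-p) ρ := by
            rw [MM, intervalIntegral.integral_of_le (by linarith [Real.pi_pos]),
              integral_Ioc_eq_integral_Ioo]
          rw [e]
          have h2 := MM_mono hf p hr0 hρ.1.le hρ.2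
          have h3 : (1 / 2 : ℝ) ≤ ρ := by linarith [hρ.1]
          gcongr
      _ ≤ _ := lintegral_mono_set (Ioo_subset_Ioo_left hr0)
  have h2 := ENNReal.toReal_mono hI.ne h1
  rw [ENNReal.toReal_ofReal (by
    have : 0 ≤ 1 - r := by linarith
    positivity)] at h2
  linarith

/-- A polynomial lower bound for `|f'|`. -/
lemma deriv_lower (hf : Univ f)
    (hI : ∫⁻ z in ball (0 : ℂ) 1, ENNReal.ofReal (‖deriv f z‖ ^ (-p)) < ⊤) :
    ∃ C : ℝ, 0 < C ∧ ∀ z ∈ ball (0 : ℂ) 1, 1 / 2 ≤ ‖z‖ →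
      ‖deriv f z‖ ^ (-p) ≤ C * (1 - ‖z‖) ^ (-2 : ℝ) := by
  obtain ⟨C, hC, hCb⟩ := mm_area hf hI
  obtain ⟨G, hG, hGn, hS⟩ := exists_series hf p
  refine ⟨4 * C, by positivity, fun z hz hz2 => ?_⟩
  have hz1 : ‖z‖ < 1 := by simpa using hz
  set r := ‖z‖ with hr
  have hr0 : 0 < r := by linarith
  set s := √r with hs
  have hs0 : 0 < s := Real.sqrt_pos.mpr hr0
  have hss : s * s = r := Real.mul_self_sqrt hr0.le
  have hs1 : s < 1 := by nlinarith
  have hsr : r ≤ s := by nlinarith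
  have hGs : DifferentiableOn ℂ G (ball 0 1) := hG
  -- partial sums
  have hpart : ∀ N : ℕ, ‖∑ n ∈ Finset.range N, tc G n * z ^ n‖ ^ 2 ≤
      MM f (-p) s / (2 * π) * (1 - r)⁻¹ := by
    intro N
    have h1 : ‖∑ n ∈ Finset.range N, tc G n * z ^ n‖ ≤
        ∑ n ∈ Finset.range N, (‖tc G n‖ * s ^ n) * s ^ n := by
      refine le_trans (norm_sum_le _ _) (le_of_eq ?_)
      apply Finset.sum_congr rfl
      intro n _
      rw [norm_mul, norm_pow, ← hr, ← hss, mul_pow]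
      ring
    have hcs := Finset.sum_mul_sq_le_sq_mul_sq (Finset.range N) (fun n => ‖tc G n‖ * s ^ n)
      (fun n => s ^ n)
    have h2 : ∑ n ∈ Finset.range N, (‖tc G n‖ * s ^ n) ^ 2 ≤ MM f (-p) s / (2 * π) := by
      rw [le_div_iff₀ (by positivity), Finset.sum_mul]
      have := sum_le_hasSum (Finset.range N) (fun n _ => by positivity) (hS s hs0.le hs1)
      refine le_trans (le_of_eq ?_) this
      apply Finset.sum_congr rfl
      intro n _
      rw [mul_pow, ← pow_mul, mul_comm n 2]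
      ring
    have h3 : ∑ n ∈ Finset.range N, (s ^ n) ^ 2 ≤ (1 - r)⁻¹ := by
      have hsum := hasSum_geometric_of_lt_one hr0.le hz1
      refine le_trans (le_of_eq ?_) (sum_le_hasSum (Finset.range N) (fun i _ => by positivity) hsum)
      apply Finset.sum_congr rfl
      intro n _
      rw [← pow_mul, mul_comm n 2, pow_mul, sq, hss]
    have h0 : 0 ≤ ∑ n ∈ Finset.range N, (s ^ n) ^ 2 := Finset.sum_nonneg fun i _ => by positivity
    have hMp := MM_pos hf (-p) hs0.le hs1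
    calc ‖∑ n ∈ Finset.range N, tc G n * z ^ n‖ ^ 2
        ≤ (∑ n ∈ Finset.range N, (‖tc G n‖ * s ^ n) * s ^ n) ^ 2 := by gcongr
      _ ≤ _ := hcs
      _ ≤ MM f (-p) s / (2 * π) * (1 - r)⁻¹ := by gcongr
  have hlim : ‖G z‖ ^ 2 ≤ MM f (-p) s / (2 * π) * (1 - r)⁻¹ := by
    have h := (hasSum_tc hGs hz).tendsto_sum_nat
    exact le_of_tendsto ((h.norm).pow 2) (Eventually.of_forall hpart)
  have h1r : 0 < 1 - r := by linarith
  have h1s : 0 < 1 - s := by linarith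
  have h3 : MM f (-p) s ≤ C * (1 - s)⁻¹ := by
    have := hCb s (by linarith) hs1
    rw [← div_eq_mul_inv, le_div_iff₀ h1s]
    linarith
  have h4 : (1 - s)⁻¹ ≤ 2 * (1 - r)⁻¹ := by
    rw [inv_le_comm₀ h1s (by positivity), mul_inv, inv_inv]
    nlinarith
  have h5 : (1 - r) ^ (-2 : ℝ) = (1 - r)⁻¹ * (1 - r)⁻¹ := by
    rw [Real.rpow_neg h1r.le, Real.rpow_two, sq, mul_inv]
  rw [hGn z hz] at hlim
  rw [h5]
  have hi : 0 < (1 - r)⁻¹ := by positivity
  have hpi : (1 : ℝ) ≤ 2 * π := by linarith [Real.pi_gt_three]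
  calc ‖deriv f z‖ ^ (-p) ≤ MM f (-p) s / (2 * π) * (1 - r)⁻¹ := hlim
    _ ≤ MM f (-p) s * (1 - r)⁻¹ := by
        gcongr
        exact div_le_self (MM_pos hf (-p) hs0.le hs1).le hpi
    _ ≤ (C * (2 * (1 - r)⁻¹)) * (1 - r)⁻¹ := by
        have : C * (1 - s)⁻¹ ≤ C * (2 * (1 - r)⁻¹) := by gcongr
        gcongr
        linarith
    _ ≤ 4 * C * ((1 - r)⁻¹ * (1 - r)⁻¹) := by nlinarith [mul_pos hi hi, hC]

/-- `β_f(-2) ≤ 1 + ε`. -/
lemma betaF_le_add (hF : BlockF) (hf : Univ f) {ε : ℝ} (hε : 0 < ε) (hε1 : ε < 1) :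
    betaF f (-2) ≤ ((1 + 2 * ε : ℝ) : EReal) := by
  have hI2 := hF f hf.1 hf.2 (2 - ε) (by linarith) (by linarith)
  have hI1 := hF f hf.1 hf.2 1 (by norm_num) (by norm_num)
  obtain ⟨C, hC, hCb⟩ := mm_area hf hI2
  obtain ⟨D, hD, hDb⟩ := deriv_lower hf hI1
  have hd : ∀ z ∈ ball (0 : ℂ) 1, deriv f z ≠ 0 := fun z hz => univ_deriv_ne_zero hf hz
  apply betaF_le hf (C := D ^ ε * C) (r₀ := 1 / 2) (by norm_num) (by norm_num)
  intro r hr
  have hr1 : 0 < 1 - r := by linarith [hr.2]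
  have hr0 : 0 ≤ r := by linarith [hr.1]
  have h1 : MM f (-2) r ≤ (D * (1 - r) ^ (-2 : ℝ)) ^ ε * MM f (-(2 - ε)) r := by
    unfold MM
    rw [← intervalIntegral.integral_const_mul]
    have hc1 := continuous_weight (t := -2) hf.1 hd hr0 hr.2
    have hc2 := continuous_weight (t := -(2 - ε)) hf.1 hd hr0 hr.2
    apply intervalIntegral.integral_mono_on (by linarith [Real.pi_pos])
      (hc1.intervalIntegrable _ _) ((continuous_const.mul hc2).intervalIntegrable _ _)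
    intro θ _
    have hmem := circleMap_mem_unit hr0 hr.2 θ
    have hn : ‖circleMap 0 r θ‖ = r := by rw [norm_circleMap_zero, abs_of_nonneg hr0]
    have h2 := hDb _ hmem (by rw [hn]; exact hr.1)
    rw [hn] at h2
    have hdp : 0 < ‖deriv f (circleMap 0 r θ)‖ := norm_pos_iff.mpr (hd _ hmem)
    have e : ‖deriv f (circleMap 0 r θ)‖ ^ (-2 : ℝ) =
        (‖deriv f (circleMap 0 r θ)‖ ^ (-1 : ℝ)) ^ ε *
          ‖deriv f (circleMap 0 r θ)‖ ^ (-(2 - ε)) := by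
      rw [← Real.rpow_mul hdp.le, ← Real.rpow_add hdp]
      congr 1
      ring
    rw [e]
    have h0 : 0 ≤ ‖deriv f (circleMap 0 r θ)‖ ^ (-1 : ℝ) := by positivity
    exact mul_le_mul_of_nonneg_right (Real.rpow_le_rpow h0 h2 hε.le) (by positivity)
  have h2 := hCb r hr.1 hr.2
  have hDe : 0 < D ^ ε := by positivity
  have e1 : (D * (1 - r) ^ (-2 : ℝ)) ^ ε = D ^ ε * (1 - r) ^ (-(2 * ε)) := by
    rw [Real.mul_rpow hD.le (by positivity), ← Real.rpow_mul hr1.le]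
    congr 2
    ring
  have e2 : (1 - r) ^ (1 + 2 * ε) * (1 - r) ^ (-(2 * ε)) = 1 - r := by
    rw [← Real.rpow_add hr1]
    simp
  have hp : 0 < (1 - r) ^ (1 + 2 * ε) := Real.rpow_pos_of_pos hr1 _
  calc (1 - r) ^ (1 + 2 * ε) * MM f (-2) r
      ≤ (1 - r) ^ (1 + 2 * ε) * ((D * (1 - r) ^ (-2 : ℝ)) ^ ε * MM f (-(2 - ε)) r) := by gcongr
    _ = D ^ ε * (((1 - r) ^ (1 + 2 * ε) * (1 - r) ^ (-(2 * ε))) * MM f (-(2 - ε)) r) := by
        rw [e1]; ring
    _ = D ^ ε * ((1 - r) * MM f (-(2 - ε)) r) := by rw [e2]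
    _ ≤ D ^ ε * C := by gcongr

theorem betaF_neg_two_le (hF : BlockF) (hf : Univ f) : betaF f (-2) ≤ 1 := by
  by_contra h
  rw [not_le] at h
  have h' : ((1 : ℝ) : EReal) < betaF f (-2) := by exact_mod_cast h
  obtain ⟨x, hx1, hx2⟩ := EReal.lt_iff_exists_real_btwn.mp h'
  have hx : 1 < x := by exact_mod_cast hx1
  set ε : ℝ := min ((x - 1) / 2) (1 / 2) with hε
  have h0 : 0 < ε := lt_min (by linarith) (by norm_num)
  have h1 : ε < 1 := lt_of_le_of_lt (min_le_right _ _) (by norm_num)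
  have h2 : ε ≤ (x - 1) / 2 := min_le_left _ _
  have h3 := betaF_le_add hF hf h0 h1
  have h4 : ((1 + 2 * ε : ℝ) : EReal) ≤ (x : EReal) := by
    rw [EReal.coe_le_coe_iff]
    linarith
  exact absurd (lt_of_lt_of_le hx2 (h3.trans h4)) (lt_irrefl _)

theorem BS_neg_two_le (hF : BlockF) : BS (-2) ≤ 1 := by
  unfold BS
  exact iSup₂_le fun f hf => betaF_neg_two_le hF ⟨hf.1, hf.2.1⟩

end

end Vale.Agent.P142.Brn.G1s
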