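import Vale.Agent.P142.Defs

/-! P142 (Brennan), block G2: the Koebe function shows `1 ≤ B_S(-2)` -/

open Complex MeasureTheory Metric Set Filter Topology
open scoped Real

namespace Vale.Agent.P142.Brn

noncomputable section

/-- a rotated Koebe function -/
def koe (z : ℂ) : ℂ := z / (1 + z) ^ 2

lemma koe_ne {z : ℂ} (hz : z ∈ ball (0 : ℂ) 1) : 1 + z ≠ 0 := by
  rw [mem_ball_zero_iff] at hz
  intro h
  have h1 : z = -1 := by linear_combination h
  rw [h1, norm_neg, norm_one] at hz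
  exact lt_irrefl _ hz

lemma koe_ne' {z : ℂ} (hz : z ∈ ball (0 : ℂ) 1) : 1 - z ≠ 0 := by
  rw [mem_ball_zero_iff] at hz
  intro h
  have h1 : z = 1 := by linear_combination -h
  rw [h1, norm_one] at hz
  exact lt_irrefl _ hz

lemma koe_deriv {z : ℂ} (hz : z ∈ ball (0 : ℂ) 1) :
    HasDerivAt koe ((1 - z) / (1 + z) ^ 3) z := by
  have h := koe_ne hz
  have h1 : HasDerivAt (fun z : ℂ => (1 + z) ^ 2) (2 * (1 + z)) z := by
    have h0 : HasDerivAt (fun z : ℂ => 1 + z) 1 z := (hasDerivAt_id' z).const_add 1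
    exact (h0.pow 2).congr_deriv (by simp)
  have h2 : HasDerivAt (fun z : ℂ => z / (1 + z) ^ 2)
      ((1 * (1 + z) ^ 2 - z * (2 * (1 + z))) / ((1 + z) ^ 2) ^ 2) z :=
    (hasDerivAt_id' z).div h1 (pow_ne_zero 2 h)
  refine (h2.congr_deriv ?_)
  field_simp
  ring

lemma koe_mem : koe ∈ ClassS := by
  refine ⟨fun z hz => (koe_deriv hz).differentiableAt.differentiableWithinAt, ?_, ?_, ?_⟩
  · intro z hz w hw h
    have h1 := koe_ne hz
    have h2 := koe_ne hw
    unfold koe at h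
    rw [div_eq_div_iff (pow_ne_zero 2 h1) (pow_ne_zero 2 h2)] at h
    have h3 : (z - w) * (1 - z * w) = 0 := by linear_combination h
    rcases mul_eq_zero.1 h3 with h4 | h4
    · exact sub_eq_zero.1 h4
    · exfalso
      have h5 : z * w = 1 := (sub_eq_zero.1 h4).symm
      have h6 : ‖z * w‖ = 1 := by rw [h5, norm_one]
      rw [mem_ball_zero_iff] at hz hw
      rw [norm_mul] at h6
      nlinarith [norm_nonneg z, norm_nonneg w]
  · simp [koe]
  · have := (koe_deriv (z := 0) (by simp)).deriv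
    rw [this]
    simp

lemma koe_circle {r θ : ℝ} (hr0 : 0 ≤ r) (hr1 : r < 1) : circleMap 0 r θ ∈ ball (0 : ℂ) 1 := by
  rw [mem_ball_zero_iff]
  simp only [circleMap, zero_add, norm_mul, norm_exp_ofReal_mul_I, mul_one, norm_real,
    Real.norm_eq_abs, abs_of_nonneg hr0]
  exact hr1

lemma koe_pos {r θ : ℝ} (hr0 : 0 ≤ r) (hr1 : r < 1) :
    0 < ‖deriv koe (circleMap 0 r θ)‖ := by
  have hz := koe_circle (θ := θ) hr0 hr1
  rw [(koe_deriv hz).deriv]
  exact norm_pos_iff.2 (div_ne_zero (koe_ne' hz) (pow_ne_zero 3 (koe_ne hz)))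

lemma koe_bound {r θ : ℝ} (hr0 : 1 / 2 ≤ r) (hr1 : r < 1) (hθ : |θ| ≤ 1 - r) :
    (2 * (1 - r)) ^ (-2 : ℝ) ≤ ‖deriv koe (circleMap 0 r θ)‖ ^ (-2 : ℝ) := by
  have hr : 0 ≤ r := by linarith
  have hz := koe_circle (θ := θ) hr hr1
  refine Real.rpow_le_rpow_of_nonpos (koe_pos hr hr1) ?_ (by norm_num)
  rw [(koe_deriv hz).deriv, norm_div, norm_pow]
  have h1 : ‖1 - circleMap 0 r θ‖ ≤ 2 * (1 - r) := by
    have e : 1 - circleMap 0 r θ = ((1 - r : ℝ) : ℂ) - (r : ℂ) * (exp (I * θ) - 1) := by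
      simp only [circleMap, zero_add]
      rw [mul_comm I (θ : ℂ)]
      push_cast
      ring
    rw [e]
    refine (norm_sub_le _ _).trans ?_
    rw [norm_mul, norm_real, norm_real, Real.norm_eq_abs, Real.norm_eq_abs,
      abs_of_nonneg (by linarith : (0 : ℝ) ≤ 1 - r), abs_of_nonneg hr]
    have h2 := Real.norm_exp_I_mul_ofReal_sub_one_le (x := θ)
    rw [Real.norm_eq_abs] at h2
    nlinarith [norm_nonneg (exp (I * θ) - 1), abs_nonneg θ]
  have h2 : 1 ≤ ‖1 + circleMap 0 r θ‖ := by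
    refine le_trans ?_ (Complex.re_le_norm _)
    have e : (1 + circleMap 0 r θ).re = 1 + r * Real.cos θ := by
      simp only [circleMap, zero_add, add_re, one_re, re_ofReal_mul, exp_ofReal_mul_I_re]
    rw [e]
    have h3 : 0 ≤ Real.cos θ := by
      apply Real.cos_nonneg_of_mem_Icc
      have := Real.two_le_pi
      rw [abs_le] at hθ
      constructor <;> linarith
    nlinarith
  have h3 : 1 ≤ ‖1 + circleMap 0 r θ‖ ^ 3 := one_le_pow₀ h2
  calc ‖1 - circleMap 0 r θ‖ / ‖1 + circleMap 0 r θ‖ ^ 3 ≤ ‖1 - circleMap 0 r θ‖ / 1 :=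
        div_le_div_of_nonneg_left (norm_nonneg _) one_pos h3
    _ ≤ 2 * (1 - r) := by rw [div_one]; exact h1

lemma koe_cont {r : ℝ} (hr0 : 0 ≤ r) (hr1 : r < 1) :
    Continuous (fun θ : ℝ => ‖deriv koe (circleMap 0 r θ)‖ ^ (-2 : ℝ)) := by
  refine Continuous.rpow_const ?_ (fun θ => Or.inl (koe_pos hr0 hr1).ne')
  refine Continuous.norm ?_
  have e : (fun θ : ℝ => deriv koe (circleMap 0 r θ))
      = fun θ : ℝ => (1 - circleMap 0 r θ) / (1 + circleMap 0 r θ) ^ 3 := by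
    funext θ
    exact (koe_deriv (koe_circle hr0 hr1)).deriv
  rw [e]
  have hc := continuous_circleMap (0 : ℂ) r
  exact (continuous_const.sub hc).div ((continuous_const.add hc).pow 3)
    (fun θ => pow_ne_zero 3 (koe_ne (koe_circle hr0 hr1)))

lemma koe_mean {r : ℝ} (hr0 : 1 / 2 ≤ r) (hr1 : r < 1) :
    1 / (4 * π * (1 - r)) ≤ intMean koe (-2) r := by
  have hr : 0 ≤ r := by linarith
  have hs : 0 < 1 - r := by linarith
  have hpi := Real.two_le_pi
  have hc := koe_cont hr hr1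
  have h1 : ∫ _θ in (-(1 - r))..(1 - r), (2 * (1 - r)) ^ (-2 : ℝ)
      ≤ ∫ θ in (-(1 - r))..(1 - r), ‖deriv koe (circleMap 0 r θ)‖ ^ (-2 : ℝ) := by
    refine intervalIntegral.integral_mono_on (by linarith) intervalIntegrable_const
      (hc.intervalIntegrable _ _) (fun θ hθ => koe_bound hr0 hr1 (abs_le.2 hθ))
  have h2 : ∫ θ in (-(1 - r))..(1 - r), ‖deriv koe (circleMap 0 r θ)‖ ^ (-2 : ℝ)
      ≤ ∫ θ in (-π)..π, ‖deriv koe (circleMap 0 r θ)‖ ^ (-2 : ℝ) := by
    refine intervalIntegral.integral_mono_interval (by linarith) (by linarith) (by linarith)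
      (Filter.Eventually.of_forall fun θ => Real.rpow_nonneg (norm_nonneg _) _)
      (hc.intervalIntegrable _ _)
  rw [intervalIntegral.integral_const, smul_eq_mul] at h1
  have h3 : (2 * (1 - r)) ^ (-2 : ℝ) = ((2 * (1 - r)) ^ 2)⁻¹ := by
    rw [Real.rpow_neg (by linarith)]
    norm_cast
  rw [h3] at h1
  unfold intMean
  have h4 := h1.trans h2
  calc 1 / (4 * π * (1 - r)) = (2 * π)⁻¹ * ((1 - r - -(1 - r)) * ((2 * (1 - r)) ^ 2)⁻¹) := by
        field_simp
        ring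
    _ ≤ _ := by
        refine mul_le_mul_of_nonneg_left h4 ?_
        positivity

lemma koe_log {r : ℝ} (hr0 : 1 / 2 ≤ r) (hr1 : r < 1) :
    1 - Real.log (4 * π) / Real.log (1 / (1 - r))
      ≤ Real.log (intMean koe (-2) r) / Real.log (1 / (1 - r)) := by
  have hs : 0 < 1 - r := by linarith
  have hL : 0 < Real.log (1 / (1 - r)) := by
    apply Real.log_pos
    rw [lt_div_iff₀ hs]
    linarith
  have hpi := Real.pi_pos
  rw [le_div_iff₀ hL, sub_mul, div_mul_cancel₀ _ hL.ne', one_mul]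
  have h1 : Real.log (1 / (1 - r)) - Real.log (4 * π) = Real.log (1 / (4 * π * (1 - r))) := by
    rw [← Real.log_div (by positivity) (by positivity)]
    congr 1
    field_simp
  rw [h1]
  exact Real.log_le_log (by positivity) (koe_mean hr0 hr1)

lemma koe_tend :
    Tendsto (fun r : ℝ => 1 - Real.log (4 * π) / Real.log (1 / (1 - r))) (𝓝[<] 1) (𝓝 1) := by
  have h1 : Tendsto (fun r : ℝ => 1 - r) (𝓝[<] 1) (𝓝[>] 0) := by
    refine tendsto_nhdsWithin_iff.2 ⟨?_, ?_⟩
    · have : Tendsto (fun r : ℝ => 1 - r) (𝓝 1) (𝓝 (1 - 1)) :=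
        (continuous_const.sub continuous_id).tendsto 1
      rw [sub_self] at this
      exact this.mono_left nhdsWithin_le_nhds
    · filter_upwards [self_mem_nhdsWithin] with r hr
      rw [mem_Iio] at hr
      rw [mem_Ioi]
      linarith
  have h2 : Tendsto (fun r : ℝ => 1 / (1 - r)) (𝓝[<] 1) atTop := by
    have := tendsto_inv_nhdsGT_zero.comp h1
    refine this.congr (fun r => ?_)
    simp
  have h3 := Real.tendsto_log_atTop.comp h2
  have h4 : Tendsto (fun r : ℝ => Real.log (4 * π) / Real.log (1 / (1 - r))) (𝓝[<] 1) (𝓝 0) :=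
    Tendsto.div_atTop tendsto_const_nhds h3
  have h5 := (tendsto_const_nhds (x := (1 : ℝ))).sub h4
  rwa [sub_zero] at h5

theorem one_le_betaF_koe : (1 : EReal) ≤ betaF koe (-2) := by
  have h1 : Tendsto (fun r : ℝ =>
      ((1 - Real.log (4 * π) / Real.log (1 / (1 - r)) : ℝ) : EReal)) (𝓝[<] 1) (𝓝 (1 : EReal)) :=
    (continuous_coe_real_ereal.tendsto 1).comp koe_tend
  rw [← h1.limsup_eq]
  unfold betaF
  refine Filter.limsup_le_limsup ?_
  have h2 : ∀ᶠ r : ℝ in 𝓝[<] 1, 1 / 2 ≤ r :=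
    nhdsWithin_le_nhds (Filter.eventually_of_mem (Ioi_mem_nhds (by norm_num : (1 / 2 : ℝ) < 1))
      (fun r hr => le_of_lt hr))
  filter_upwards [h2, self_mem_nhdsWithin] with r hr hr'
  exact EReal.coe_le_coe_iff.2 (koe_log hr hr')

/-- Block G2: the integral means spectrum at `-2` is at least `1`. -/
theorem one_le_BS : (1 : EReal) ≤ BS (-2) :=
  one_le_betaF_koe.trans (le_iSup₂ (f := fun f (_ : f ∈ ClassS) => betaF f (-2)) koe koe_mem)

end

end Vale.Agent.P142.Brn
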