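import Vale.Agent.P142.Brn.Defs

/-!
# Brennan's conjecture, block H1

The strict real derivative of `EE f`, its determinant, and continuity of `EE f`, `XX f`, `JJ f`.
-/

open Complex MeasureTheory Metric Set Filter Topology
open scoped Real ENNReal ComplexConjugate

namespace Vale.Agent.P142.Brn

namespace H1

variable {f : ℂ → ℂ}

/-- An injective holomorphic function has nonvanishing derivative. -/
theorem injOn_deriv_ne_zero {U : Set ℂ} (hU : IsOpen U) (hf1 : DifferentiableOn ℂ f U)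
    (hf2 : InjOn f U) {z₀ : ℂ} (hz : z₀ ∈ U) : deriv f z₀ ≠ 0 := by
  intro hd
  have hnhds : U ∈ 𝓝 z₀ := hU.mem_nhds hz
  have hfa : AnalyticAt ℂ f z₀ := hf1.analyticAt hnhds
  have hφ : AnalyticAt ℂ (fun z => f z - f z₀) z₀ := hfa.sub analyticAt_const
  have hnz : ¬ ∀ᶠ z in 𝓝 z₀, f z - f z₀ = 0 := by
    intro h
    have h2 : ∀ᶠ z in 𝓝[≠] z₀, f z - f z₀ = 0 ∧ z ∈ U :=
      (h.and hnhds).filter_mono nhdsWithin_le_nhds
    obtain ⟨z, ⟨h3, h4⟩, h5⟩ := (h2.and self_mem_nhdsWithin).exists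
    exact h5 (hf2 h4 hz (sub_eq_zero.mp h3))
  obtain ⟨n, g, hg, hg0, hgn⟩ := (hφ.exists_eventuallyEq_pow_smul_nonzero_iff).mpr hnz
  have hn0 : n ≠ 0 := by
    rintro rfl
    have := hgn.self_of_nhds
    simp at this
    exact hg0 this.symm
  have hn1 : n ≠ 1 := by
    rintro rfl
    have h1 : HasDerivAt (fun z => (z - z₀) ^ 1 • g z) (g z₀) z₀ := by
      have := ((hasDerivAt_id z₀).sub_const z₀).fun_mul hg.differentiableAt.hasDerivAt
      simpa using this
    have h2 : HasDerivAt (fun z => f z - f z₀) (g z₀) z₀ := h1.congr_of_eventuallyEq hgn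
    have h3 : HasDerivAt (fun z => f z - f z₀) (deriv f z₀) z₀ :=
      (hfa.differentiableAt.hasDerivAt).sub_const _
    exact hg0 ((h2.unique h3).trans hd)
  obtain ⟨c, hc⟩ := IsAlgClosed.exists_pow_nat_eq (g z₀) (Nat.pos_of_ne_zero hn0)
  have hc0 : c ≠ 0 := by
    rintro rfl
    rw [zero_pow hn0] at hc
    exact hg0 hc.symm
  set k : ℂ → ℂ := fun z => cexp (Complex.log (g z / g z₀) / n) with hk
  have hnC : (n : ℂ) ≠ 0 := by exact_mod_cast hn0
  have hkn : ∀ᶠ z in 𝓝 z₀, k z ^ n = g z / g z₀ := by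
    have : ∀ᶠ z in 𝓝 z₀, g z ≠ 0 := hg.continuousAt.eventually_ne hg0
    filter_upwards [this] with z hz
    rw [hk]
    simp only
    rw [← Complex.exp_nat_mul, mul_div_cancel₀ _ hnC, Complex.exp_log (div_ne_zero hz hg0)]
  have hk0 : k z₀ = 1 := by simp [hk, div_self hg0]
  have hkd : AnalyticAt ℂ k z₀ := by
    have h1 : AnalyticAt ℂ (fun z => g z / g z₀) z₀ := hg.div analyticAt_const hg0
    have h2 : AnalyticAt ℂ (fun z => Complex.log (g z / g z₀)) z₀ := by
      apply h1.clog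
      rw [div_self hg0]
      exact Complex.one_mem_slitPlane
    exact (h2.div analyticAt_const hnC).cexp
  set h : ℂ → ℂ := fun z => (z - z₀) * (c * k z) with hh
  have hha : AnalyticAt ℂ h z₀ := by
    exact (analyticAt_id.sub analyticAt_const).mul (analyticAt_const.mul hkd)
  have hhd : HasDerivAt h c z₀ := by
    have := ((hasDerivAt_id z₀).sub_const z₀).mul
      ((hasDerivAt_const z₀ c).mul hkd.differentiableAt.hasDerivAt)
    refine this.congr_deriv ?_
    simp [hk0]
  have hhs : HasStrictDerivAt h c z₀ := by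
    have := hha.hasStrictDerivAt
    rwa [hhd.deriv] at this
  have hmap : map h (𝓝 z₀) = 𝓝 (h z₀) := hhs.map_nhds_eq hc0
  have hh0 : h z₀ = 0 := by simp [hh]
  have hpow : ∀ᶠ z in 𝓝 z₀, f z - f z₀ = h z ^ n := by
    filter_upwards [hgn, hkn] with z h1 h2
    rw [h1, hh]
    simp only
    rw [mul_pow, mul_pow, h2, hc, smul_eq_mul]
    field_simp
  have hV : {z | f z - f z₀ = h z ^ n ∧ z ∈ U} ∈ 𝓝 z₀ := hpow.and hnhds
  have himg : h '' {z | f z - f z₀ = h z ^ n ∧ z ∈ U} ∈ 𝓝 (0 : ℂ) := by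
    have h1 := image_mem_map (m := h) hV
    rwa [hmap, hh0] at h1
  obtain ⟨ε, hε, hball⟩ := Metric.mem_nhds_iff.mp himg
  have hprim := Complex.isPrimitiveRoot_exp n hn0
  set ω := cexp (2 * π * I / n) with hω
  have hω1 : ω ≠ 1 := hprim.ne_one (by omega)
  have hωn : ω ^ n = 1 := hprim.pow_eq_one
  have hωnorm : ‖ω‖ = 1 := Complex.norm_eq_one_of_pow_eq_one hωn hn0
  set w : ℂ := ((ε / 2 : ℝ) : ℂ) with hw
  have hwn : ‖w‖ = ε / 2 := by
    rw [hw, Complex.norm_real, Real.norm_eq_abs, abs_of_pos (by positivity)]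
  have hw1 : w ∈ ball (0 : ℂ) ε := by rw [mem_ball_zero_iff, hwn]; linarith
  have hw2 : ω * w ∈ ball (0 : ℂ) ε := by
    rw [mem_ball_zero_iff, norm_mul, hωnorm, one_mul, hwn]; linarith
  obtain ⟨z1, ⟨h11, h12⟩, h13⟩ := hball hw1
  obtain ⟨z2, ⟨h21, h22⟩, h23⟩ := hball hw2
  have heq : f z1 = f z2 := by
    have : f z1 - f z₀ = f z2 - f z₀ := by
      rw [h11, h21, h13, h23, mul_pow, hωn, one_mul]
    exact sub_left_injective this
  have hz12 := hf2 h12 h22 heq
  rw [hz12, h23] at h13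
  have hw0 : w ≠ 0 := by
    intro h0
    rw [h0, norm_zero] at hwn
    linarith
  exact hω1 (mul_right_cancel₀ hw0 (by rw [h13, one_mul]))

/-! ### Wirtinger calculus with strict derivatives -/

/-- `H` has strict Wirtinger derivatives `a`, `b` at `z`. -/
def SW (H : ℂ → ℂ) (a b z : ℂ) : Prop := HasStrictFDerivAt H (wrt a b) z

lemma SW.of_hasStrictDerivAt {H : ℂ → ℂ} {a z : ℂ} (h : HasStrictDerivAt H a z) : SW H a 0 z := by
  have h1 := h.hasStrictFDerivAt.restrictScalars ℝ
  exact h1.congr_fderiv (ContinuousLinearMap.ext fun v => by simp [mul_comm])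

lemma SW.congr_coeff {H : ℂ → ℂ} {a b a' b' z : ℂ} (h : SW H a b z) (ha : a = a')
    (hb : b = b') : SW H a' b' z := by
  subst ha; subst hb; exact h

lemma SW.const (c z : ℂ) : SW (fun _ => c) 0 0 z :=
  SW.of_hasStrictDerivAt (hasStrictDerivAt_const z c)

lemma SW.conj {H : ℂ → ℂ} {a b z : ℂ} (h : SW H a b z) :
    SW (fun z => conj (H z)) (conj b) (conj a) z := by
  have h1 := (conjCLE : ℂ →L[ℝ] ℂ).hasStrictFDerivAt.comp z h
  exact h1.congr_fderiv (ContinuousLinearMap.ext fun v => by simp [add_comm])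

lemma SW.mul {H K : ℂ → ℂ} {a b c d z : ℂ} (h : SW H a b z) (k : SW K c d z) :
    SW (fun z => H z * K z) (a * K z + H z * c) (b * K z + H z * d) z := by
  have h1 := HasStrictFDerivAt.mul h k
  exact h1.congr_fderiv (ContinuousLinearMap.ext fun v => by simp; ring)

lemma SW.add {H K : ℂ → ℂ} {a b c d z : ℂ} (h : SW H a b z) (k : SW K c d z) :
    SW (fun z => H z + K z) (a + c) (b + d) z := by
  have h1 := HasStrictFDerivAt.add h k
  exact h1.congr_fderiv (ContinuousLinearMap.ext fun v => by simp; ring)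

lemma SW.comp {H φ : ℂ → ℂ} {a b c z : ℂ} (hφ : HasStrictDerivAt φ c (H z)) (h : SW H a b z) :
    SW (fun z => φ (H z)) (c * a) (c * b) z := by
  have h1 := (hφ.hasStrictFDerivAt.restrictScalars ℝ).comp z h
  exact h1.congr_fderiv (ContinuousLinearMap.ext fun v => by simp; ring)

lemma SW.inv {H : ℂ → ℂ} {a b z : ℂ} (h : SW H a b z) (h0 : H z ≠ 0) :
    SW (fun z => (H z)⁻¹) (-a / (H z) ^ 2) (-b / (H z) ^ 2) z := by
  refine (SW.comp (hasStrictDerivAt_inv h0) h).congr_coeff ?_ ?_ <;> field_simp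

/-- The determinant of the real linear map `v ↦ a v + b conj v`. -/
theorem det_wrt (a b : ℂ) : (wrt a b).det = ‖a‖ ^ 2 - ‖b‖ ^ 2 := by
  have h1 : LinearMap.toMatrix basisOneI basisOneI ((wrt a b : ℂ →L[ℝ] ℂ) : ℂ →ₗ[ℝ] ℂ) =
      !![a.re + b.re, -a.im + b.im; a.im + b.im, a.re - b.re] := by
    ext i j
    rw [LinearMap.toMatrix_apply]
    fin_cases i <;> fin_cases j <;> simp [wrt_apply, sub_eq_add_neg]
  change LinearMap.det ((wrt a b : ℂ →L[ℝ] ℂ) : ℂ →ₗ[ℝ] ℂ) = _
  rw [← LinearMap.det_toMatrix basisOneI, h1, Matrix.det_fin_two_of, ← Complex.normSq_eq_norm_sq,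
    ← Complex.normSq_eq_norm_sq, Complex.normSq_apply, Complex.normSq_apply]
  ring

lemma tau_eq (z : ℂ) : (tau z : ℂ) = (1 - z * conj z) / 2 := by
  rw [tau, Complex.mul_conj, Complex.normSq_eq_norm_sq]
  push_cast
  ring

theorem sw_tau (z : ℂ) : SW (fun z => (tau z : ℂ)) (-conj z / 2) (-z / 2) z := by
  have h1 : SW (fun z : ℂ => z) 1 0 z := SW.of_hasStrictDerivAt (hasStrictDerivAt_id z)
  have h2 := (SW.const (1 / 2) z).add ((SW.const (-1 / 2) z).mul (h1.mul h1.conj))
  have h3 : (fun z : ℂ => (tau z : ℂ)) = fun z : ℂ => 1 / 2 + -1 / 2 * (z * conj z) := by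
    funext z
    rw [tau_eq]
    ring
  rw [h3]
  refine h2.congr_coeff ?_ ?_ <;> simp <;> ring

theorem sw_EE {z : ℂ} (hf : AnalyticAt ℂ f z) (hz : z ≠ 0) :
    SW (EE f) (Ez f z) (Ezb f z) z := by
  have hcz : conj z ≠ 0 := by simpa using hz
  have h0 : SW f (deriv f z) 0 z := SW.of_hasStrictDerivAt hf.hasStrictDerivAt
  have h1 : SW (deriv f) (deriv (deriv f) z) 0 z :=
    SW.of_hasStrictDerivAt hf.deriv.hasStrictDerivAt
  have h2 : SW (fun z : ℂ => z) 1 0 z := SW.of_hasStrictDerivAt (hasStrictDerivAt_id z)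
  have h3 := h0.add (((sw_tau z).mul h1).mul (h2.conj.inv hcz))
  have h4 : EE f = fun z => f z + (tau z : ℂ) * deriv f z * (conj z)⁻¹ := by
    funext z; rw [EE, div_eq_mul_inv]
  rw [h4]
  refine h3.congr_coeff ?_ ?_
  · rw [Ez]; simp; field_simp; ring
  · rw [Ezb]; simp
    rw [tau_eq]; field_simp; ring

/-! ### Continuity -/

section cont

variable {R : ℝ}

lemma closedBall_subset_of_nice (hf : Nice f R) : closedBall (0 : ℂ) 1 ⊆ ball 0 R :=
  closedBall_subset_ball hf.one_lt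

lemma nice_analyticAt (hf : Nice f R) {z : ℂ} (hz : z ∈ closedBall (0 : ℂ) 1) :
    AnalyticAt ℂ f z :=
  hf.diff.analyticAt (isOpen_ball.mem_nhds (closedBall_subset_of_nice hf hz))

lemma nice_deriv_ne (hf : Nice f R) {z : ℂ} (hz : z ∈ closedBall (0 : ℂ) 1) : deriv f z ≠ 0 :=
  injOn_deriv_ne_zero isOpen_ball hf.diff hf.inj (closedBall_subset_of_nice hf hz)

lemma nice_continuousOn (hf : Nice f R) : ContinuousOn f (closedBall 0 1) := fun _ hz =>
  (nice_analyticAt hf hz).continuousAt.continuousWithinAt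

lemma nice_continuousOn_deriv (hf : Nice f R) : ContinuousOn (deriv f) (closedBall 0 1) :=
  fun _ hz => (nice_analyticAt hf hz).deriv.continuousAt.continuousWithinAt

lemma nice_continuousOn_deriv2 (hf : Nice f R) :
    ContinuousOn (deriv (deriv f)) (closedBall 0 1) :=
  fun _ hz => (nice_analyticAt hf hz).deriv.deriv.continuousAt.continuousWithinAt

lemma continuous_tau : Continuous tau := by
  unfold tau
  fun_prop

lemma conj_ne_of_mem {z : ℂ} (hz : z ∈ closedBall (0 : ℂ) 1 \ {0}) : conj z ≠ 0 := by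
  have : z ≠ 0 := hz.2
  simpa using this

lemma nice_continuousOn_EE (hf : Nice f R) : ContinuousOn (EE f) (closedBall 0 1 \ {0}) := by
  have h1 := (nice_continuousOn hf).mono (sdiff_subset (t := ({0} : Set ℂ)))
  have h2 := (nice_continuousOn_deriv hf).mono (sdiff_subset (t := ({0} : Set ℂ)))
  have h3 : ContinuousOn (fun z : ℂ => (tau z : ℂ)) (closedBall 0 1 \ {0}) :=
    (continuous_ofReal.comp continuous_tau).continuousOn
  exact h1.add ((h3.mul h2).div Complex.continuous_conj.continuousOn fun z hz => conj_ne_of_mem hz)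

lemma nice_continuousOn_XX (hf : Nice f R) : ContinuousOn (XX f) (closedBall 0 1 \ {0}) := by
  have h2 := (nice_continuousOn_deriv hf).mono (sdiff_subset (t := ({0} : Set ℂ)))
  exact h2.norm.div continuous_norm.continuousOn fun z hz => norm_ne_zero_iff.mpr hz.2

lemma nice_continuousOn_Ez (hf : Nice f R) : ContinuousOn (Ez f) (closedBall 0 1 \ {0}) := by
  have h1 := (nice_continuousOn_deriv2 hf).mono (sdiff_subset (t := ({0} : Set ℂ)))
  have h2 := (nice_continuousOn_deriv hf).mono (sdiff_subset (t := ({0} : Set ℂ)))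
  have h3 : ContinuousOn (fun z : ℂ => (tau z : ℂ)) (closedBall 0 1 \ {0}) :=
    (continuous_ofReal.comp continuous_tau).continuousOn
  exact (h2.div_const 2).add
    ((h3.mul h1).div Complex.continuous_conj.continuousOn fun z hz => conj_ne_of_mem hz)

lemma nice_continuousOn_Ezb (hf : Nice f R) : ContinuousOn (Ezb f) (closedBall 0 1 \ {0}) := by
  have h2 := (nice_continuousOn_deriv hf).mono (sdiff_subset (t := ({0} : Set ℂ)))
  refine h2.neg.div (continuousOn_const.mul (Complex.continuous_conj.pow 2).continuousOn) ?_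
  intro z hz
  exact mul_ne_zero two_ne_zero (pow_ne_zero 2 (conj_ne_of_mem hz))

lemma nice_continuousOn_JJ (hf : Nice f R) : ContinuousOn (JJ f) (closedBall 0 1 \ {0}) :=
  ((nice_continuousOn_Ez hf).norm.pow 2).sub ((nice_continuousOn_Ezb hf).norm.pow 2)

end cont

end H1

open H1 in
/-- Block H1. -/
theorem blockH1 : BlockH1 := by
  refine ⟨det_wrt, fun f R hf => ⟨fun z hz => nice_deriv_ne hf hz, fun z hz => ?_,
    nice_continuousOn_EE hf, nice_continuousOn_XX hf, nice_continuousOn_JJ hf⟩⟩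
  exact sw_EE (nice_analyticAt hf (ball_subset_closedBall hz.1)) hz.2

end Vale.Agent.P142.Brn
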