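import Vale.Agent.P142.Parseval
import Vale.Agent.P142.Brn.Defs
import Vale.Agent.P142.Brn.H1

/-!
The integral identity behind the inequality (B) for Brennan's conjecture (block P).
-/

open Complex MeasureTheory Metric Set Filter Topology
open scoped Real ENNReal ComplexConjugate Nat

namespace Vale.Agent.P142.Brn.Par6

noncomputable section

/-- Parseval, real form, for a function given by a power series. -/
lemma parseval_sq {U : ℂ → ℂ} {a : ℕ → ℂ} {s : ℝ} (hs0 : 0 ≤ s) (hs1 : s < 1)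
    (hUc : ContinuousOn U (ball 0 1))
    (hU : ∀ z ∈ ball (0 : ℂ) 1, HasSum (fun n => a n * z ^ n) (U z)) :
    HasSum (fun n : ℕ => 2 * π * (‖a n‖ ^ 2 * s ^ (2 * n)))
      (∫ θ in (-π)..π, ‖U (circleMap 0 s θ)‖ ^ 2) := by
  have hP := parseval hs0 hs1 hUc hU hU
  have h := Complex.hasSum_re hP
  have e : ∀ n : ℕ, (2 * π * (a n * conj (a n) * (s : ℂ) ^ (2 * n))).re =
      2 * π * (‖a n‖ ^ 2 * s ^ (2 * n)) := by
    intro n
    have : 2 * π * (a n * conj (a n) * (s : ℂ) ^ (2 * n)) =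
        ((2 * π * (‖a n‖ ^ 2 * s ^ (2 * n)) : ℝ) : ℂ) := by
      rw [mul_conj, normSq_eq_norm_sq]
      push_cast
      ring
    rw [this, ofReal_re]
  have e2 : (∫ θ in (-π)..π, U (circleMap 0 s θ) * conj (U (circleMap 0 s θ))).re =
      ∫ θ in (-π)..π, ‖U (circleMap 0 s θ)‖ ^ 2 := by
    have e3 : ∀ θ, U (circleMap 0 s θ) * conj (U (circleMap 0 s θ)) =
        ((‖U (circleMap 0 s θ)‖ ^ 2 : ℝ) : ℂ) := by
      intro θ; rw [mul_conj, normSq_eq_norm_sq]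
    simp only [e3]
    rw [intervalIntegral.integral_ofReal, ofReal_re]
  rw [e2] at h
  rw [← funext e]
  exact h

/-- `W = |z|² G - (2/p) (1 - |z|²) z G'`. -/
def Wf (G : ℂ → ℂ) (p : ℝ) (z : ℂ) : ℂ :=
  ((‖z‖ ^ 2 : ℝ) : ℂ) * G z - ((2 / p * (1 - ‖z‖ ^ 2) : ℝ) : ℂ) * (z * deriv G z)

/-- The first density. -/
def K1 (G : ℂ → ℂ) (p : ℝ) (z : ℂ) : ℝ :=
  ‖z‖ ^ (p - 2) * (‖Wf G p z‖ ^ 2 - ‖G z‖ ^ 2) / 4

/-- The second density. -/
def K2 (G : ℂ → ℂ) (p : ℝ) (z : ℂ) : ℝ :=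
  ‖z‖ ^ p * ‖G z‖ ^ 2 * (4 * ‖z‖ ^ 2 - 2 - p)

/-- Circle averages of the difference. -/
def dd (G : ℂ → ℂ) (p : ℝ) (z : ℂ) : ℝ := K1 G p z - K2 G p z / p ^ 2

/-- The radial densities. -/
def phn (p : ℝ) (n : ℕ) (r : ℝ) : ℝ :=
  r ^ (2 * n) * (r * (r ^ (p - 2) * ((r ^ 2 - 2 * n / p * (1 - r ^ 2)) ^ 2 - 1) / 4
    - r ^ p * (4 * r ^ 2 - 2 - p) / p ^ 2))

lemma circle_sum {G : ℂ → ℂ} (hG : DifferentiableOn ℂ G (ball 0 1)) {p r : ℝ} (hr0 : 0 ≤ r)
    (hr1 : r < 1) :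
    HasSum (fun n : ℕ => 2 * π * (‖tc G n‖ ^ 2 * phn p n r))
      (r * ∫ θ in (-π)..π, dd G p (circleMap 0 r θ)) := by
  have nz : ∀ θ, ‖circleMap 0 r θ‖ = r := fun θ => by rw [norm_circleMap_zero, abs_of_nonneg hr0]
  have hG' := hG.deriv isOpen_ball
  set V : ℂ → ℂ := fun z => ((r ^ 2 : ℝ) : ℂ) * G z - ((2 / p * (1 - r ^ 2) : ℝ) : ℂ) *
    (z * deriv G z) with hV
  have hVc : ContinuousOn V (ball 0 1) :=
    (continuousOn_const.mul hG.continuousOn).sub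
      (continuousOn_const.mul (continuousOn_id.mul hG'.continuousOn))
  have hVs : ∀ z ∈ ball (0 : ℂ) 1, HasSum (fun n : ℕ =>
      (((r ^ 2 - 2 * n / p * (1 - r ^ 2) : ℝ) : ℂ) * tc G n) * z ^ n) (V z) := by
    intro z hz
    have h1 := (hasSum_tc hG hz).mul_left ((r ^ 2 : ℝ) : ℂ)
    have h2 := (hasSum_tc_mul_deriv hG hz).mul_left ((2 / p * (1 - r ^ 2) : ℝ) : ℂ)
    refine hasSum_of_eq (fun n => ?_) (h1.sub h2)
    push_cast
    ring
  have hP1 := parseval_sq hr0 hr1 hVc hVs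
  have hP2 := parseval_sq hr0 hr1 hG.continuousOn (fun z hz => hasSum_tc hG hz)
  have hcm : Continuous (fun θ : ℝ => circleMap 0 r θ) := continuous_circleMap 0 r
  have hmem := fun θ : ℝ => circleMap_mem_unit hr0 hr1 θ
  have hVi : IntervalIntegrable (fun θ : ℝ => ‖V (circleMap 0 r θ)‖ ^ 2) volume (-π) π :=
    ((hVc.comp_continuous hcm hmem).norm.pow 2).intervalIntegrable _ _
  have hGi : IntervalIntegrable (fun θ : ℝ => ‖G (circleMap 0 r θ)‖ ^ 2) volume (-π) π :=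
    ((hG.continuousOn.comp_continuous hcm hmem).norm.pow 2).intervalIntegrable _ _
  have e1 : (∫ θ in (-π)..π, dd G p (circleMap 0 r θ)) =
      r ^ (p - 2) / 4 * (∫ θ in (-π)..π, ‖V (circleMap 0 r θ)‖ ^ 2) -
      (r ^ (p - 2) / 4 + r ^ p * (4 * r ^ 2 - 2 - p) / p ^ 2) *
        ∫ θ in (-π)..π, ‖G (circleMap 0 r θ)‖ ^ 2 := by
    rw [← intervalIntegral.integral_const_mul, ← intervalIntegral.integral_const_mul,
      ← intervalIntegral.integral_sub (hVi.const_mul _) (hGi.const_mul _)]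
    congr 1
    ext θ
    simp only [dd, K1, K2, Wf, nz, hV]
    ring
  rw [e1, mul_sub, ← mul_assoc, ← mul_assoc]
  have h := (hP1.mul_left (r * (r ^ (p - 2) / 4))).sub
    (hP2.mul_left (r * (r ^ (p - 2) / 4 + r ^ p * (4 * r ^ 2 - 2 - p) / p ^ 2)))
  have ef : (fun n : ℕ => 2 * π * (‖tc G n‖ ^ 2 * phn p n r)) = fun n : ℕ =>
      r * (r ^ (p - 2) / 4) * (2 * π *
        (‖((r ^ 2 - 2 * n / p * (1 - r ^ 2) : ℝ) : ℂ) * tc G n‖ ^ 2 * r ^ (2 * n))) -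
      r * (r ^ (p - 2) / 4 + r ^ p * (4 * r ^ 2 - 2 - p) / p ^ 2) *
        (2 * π * (‖tc G n‖ ^ 2 * r ^ (2 * n))) := by
    ext n
    rw [norm_mul, Complex.norm_real, mul_pow, Real.norm_eq_abs, sq_abs, phn]
    ring
  rw [ef]
  exact h

/-- Primitive of `phn`. -/
def Phn (p : ℝ) (n : ℕ) (r : ℝ) : ℝ :=
  1 / (2 * p ^ 2) * (r ^ (2 * n) * r ^ p *
    ((n + p / 2 - p) + (2 + p - 2 * (n + p / 2)) * r ^ 2 + (n + p / 2 - 2) * r ^ 4))

lemma hasDerivAt_Phn {p : ℝ} (hp : 0 < p) (n : ℕ) {r : ℝ} (hr : 0 < r) :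
    HasDerivAt (Phn p n) (phn p n r) r := by
  have h1 : HasDerivAt (fun r : ℝ => r ^ (2 * n)) ((2 * n : ℕ) * r ^ (2 * n - 1)) r := by
    simpa using hasDerivAt_pow (2 * n) r
  have h2 : HasDerivAt (fun r : ℝ => r ^ p) (p * r ^ (p - 1)) r :=
    Real.hasDerivAt_rpow_const (Or.inl hr.ne')
  have h3 : HasDerivAt (fun r : ℝ => ((n : ℝ) + p / 2 - p) +
      (2 + p - 2 * (n + p / 2)) * r ^ 2 + (n + p / 2 - 2) * r ^ 4)
      ((2 + p - 2 * (n + p / 2)) * (2 * r) + (n + p / 2 - 2) * (4 * r ^ 3)) r := by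
    have a := ((hasDerivAt_pow 2 r).const_mul ((2 : ℝ) + p - 2 * (n + p / 2)))
    have b := ((hasDerivAt_pow 4 r).const_mul ((n : ℝ) + p / 2 - 2))
    have c := (a.const_add ((n : ℝ) + p / 2 - p)).add b
    refine c.congr_deriv ?_
    norm_num
  have h := ((h1.fun_mul h2).fun_mul h3).const_mul (1 / (2 * p ^ 2))
  refine (h.congr_deriv ?_ : HasDerivAt (Phn p n) (phn p n r) r)
  have hr2 : r ^ p = r ^ (p - 2) * r ^ 2 := by
    rw [← Real.rpow_natCast r 2, ← Real.rpow_add hr]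
    norm_num
  have hr1 : r ^ (p - 1) = r ^ (p - 2) * r := by
    rw [← Real.rpow_add_one hr.ne']
    congr 1
    ring
  simp only [phn]
  rw [hr2, hr1]
  rcases Nat.eq_zero_or_pos n with rfl | hn
  · simp only [Nat.mul_zero, pow_zero, Nat.cast_zero]
    field_simp
    ring
  · obtain ⟨k, rfl⟩ : ∃ k, n = k + 1 := ⟨n - 1, by omega⟩
    have e1 : 2 * (k + 1) - 1 = 2 * k + 1 := by omega
    have e2 : 2 * (k + 1) = 2 * k + 2 := by ring
    rw [e1, e2]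
    push_cast
    field_simp
    ring

lemma rpow_intOn {p : ℝ} (hp : 0 < p) : IntegrableOn (fun r : ℝ => r ^ (p - 1)) (Ioo 0 1) := by
  have h := (intervalIntegral.intervalIntegrable_rpow' (a := 0) (b := 1) (r := p - 1)
    (by linarith))
  rw [intervalIntegrable_iff_integrableOn_Ioo_of_le zero_le_one] at h
  exact h

/-- A constant for `phn_bound`. -/
def Mp (p : ℝ) : ℝ := ((1 + 2 / p) ^ 2 + 1) / 4 + (6 + p) / p ^ 2

lemma Mp_nonneg {p : ℝ} (hp : 0 < p) : 0 ≤ Mp p := by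
  unfold Mp; positivity

lemma phn_bound {p : ℝ} (hp : 0 < p) (n : ℕ) {r : ℝ} (h0 : 0 < r) (h1 : r < 1) :
    |phn p n r| ≤ Mp p * ((n : ℝ) + 1) ^ 2 * r ^ (p - 1) := by
  have e1 : r * r ^ (p - 2) = r ^ (p - 1) := by
    rw [mul_comm, ← Real.rpow_add_one h0.ne']; congr 1; ring
  have e2 : r * r ^ p = r ^ (p - 1) * r ^ 2 := by
    rw [mul_comm, ← Real.rpow_add_one h0.ne', ← Real.rpow_natCast r 2, ← Real.rpow_add h0]
    congr 1; push_cast; ring
  have hn : (0 : ℝ) ≤ n := Nat.cast_nonneg n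
  have hr2 : r ^ 2 ≤ 1 := by nlinarith
  have hr20 : 0 ≤ r ^ 2 := sq_nonneg r
  set c : ℝ := 2 * n / p with hc
  have hc0 : 0 ≤ c := by positivity
  have e : phn p n r = r ^ (2 * n) * (r ^ (p - 1) *
      (((r ^ 2 - c * (1 - r ^ 2)) ^ 2 - 1) / 4 - r ^ 2 * (4 * r ^ 2 - 2 - p) / p ^ 2)) := by
    unfold phn
    rw [show r * (r ^ (p - 2) * ((r ^ 2 - 2 * n / p * (1 - r ^ 2)) ^ 2 - 1) / 4 -
      r ^ p * (4 * r ^ 2 - 2 - p) / p ^ 2) = (r * r ^ (p - 2)) *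
      (((r ^ 2 - 2 * n / p * (1 - r ^ 2)) ^ 2 - 1) / 4) -
      (r * r ^ p) * ((4 * r ^ 2 - 2 - p) / p ^ 2) by ring, e1, e2]
    ring
  have hpos : 0 ≤ r ^ (p - 1) := Real.rpow_nonneg h0.le _
  have hrn : r ^ (2 * n) ≤ 1 := pow_le_one₀ h0.le h1.le
  have hrn0 : 0 ≤ r ^ (2 * n) := pow_nonneg h0.le _
  have hcr : 0 ≤ c * (1 - r ^ 2) := mul_nonneg hc0 (sub_nonneg.mpr hr2)
  have hcr2 : 0 ≤ c * r ^ 2 := mul_nonneg hc0 hr20
  have hA : |(r ^ 2 - c * (1 - r ^ 2))| ≤ 1 + c := by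
    rw [abs_le]
    constructor <;> linarith
  have hA2 : (r ^ 2 - c * (1 - r ^ 2)) ^ 2 ≤ (1 + c) ^ 2 := by
    rw [← sq_abs]
    exact pow_le_pow_left₀ (abs_nonneg _) hA 2
  have hc1 : 1 + c ≤ (1 + 2 / p) * (n + 1) := by
    have : c = 2 / p * n := by rw [hc]; ring
    have h2p : 0 < 2 / p := by positivity
    rw [this, add_mul, one_mul, mul_add, mul_one]
    linarith
  have hc2 : (1 + c) ^ 2 ≤ (1 + 2 / p) ^ 2 * (n + 1) ^ 2 := by
    rw [← mul_pow]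
    exact pow_le_pow_left₀ (by positivity) hc1 2
  have hn1 : (1 : ℝ) ≤ (n + 1) ^ 2 := by nlinarith
  have hT : 0 ≤ (1 + 2 / p) ^ 2 * ((n : ℝ) + 1) ^ 2 := by positivity
  have hS : 0 ≤ (r ^ 2 - c * (1 - r ^ 2)) ^ 2 := sq_nonneg _
  have hB : |(r ^ 2 - c * (1 - r ^ 2)) ^ 2 - 1| ≤ ((1 + 2 / p) ^ 2 + 1) * (n + 1) ^ 2 := by
    rw [abs_le, add_mul, one_mul]
    constructor <;> linarith
  have hC : |r ^ 2 * (4 * r ^ 2 - 2 - p)| ≤ (6 + p) * (n + 1) ^ 2 := by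
    rw [abs_mul, abs_of_nonneg hr20]
    have h3 : |4 * r ^ 2 - 2 - p| ≤ 6 + p := by
      rw [abs_le]
      constructor <;> linarith
    have h6 := mul_le_mul_of_nonneg_left hn1 (show (0 : ℝ) ≤ 6 + p by linarith)
    calc r ^ 2 * |4 * r ^ 2 - 2 - p| ≤ 1 * (6 + p) := by gcongr
      _ ≤ (6 + p) * (n + 1) ^ 2 := by linarith
  rw [e, abs_mul, abs_mul, abs_of_nonneg hrn0, abs_of_nonneg hpos]
  have hD : |((r ^ 2 - c * (1 - r ^ 2)) ^ 2 - 1) / 4 - r ^ 2 * (4 * r ^ 2 - 2 - p) / p ^ 2| ≤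
      Mp p * (n + 1) ^ 2 := by
    refine (abs_sub _ _).trans ?_
    rw [abs_div, abs_div, abs_of_pos (show (0 : ℝ) < 4 by norm_num),
      abs_of_pos (show 0 < p ^ 2 by positivity)]
    have h4 : |(r ^ 2 - c * (1 - r ^ 2)) ^ 2 - 1| / 4 ≤
        ((1 + 2 / p) ^ 2 + 1) * (n + 1) ^ 2 / 4 := by gcongr
    have h5 : |r ^ 2 * (4 * r ^ 2 - 2 - p)| / p ^ 2 ≤ (6 + p) * (n + 1) ^ 2 / p ^ 2 := by
      gcongr
    calc _ ≤ ((1 + 2 / p) ^ 2 + 1) * (n + 1) ^ 2 / 4 + (6 + p) * (n + 1) ^ 2 / p ^ 2 :=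
          add_le_add h4 h5
      _ = Mp p * (n + 1) ^ 2 := by unfold Mp; ring
  calc _ ≤ 1 * (r ^ (p - 1) * (Mp p * (n + 1) ^ 2)) := by
        gcongr
    _ = _ := by ring

lemma measurable_phn (p : ℝ) (n : ℕ) : Measurable (phn p n) := by
  unfold phn
  fun_prop

lemma phn_intOn {p : ℝ} (hp : 0 < p) (n : ℕ) : IntegrableOn (phn p n) (Ioo 0 1) := by
  refine Integrable.mono' ((rpow_intOn hp).const_mul (Mp p * ((n : ℝ) + 1) ^ 2))
    (measurable_phn p n).aestronglyMeasurable ?_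
  refine (ae_restrict_iff' measurableSet_Ioo).mpr (Eventually.of_forall fun r hr => ?_)
  rw [Real.norm_eq_abs]
  exact phn_bound hp n hr.1 hr.2

lemma phn_integral {p : ℝ} (hp : 0 < p) (n : ℕ) : ∫ r in Ioo (0 : ℝ) 1, phn p n r = 0 := by
  rw [← integral_Ioc_eq_integral_Ioo, ← intervalIntegral.integral_of_le zero_le_one]
  rw [intervalIntegral.integral_eq_sub_of_hasDerivAt_of_le zero_le_one (f := Phn p n)]
  · simp [Phn, Real.zero_rpow hp.ne']
    right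
    ring
  · have : Continuous (Phn p n) := by
      unfold Phn
      have h : Continuous (fun r : ℝ => r ^ p) := Real.continuous_rpow_const hp.le
      fun_prop
    exact this.continuousOn
  · intro x hx
    exact hasDerivAt_Phn hp n hx.1
  · rw [intervalIntegrable_iff_integrableOn_Ioo_of_le zero_le_one]
    exact phn_intOn hp n

lemma hasSum_tcR {U : ℂ → ℂ} {R : ℝ} (hU : DifferentiableOn ℂ U (ball 0 R)) {z : ℂ}
    (hz : z ∈ ball (0 : ℂ) R) : HasSum (fun n => tc U n * z ^ n) (U z) := by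
  refine hasSum_of_eq (fun n => ?_) (Complex.hasSum_taylorSeries_on_ball hU hz)
  simp only [tc, smul_eq_mul, sub_zero]
  ring

lemma summ_coef {G : ℂ → ℂ} {R : ℝ} (hR : 1 < R) (hG : DifferentiableOn ℂ G (ball 0 R)) :
    Summable (fun n : ℕ => ‖tc G n‖ ^ 2 * ((n : ℝ) + 1) ^ 2) := by
  obtain ⟨ρ, hρ1, hρR⟩ := exists_between hR
  have hρ0 : 0 < ρ := by linarith
  have hz : (ρ : ℂ) ∈ ball (0 : ℂ) R := by
    rw [mem_ball_zero_iff, Complex.norm_real, Real.norm_eq_abs, abs_of_pos hρ0]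
    exact hρR
  have h1 := (hasSum_tcR hG hz).summable.norm
  have h2 : Tendsto (fun n : ℕ => ‖tc G n * (ρ : ℂ) ^ n‖) atTop (𝓝 0) := h1.tendsto_atTop_zero
  obtain ⟨C, hC⟩ := h2.bddAbove_range
  have hC' : ∀ n : ℕ, ‖tc G n‖ * ρ ^ n ≤ C := by
    intro n
    have := hC (mem_range_self n)
    rwa [norm_mul, norm_pow, Complex.norm_real, Real.norm_eq_abs, abs_of_pos hρ0] at this
  set x : ℝ := (ρ⁻¹) ^ 2 with hx
  have hρi : ρ⁻¹ < 1 := inv_lt_one_of_one_lt₀ hρ1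
  have hx1 : ‖x‖ < 1 := by
    rw [hx, norm_pow, Real.norm_eq_abs, abs_of_pos (inv_pos.mpr hρ0)]
    exact pow_lt_one₀ (inv_pos.mpr hρ0).le hρi two_ne_zero
  have s2 := summable_pow_mul_geometric_of_norm_lt_one 2 hx1
  have s1 := summable_pow_mul_geometric_of_norm_lt_one 1 hx1
  have s0 := summable_pow_mul_geometric_of_norm_lt_one 0 hx1
  have s3 : Summable (fun n : ℕ => C ^ 2 * (((n : ℝ) ^ 2 * x ^ n) + 2 * ((n : ℝ) ^ 1 * x ^ n) +
      ((n : ℝ) ^ 0 * x ^ n))) := ((s2.add (s1.mul_left 2)).add s0).mul_left _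
  refine Summable.of_nonneg_of_le (fun n => by positivity) (fun n => ?_) s3
  have hpos : 0 < ρ ^ n := by positivity
  have h3 : ‖tc G n‖ ≤ C * (ρ⁻¹) ^ n := by
    rw [inv_pow, ← div_eq_mul_inv, le_div_iff₀ hpos]
    exact hC' n
  have h4 : ‖tc G n‖ ^ 2 ≤ (C * (ρ⁻¹) ^ n) ^ 2 := pow_le_pow_left₀ (norm_nonneg _) h3 2
  calc ‖tc G n‖ ^ 2 * ((n : ℝ) + 1) ^ 2 ≤ (C * (ρ⁻¹) ^ n) ^ 2 * ((n : ℝ) + 1) ^ 2 := by gcongr
    _ = C ^ 2 * (((n : ℝ) ^ 2 * x ^ n) + 2 * ((n : ℝ) ^ 1 * x ^ n) + ((n : ℝ) ^ 0 * x ^ n)) := by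
        rw [hx, mul_pow, ← pow_mul, ← pow_mul, mul_comm 2 n]
        ring

lemma radial_zero {G : ℂ → ℂ} {R : ℝ} (hR : 1 < R) (hG : DifferentiableOn ℂ G (ball 0 R))
    {p : ℝ} (hp : 0 < p) :
    ∫ r in Ioo (0 : ℝ) 1, (r * ∫ θ in (-π)..π, dd G p (circleMap 0 r θ)) = 0 := by
  have hG1 : DifferentiableOn ℂ G (ball 0 1) := hG.mono (ball_subset_ball hR.le)
  have hint : ∀ n : ℕ, Integrable (fun r => 2 * π * (‖tc G n‖ ^ 2 * phn p n r))
      (volume.restrict (Ioo (0 : ℝ) 1)) := fun n =>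
    ((phn_intOn hp n).const_mul (‖tc G n‖ ^ 2)).const_mul (2 * π)
  have hb := rpow_intOn hp
  have hsum : Summable (fun n : ℕ => ∫ r in Ioo (0 : ℝ) 1,
      ‖2 * π * (‖tc G n‖ ^ 2 * phn p n r)‖) := by
    have s := (summ_coef hR hG).mul_left (2 * π * Mp p * ∫ r in Ioo (0 : ℝ) 1, r ^ (p - 1))
    refine Summable.of_nonneg_of_le (fun n => integral_nonneg fun r => norm_nonneg _)
      (fun n => ?_) s
    have e : 2 * π * Mp p * (∫ r in Ioo (0 : ℝ) 1, r ^ (p - 1)) *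
        (‖tc G n‖ ^ 2 * ((n : ℝ) + 1) ^ 2) = ∫ r in Ioo (0 : ℝ) 1,
        (2 * π * Mp p * (‖tc G n‖ ^ 2 * ((n : ℝ) + 1) ^ 2)) * r ^ (p - 1) := by
      rw [MeasureTheory.integral_const_mul]
      ring
    rw [e]
    refine setIntegral_mono_on (hint n).norm (hb.const_mul _) measurableSet_Ioo fun r hr => ?_
    have h := phn_bound hp n hr.1 hr.2
    have hc : 0 ≤ 2 * π * ‖tc G n‖ ^ 2 := by positivity
    calc ‖2 * π * (‖tc G n‖ ^ 2 * phn p n r)‖ = 2 * π * ‖tc G n‖ ^ 2 * |phn p n r| := by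
          rw [← mul_assoc, norm_mul, Real.norm_of_nonneg hc, Real.norm_eq_abs]
      _ ≤ 2 * π * ‖tc G n‖ ^ 2 * (Mp p * ((n : ℝ) + 1) ^ 2 * r ^ (p - 1)) :=
          mul_le_mul_of_nonneg_left h hc
      _ = _ := by ring
  have h := hasSum_integral_of_summable_integral_norm hint hsum
  have h0 : ∀ n : ℕ, ∫ r in Ioo (0 : ℝ) 1, 2 * π * (‖tc G n‖ ^ 2 * phn p n r) = 0 := by
    intro n
    rw [MeasureTheory.integral_const_mul, MeasureTheory.integral_const_mul, phn_integral hp n]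
    ring
  simp only [h0] at h
  have h2 := h.unique hasSum_zero
  refine Eq.trans ?_ h2
  refine setIntegral_congr_fun measurableSet_Ioo fun r hr => ?_
  exact (circle_sum hG1 hr.1.le hr.2).tsum_eq.symm

lemma polar_ball (F : ℂ → ℝ) : ∫ z in ball (0 : ℂ) 1, F z =
    ∫ q in Ioo (0 : ℝ) 1 ×ˢ Ioo (-π) π, q.1 * F (circleMap 0 q.1 q.2) := by
  rw [← integral_indicator measurableSet_ball, ← Complex.integral_comp_polarCoord_symm]
  have e2 : polarCoord.target = Ioi (0 : ℝ) ×ˢ Ioo (-π) π := rfl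
  rw [e2]
  have hsub : Ioo (0 : ℝ) 1 ×ˢ Ioo (-π) π ⊆ Ioi (0 : ℝ) ×ˢ Ioo (-π) π :=
    prod_mono (fun x hx => hx.1) (subset_refl _)
  have hm : MeasurableSet (Ioo (0 : ℝ) 1 ×ˢ Ioo (-π) π) := measurableSet_Ioo.prod measurableSet_Ioo
  rw [← inter_eq_right.mpr hsub, ← setIntegral_indicator hm]
  refine setIntegral_congr_fun (measurableSet_Ioi.prod measurableSet_Ioo) fun q hq => ?_
  have hq1 : 0 < q.1 := hq.1
  have e3 : Complex.polarCoord.symm q = circleMap 0 q.1 q.2 := by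
    rw [Complex.polarCoord_symm_apply, circleMap_zero, Complex.exp_mul_I]
    push_cast
    ring
  simp only [smul_eq_mul]
  rw [e3]
  by_cases h : q.1 < 1
  · rw [indicator_of_mem (circleMap_mem_unit hq1.le h _), indicator_of_mem]
    exact ⟨⟨hq1, h⟩, hq.2⟩
  · rw [indicator_of_notMem, indicator_of_notMem, mul_zero]
    · intro h2
      exact h h2.1.2
    · intro h2
      rw [mem_ball_zero_iff, norm_circleMap_zero, abs_of_pos hq1] at h2
      exact h h2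

lemma polar_iterated {F : ℂ → ℝ} (hc : ContinuousOn F (ball 0 1 \ {0})) {a C1 C2 : ℝ}
    (ha : 0 < a) (hb : ∀ z ∈ ball (0 : ℂ) 1 \ {0}, |F z| ≤ C1 * ‖z‖ ^ (a - 2) + C2) :
    IntegrableOn F (ball 0 1) ∧
    ∫ z in ball (0 : ℂ) 1, F z = ∫ r in Ioo (0 : ℝ) 1, (r * ∫ θ in (-π)..π, F (circleMap 0 r θ))
    := by
  have hpi : (-π) ≤ π := by linarith [Real.pi_pos]
  have hm : MeasurableSet (Ioo (0 : ℝ) 1 ×ˢ Ioo (-π) π) := measurableSet_Ioo.prod measurableSet_Ioo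
  have hr := rpow_intOn ha
  have hrad : IntegrableOn (fun r : ℝ => C1 * r ^ (a - 1) + C2) (Ioo 0 1) := by
    refine (hr.const_mul C1).add ?_
    exact integrableOn_const (by simp)
  constructor
  · have hae : (ball (0 : ℂ) 1 \ {0} : Set ℂ) =ᵐ[volume] ball (0 : ℂ) 1 :=
      sdiff_null_ae_eq_self (by simp)
    rw [← integrableOn_congr_set_ae hae]
    have h1 : IntegrableOn (fun z : ℂ => C1 * ‖z‖ ^ (a - 2) + C2) (ball 0 1) := by
      have := (integrableOn_fun_norm_addHaar (E := ℂ) volume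
        (f := fun y : ℝ => C1 * y ^ (a - 2) + C2) (r := 1)).mpr ?_
      · exact this
      · rw [Complex.finrank_real_complex]
        have h2 : IntegrableOn (fun r : ℝ => C1 * r ^ (a - 1) + C2 * r) (Ioo 0 1) := by
          refine (hr.const_mul C1).add ?_
          have : IntervalIntegrable (fun r : ℝ => C2 * r) volume 0 1 :=
            (by fun_prop : Continuous (fun r : ℝ => C2 * r)).intervalIntegrable _ _
          rwa [intervalIntegrable_iff_integrableOn_Ioo_of_le zero_le_one] at this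
        refine (integrableOn_congr_fun (fun r hr => ?_) measurableSet_Ioo).mp h2
        have hr0 : (0 : ℝ) < r := hr.1
        have e : r ^ (a - 1) = r ^ (a - 2) * r := by
          rw [← Real.rpow_add_one hr0.ne']; congr 1; ring
        simp only [smul_eq_mul, e]
        norm_num
        ring
    refine Integrable.mono' (h1.mono_set sdiff_subset)
      (hc.aestronglyMeasurable (measurableSet_ball.diff (measurableSet_singleton 0))) ?_
    exact (ae_restrict_iff' (measurableSet_ball.diff (measurableSet_singleton 0))).mpr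
      (Eventually.of_forall fun z hz => hb z hz)
  · rw [polar_ball]
    have hmem : ∀ q ∈ Ioo (0 : ℝ) 1 ×ˢ Ioo (-π) π, circleMap 0 q.1 q.2 ∈ ball (0 : ℂ) 1 \ {0} := by
      intro q hq
      refine ⟨circleMap_mem_unit hq.1.1.le hq.1.2 _, ?_⟩
      rw [mem_singleton_iff, ← norm_eq_zero, norm_circleMap_zero, abs_of_pos hq.1.1]
      exact hq.1.1.ne'
    have hcc : Continuous (fun q : ℝ × ℝ => circleMap 0 q.1 q.2) := by
      unfold circleMap
      fun_prop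
    have hcont : ContinuousOn (fun q : ℝ × ℝ => q.1 * F (circleMap 0 q.1 q.2))
        (Ioo (0 : ℝ) 1 ×ˢ Ioo (-π) π) :=
      continuous_fst.continuousOn.mul (hc.comp hcc.continuousOn hmem)
    have hint : IntegrableOn (fun q : ℝ × ℝ => q.1 * F (circleMap 0 q.1 q.2))
        (Ioo (0 : ℝ) 1 ×ˢ Ioo (-π) π) (volume.prod volume) := by
      have hdom : IntegrableOn (fun q : ℝ × ℝ => (|C1| * q.1 ^ (a - 1) + |C2|) * 1)
          (Ioo (0 : ℝ) 1 ×ˢ Ioo (-π) π) (volume.prod volume) := by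
        rw [IntegrableOn, ← Measure.prod_restrict]
        have h1 : Integrable (fun r : ℝ => |C1| * r ^ (a - 1) + |C2|)
            (volume.restrict (Ioo (0 : ℝ) 1)) := by
          refine (hr.const_mul |C1|).add ?_
          exact integrableOn_const (by simp)
        have h2 : Integrable (fun _ : ℝ => (1 : ℝ)) (volume.restrict (Ioo (-π) π)) :=
          integrableOn_const (by simp)
        exact h1.mul_prod h2
      refine Integrable.mono' hdom ?_ ?_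
      · exact hcont.aestronglyMeasurable hm
      · refine (ae_restrict_iff' hm).mpr (Eventually.of_forall fun q hq => ?_)
        have hq0 : (0 : ℝ) < q.1 := hq.1.1
        have h := hb _ (hmem q hq)
        rw [norm_circleMap_zero, abs_of_pos hq0] at h
        have e : q.1 ^ (a - 1) = q.1 ^ (a - 2) * q.1 := by
          rw [← Real.rpow_add_one hq0.ne']; congr 1; ring
        have hpos : 0 ≤ q.1 ^ (a - 2) := Real.rpow_nonneg hq0.le _
        rw [Real.norm_eq_abs, abs_mul, abs_of_pos hq0, mul_one, e]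
        calc q.1 * |F (circleMap 0 q.1 q.2)| ≤ q.1 * (C1 * q.1 ^ (a - 2) + C2) := by gcongr
          _ ≤ q.1 * (|C1| * q.1 ^ (a - 2) + |C2|) := by
              gcongr <;> exact le_abs_self _
          _ = |C1| * (q.1 ^ (a - 2) * q.1) + |C2| * q.1 := by ring
          _ ≤ |C1| * (q.1 ^ (a - 2) * q.1) + |C2| * 1 := by
              gcongr
              exact hq.1.2.le
          _ = _ := by ring
    rw [Measure.volume_eq_prod, setIntegral_prod _ hint]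
    refine setIntegral_congr_fun measurableSet_Ioo fun r _ => ?_
    simp only
    rw [intervalIntegral.integral_of_le hpi, integral_Ioc_eq_integral_Ioo,
      MeasureTheory.integral_const_mul]

lemma cont_K1 {G : ℂ → ℂ} (hG : DifferentiableOn ℂ G (ball 0 1)) (p : ℝ) :
    ContinuousOn (K1 G p) (ball 0 1 \ {0}) := by
  have h1 : ContinuousOn G (ball 0 1 \ {0}) := hG.continuousOn.mono sdiff_subset
  have h2 : ContinuousOn (deriv G) (ball 0 1 \ {0}) :=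
    (hG.deriv isOpen_ball).continuousOn.mono sdiff_subset
  have h3 : ContinuousOn (fun z : ℂ => ‖z‖ ^ (p - 2)) (ball 0 1 \ {0}) :=
    continuous_norm.continuousOn.rpow_const fun z hz => Or.inl (norm_ne_zero_iff.mpr hz.2)
  have h4 : ContinuousOn (Wf G p) (ball 0 1 \ {0}) := by
    refine ContinuousOn.sub (ContinuousOn.mul ?_ h1) (ContinuousOn.mul ?_
      (continuousOn_id.mul h2))
    · exact (by fun_prop : Continuous (fun z : ℂ => ((‖z‖ ^ 2 : ℝ) : ℂ))).continuousOn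
    · exact (by fun_prop :
        Continuous (fun z : ℂ => ((2 / p * (1 - ‖z‖ ^ 2) : ℝ) : ℂ))).continuousOn
  exact (h3.mul ((h4.norm.pow 2).sub (h1.norm.pow 2))).div_const 4

lemma cont_K2 {G : ℂ → ℂ} (hG : DifferentiableOn ℂ G (ball 0 1)) (p : ℝ) :
    ContinuousOn (K2 G p) (ball 0 1 \ {0}) := by
  have h1 : ContinuousOn G (ball 0 1 \ {0}) := hG.continuousOn.mono sdiff_subset
  have h3 : ContinuousOn (fun z : ℂ => ‖z‖ ^ p) (ball 0 1 \ {0}) :=
    continuous_norm.continuousOn.rpow_const fun z hz => Or.inl (norm_ne_zero_iff.mpr hz.2)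
  have h4 : Continuous (fun z : ℂ => 4 * ‖z‖ ^ 2 - 2 - p) := by fun_prop
  exact (h3.mul (h1.norm.pow 2)).mul h4.continuousOn

lemma bounds {G : ℂ → ℂ} {R : ℝ} (hR : 1 < R) (hG : DifferentiableOn ℂ G (ball 0 R))
    {p : ℝ} (hp : 0 < p) : ∃ A B : ℝ, 0 ≤ A ∧ 0 ≤ B ∧
      (∀ z ∈ ball (0 : ℂ) 1 \ {0}, |K1 G p z| ≤ A * ‖z‖ ^ (p - 2)) ∧
      (∀ z ∈ ball (0 : ℂ) 1 \ {0}, |K2 G p z| ≤ B) := by
  have hsub : closedBall (0 : ℂ) 1 ⊆ ball 0 R := closedBall_subset_ball hR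
  obtain ⟨M1, hM1⟩ := (isCompact_closedBall (0 : ℂ) 1).exists_bound_of_continuousOn
    (hG.continuousOn.mono hsub)
  obtain ⟨M2, hM2⟩ := (isCompact_closedBall (0 : ℂ) 1).exists_bound_of_continuousOn
    ((hG.deriv isOpen_ball).continuousOn.mono hsub)
  have h0 : (0 : ℂ) ∈ closedBall (0 : ℂ) 1 := mem_closedBall_self zero_le_one
  have hM10 : 0 ≤ M1 := (norm_nonneg _).trans (hM1 0 h0)
  have hM20 : 0 ≤ M2 := (norm_nonneg _).trans (hM2 0 h0)
  refine ⟨((M1 + 2 / p * M2) ^ 2 + M1 ^ 2) / 4, M1 ^ 2 * (6 + p), by positivity, by positivity,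
    ?_, ?_⟩
  · intro z hz
    have hz1 : ‖z‖ < 1 := by simpa using hz.1
    have hz0 : 0 < ‖z‖ := norm_pos_iff.mpr hz.2
    have hzc : z ∈ closedBall (0 : ℂ) 1 := ball_subset_closedBall hz.1
    have a1 := hM1 z hzc
    have a2 := hM2 z hzc
    have hz2 : ‖z‖ ^ 2 ≤ 1 := pow_le_one₀ hz0.le hz1.le
    have hW : ‖Wf G p z‖ ≤ M1 + 2 / p * M2 := by
      unfold Wf
      refine (norm_sub_le _ _).trans ?_
      rw [norm_mul, norm_mul, norm_mul, Complex.norm_real, Complex.norm_real,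
        Real.norm_of_nonneg (by positivity),
        Real.norm_of_nonneg (mul_nonneg (by positivity) (by linarith))]
      have b1 : ‖z‖ ^ 2 * ‖G z‖ ≤ 1 * M1 := by gcongr
      have b2 : 2 / p * (1 - ‖z‖ ^ 2) * (‖z‖ * ‖deriv G z‖) ≤ 2 / p * 1 * (1 * M2) := by
        have : 1 - ‖z‖ ^ 2 ≤ 1 := by linarith [sq_nonneg ‖z‖]
        have h3 : 0 ≤ 1 - ‖z‖ ^ 2 := by linarith
        gcongr
      linarith
    have hW2 : ‖Wf G p z‖ ^ 2 ≤ (M1 + 2 / p * M2) ^ 2 := pow_le_pow_left₀ (norm_nonneg _) hW 2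
    have hG2 : ‖G z‖ ^ 2 ≤ M1 ^ 2 := pow_le_pow_left₀ (norm_nonneg _) a1 2
    have hpos : 0 ≤ ‖z‖ ^ (p - 2) := Real.rpow_nonneg hz0.le _
    unfold K1
    rw [mul_div_assoc, abs_mul, abs_of_nonneg hpos, mul_comm]
    refine mul_le_mul_of_nonneg_right ?_ hpos
    rw [abs_le]
    constructor <;> linarith [sq_nonneg ‖G z‖, sq_nonneg ‖Wf G p z‖,
      sq_nonneg (M1 + 2 / p * M2), sq_nonneg M1]
  · intro z hz
    have hz1 : ‖z‖ < 1 := by simpa using hz.1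
    have hz0 : 0 < ‖z‖ := norm_pos_iff.mpr hz.2
    have hzc : z ∈ closedBall (0 : ℂ) 1 := ball_subset_closedBall hz.1
    have a1 := hM1 z hzc
    have hz2 : ‖z‖ ^ 2 ≤ 1 := pow_le_one₀ hz0.le hz1.le
    have hG2 : ‖G z‖ ^ 2 ≤ M1 ^ 2 := pow_le_pow_left₀ (norm_nonneg _) a1 2
    have hzp : ‖z‖ ^ p ≤ 1 := Real.rpow_le_one hz0.le hz1.le hp.le
    have hzp0 : 0 ≤ ‖z‖ ^ p := Real.rpow_nonneg hz0.le _
    have hq : |4 * ‖z‖ ^ 2 - 2 - p| ≤ 6 + p := by
      rw [abs_le]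
      constructor <;> linarith [sq_nonneg ‖z‖]
    unfold K2
    rw [abs_mul, abs_of_nonneg (by positivity)]
    calc ‖z‖ ^ p * ‖G z‖ ^ 2 * |4 * ‖z‖ ^ 2 - 2 - p| ≤ 1 * M1 ^ 2 * (6 + p) := by gcongr
      _ = _ := by ring

theorem core {G : ℂ → ℂ} {R : ℝ} (hR : 1 < R) (hG : DifferentiableOn ℂ G (ball 0 R))
    {p : ℝ} (hp : 0 < p) :
    IntegrableOn (K1 G p) (ball 0 1) ∧ IntegrableOn (K2 G p) (ball 0 1) ∧
    ∫ z in ball (0 : ℂ) 1, K1 G p z = (1 / p ^ 2) * ∫ z in ball (0 : ℂ) 1, K2 G p z := by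
  have hG1 : DifferentiableOn ℂ G (ball 0 1) := hG.mono (ball_subset_ball hR.le)
  obtain ⟨A, B, hA, hB, h1, h2⟩ := bounds hR hG hp
  have c1 := cont_K1 hG1 p
  have c2 := cont_K2 hG1 p
  have i1 := (polar_iterated c1 hp (C1 := A) (C2 := 0) (fun z hz => by simpa using h1 z hz)).1
  have i2 := (polar_iterated c2 hp (C1 := 0) (C2 := B) (fun z hz => by simpa using h2 z hz)).1
  have cd : ContinuousOn (dd G p) (ball 0 1 \ {0}) := c1.sub (c2.div_const _)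
  have hd := (polar_iterated cd hp (C1 := A) (C2 := B / p ^ 2) (fun z hz => by
    unfold dd
    refine (abs_sub _ _).trans ?_
    rw [abs_div, abs_of_pos (show 0 < p ^ 2 by positivity)]
    have := h1 z hz
    have h3 := h2 z hz
    gcongr)).2
  rw [radial_zero hR hG hp] at hd
  have e : ∫ z in ball (0 : ℂ) 1, dd G p z =
      (∫ z in ball (0 : ℂ) 1, K1 G p z) - (∫ z in ball (0 : ℂ) 1, K2 G p z) / p ^ 2 := by
    rw [← MeasureTheory.integral_div, ← integral_sub i1 (i2.div_const _)]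
    rfl
  refine ⟨i1, i2, ?_⟩
  rw [e] at hd
  field_simp at hd ⊢
  linarith

/-- A holomorphic logarithm of a nonvanishing function on a disc. -/
lemma exists_logR {k : ℂ → ℂ} {R : ℝ} (hR : 0 < R) (hk : DifferentiableOn ℂ k (ball 0 R))
    (hne : ∀ z ∈ ball (0 : ℂ) R, k z ≠ 0) :
    ∃ L : ℂ → ℂ, (∀ z ∈ ball (0 : ℂ) R, HasDerivAt L (deriv k z / k z) z) ∧
      (∀ z ∈ ball (0 : ℂ) R, k z = Complex.exp (L z)) := by
  have hk' := hk.deriv isOpen_ball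
  have hq : DifferentiableOn ℂ (fun z => deriv k z / k z) (ball 0 R) := hk'.fun_div hk hne
  obtain ⟨h, hh⟩ := hq.isExactOn_ball
  have h0 : (0 : ℂ) ∈ ball (0 : ℂ) R := mem_ball_self hR
  have hE : ∀ z ∈ ball (0 : ℂ) R, HasDerivAt (fun z => k z * Complex.exp (-(h z))) 0 z := by
    intro z hz
    have h1 : HasDerivAt k (deriv k z) z :=
      (hk.differentiableAt (isOpen_ball.mem_nhds hz)).hasDerivAt
    have h2 := h1.fun_mul ((hh z hz).fun_neg.cexp)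
    refine h2.congr_deriv ?_
    have := hne z hz
    field_simp
    ring
  have hconst : ∀ z ∈ ball (0 : ℂ) R, k z * Complex.exp (-(h z)) =
      k 0 * Complex.exp (-(h 0)) := by
    intro z hz
    exact (convex_ball (0 : ℂ) R).is_const_of_fderivWithin_eq_zero
      (fun x hx => (hE x hx).differentiableAt.differentiableWithinAt)
      (fun x hx => by
        rw [fderivWithin_eq_fderiv (isOpen_ball.uniqueDiffWithinAt hx)
          (hE x hx).differentiableAt]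
        have := (hE x hx).hasFDerivAt.fderiv
        rw [this]
        ext
        simp) hz h0
  have hne0 := hne 0 h0
  refine ⟨fun z => Complex.log (k 0) + (h z - h 0), ?_, ?_⟩
  · intro z hz
    exact ((hh z hz).sub_const _).const_add _
  · intro z hz
    rw [Complex.exp_add, Complex.exp_log hne0, Complex.exp_sub]
    have h1 := hconst z hz
    rw [Complex.exp_neg, Complex.exp_neg] at h1
    have e1 := Complex.exp_ne_zero (h z)
    have e2 := Complex.exp_ne_zero (h 0)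
    field_simp at h1 ⊢
    linear_combination h1

lemma exists_G {k : ℂ → ℂ} {R : ℝ} (hR : 0 < R) (hk : DifferentiableOn ℂ k (ball 0 R))
    (hne : ∀ z ∈ ball (0 : ℂ) R, k z ≠ 0) (p : ℝ) :
    ∃ G : ℂ → ℂ, DifferentiableOn ℂ G (ball 0 R) ∧ ∀ z ∈ ball (0 : ℂ) R,
      deriv G z = ((-(p / 2) : ℝ) : ℂ) * (deriv k z / k z) * G z ∧ ‖G z‖ ^ 2 = ‖k z‖ ^ (-p) := by
  obtain ⟨L, hL1, hL2⟩ := exists_logR hR hk hne
  have hd : ∀ z ∈ ball (0 : ℂ) R, HasDerivAt (fun z => Complex.exp (((-(p / 2) : ℝ) : ℂ) * L z))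
      (((-(p / 2) : ℝ) : ℂ) * (deriv k z / k z) * Complex.exp (((-(p / 2) : ℝ) : ℂ) * L z)) z := by
    intro z hz
    refine (((hL1 z hz).const_mul (((-(p / 2) : ℝ) : ℂ))).cexp).congr_deriv ?_
    ring
  refine ⟨fun z => Complex.exp (((-(p / 2) : ℝ) : ℂ) * L z),
    fun z hz => (hd z hz).differentiableAt.differentiableWithinAt, fun z hz => ⟨?_, ?_⟩⟩
  · exact (hd z hz).deriv
  · have e1 : ‖k z‖ = Real.exp (L z).re := by rw [hL2 z hz, Complex.norm_exp]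
    rw [e1, Complex.norm_exp, ← Real.exp_mul, ← Real.exp_nat_mul]
    congr 1
    rw [Complex.re_ofReal_mul]
    push_cast
    ring

lemma rpow_split {a ρ : ℝ} (ha : 0 < a) (hρ : 0 < ρ) (p : ℝ) :
    (a / ρ) ^ (-p - 2) = ρ ^ (p - 2) * a ^ (-p) * (ρ ^ 4 / a ^ 2) := by
  have h1 : a ^ (-p - 2) = a ^ (-p) / a ^ 2 := by
    rw [Real.rpow_sub ha, ← Real.rpow_natCast a 2]
    norm_num
  have h2 : ρ ^ (-p - 2) = (ρ ^ (p - 2) * ρ ^ 4)⁻¹ := by
    rw [← Real.rpow_natCast ρ 4, ← Real.rpow_add hρ, ← Real.rpow_neg hρ.le]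
    congr 1
    push_cast
    ring
  rw [Real.div_rpow ha.le hρ.le, h1, h2]
  have h3 : 0 < ρ ^ (p - 2) := Real.rpow_pos_of_pos hρ _
  field_simp

lemma K1_eq {f G : ℂ → ℂ} {p : ℝ} (hp : 0 < p) {z : ℂ} (hz : z ≠ 0) (hf : deriv f z ≠ 0)
    (h1 : deriv G z = ((-(p / 2) : ℝ) : ℂ) * (deriv (deriv f) z / deriv f z) * G z)
    (h2 : ‖G z‖ ^ 2 = ‖deriv f z‖ ^ (-p)) : XX f z ^ (-p - 2) * JJ f z = K1 G p z := by
  have hρ : 0 < ‖z‖ := norm_pos_iff.mpr hz
  have ha : 0 < ‖deriv f z‖ := norm_pos_iff.mpr hf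
  have hcz : conj z ≠ 0 := by simpa using hz
  have hpc : (p : ℂ) ≠ 0 := by exact_mod_cast hp.ne'
  have hzz : ((‖z‖ ^ 2 : ℝ) : ℂ) = z * conj z := by
    rw [mul_conj, normSq_eq_norm_sq]
  have hW : Wf G p z = (G z / deriv f z) * (2 * (z * conj z)) * Ez f z := by
    unfold Wf Ez tau
    rw [h1]
    push_cast
    push_cast at hzz
    rw [hzz]
    field_simp
    ring
  have hWn : ‖Wf G p z‖ ^ 2 = ‖G z‖ ^ 2 / ‖deriv f z‖ ^ 2 * (4 * ‖z‖ ^ 4) * ‖Ez f z‖ ^ 2 := by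
    rw [hW, norm_mul, norm_mul, norm_div, norm_mul, norm_mul, RCLike.norm_conj]
    norm_num
    ring
  have hEb : ‖Ezb f z‖ ^ 2 = ‖deriv f z‖ ^ 2 / (4 * ‖z‖ ^ 4) := by
    unfold Ezb
    rw [norm_div, norm_neg, norm_mul, norm_pow, RCLike.norm_conj]
    norm_num
    rw [div_pow]
    ring
  unfold XX JJ K1
  rw [rpow_split ha hρ, hWn, hEb, ← h2]
  field_simp

lemma K2_eq {f G : ℂ → ℂ} {p : ℝ} {z : ℂ}
    (h2 : ‖G z‖ ^ 2 = ‖deriv f z‖ ^ (-p)) :
    (‖z‖ / ‖deriv f z‖) ^ p * (4 * ‖z‖ ^ 2 - 2 - p) = K2 G p z := by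
  unfold K2
  rw [h2, Real.div_rpow (norm_nonneg _) (norm_nonneg _), Real.rpow_neg (norm_nonneg _)]
  ring

end

end Vale.Agent.P142.Brn.Par6

namespace Vale.Agent.P142.Brn

/-- Block P: the Parseval computation. -/
theorem Par6.blockP : BlockP := by
  intro f R hf p hp _
  have hd : ∀ z ∈ ball (0 : ℂ) R, deriv f z ≠ 0 := fun z hz =>
    H1.injOn_deriv_ne_zero isOpen_ball hf.diff hf.inj hz
  obtain ⟨G, hG, hGp⟩ := Par6.exists_G (zero_lt_one.trans hf.one_lt)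
    (hf.diff.deriv isOpen_ball) hd p
  obtain ⟨i1, i2, h⟩ := Par6.core hf.one_lt hG hp
  have hsub : ball (0 : ℂ) 1 ⊆ ball 0 R := ball_subset_ball hf.one_lt.le
  have hae : ∀ᵐ z ∂(volume : Measure ℂ), z ≠ 0 := by
    rw [ae_iff]
    simp
  have e1 : ∫ z in ball (0 : ℂ) 1, XX f z ^ (-p - 2) * JJ f z =
      ∫ z in ball (0 : ℂ) 1, Par6.K1 G p z := by
    refine setIntegral_congr_ae measurableSet_ball ?_
    filter_upwards [hae] with z hz0 hz
    exact Par6.K1_eq hp hz0 (hd z (hsub hz)) (hGp z (hsub hz)).1 (hGp z (hsub hz)).2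
  have e2 : ∀ z ∈ ball (0 : ℂ) 1, (‖z‖ / ‖deriv f z‖) ^ p * (4 * ‖z‖ ^ 2 - 2 - p) =
      Par6.K2 G p z := fun z hz => Par6.K2_eq (hGp z (hsub hz)).2
  refine ⟨(integrableOn_congr_fun e2 measurableSet_ball).mpr i2, ?_⟩
  rw [e1, h, setIntegral_congr_fun measurableSet_ball e2]

end Vale.Agent.P142.Brn
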