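import Mathlib

/-!
Polygonal chains in a plane set and the logarithmic potential of a chain.
-/

namespace Vale.Agent.P142.Brn

open Set Filter Topology Metric

/-- `x` and `y` are joined by a polygonal line inside `F`. -/
def Ch (F : Set ℂ) (x y : ℂ) : Prop :=
  Relation.ReflTransGen (fun a b => segment ℝ a b ⊆ F) x y

theorem Ch.refl (F : Set ℂ) (x : ℂ) : Ch F x x := Relation.ReflTransGen.refl

theorem Ch.trans {F : Set ℂ} {x y z : ℂ} (h : Ch F x y) (h' : Ch F y z) : Ch F x z :=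
  Relation.ReflTransGen.trans h h'

theorem Ch.symm {F : Set ℂ} {x y : ℂ} (h : Ch F x y) : Ch F y x := by
  induction h with
  | refl => exact Ch.refl _ _
  | tail h1 h2 ih =>
    refine Relation.ReflTransGen.head ?_ ih
    rw [segment_symm]; exact h2

theorem Ch.mono {F G : Set ℂ} {x y : ℂ} (h : F ⊆ G) (h1 : Ch F x y) : Ch G x y :=
  Relation.ReflTransGen.mono (fun _ _ (hab : segment ℝ _ _ ⊆ F) => hab.trans h) _ _ h1

theorem Ch.single {F : Set ℂ} {x y : ℂ} (h : segment ℝ x y ⊆ F) : Ch F x y :=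
  Relation.ReflTransGen.single h

theorem slit_of_not_mem_segment {a b q : ℂ} (hq : q ∉ segment ℝ a b) :
    (b - q) / (a - q) ∈ Complex.slitPlane := by
  have ha : a - q ≠ 0 := by
    intro h
    exact hq (by rw [← sub_eq_zero.1 h]; exact left_mem_segment ℝ a b)
  by_contra hn
  rw [Complex.mem_slitPlane_iff, not_or, not_lt, not_not] at hn
  obtain ⟨hre, him⟩ := hn
  set w := (b - q) / (a - q) with hw
  obtain ⟨r, hr, hwr⟩ : ∃ r : ℝ, 0 ≤ r ∧ w = -(r : ℂ) := by
    refine ⟨-w.re, by linarith, ?_⟩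
    apply Complex.ext <;> simp [him]
  have hb : b - q = -(r : ℂ) * (a - q) := by
    rw [← hwr, hw]; field_simp
  apply hq
  refine ⟨r / (1 + r), 1 / (1 + r), by positivity, by positivity, by field_simp; ring, ?_⟩
  have h1 : (1 + (r : ℂ)) ≠ 0 := by
    have : (1 + r : ℝ) ≠ 0 := by positivity
    exact_mod_cast this
  have hq' : (1 + (r : ℂ)) * q = r * a + b := by linear_combination -hb
  simp only [Complex.real_smul]
  push_cast
  field_simp
  linear_combination -hq'

theorem seg_fun (a b : ℂ) : ∃ g : ℂ → ℂ,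
    g = (fun q => Complex.log ((b - q) / (a - q))) ∧
    (∀ q, q ∉ segment ℝ a b → HasDerivAt g (1 / (a - q) - 1 / (b - q)) q) ∧
    Tendsto g (cocompact ℂ) (𝓝 0) := by
  refine ⟨_, rfl, ?_, ?_⟩
  · intro q hq
    have ha : a - q ≠ 0 := by
      intro h
      exact hq (by rw [← sub_eq_zero.1 h]; exact left_mem_segment ℝ a b)
    have hb : b - q ≠ 0 := by
      intro h
      exact hq (by rw [← sub_eq_zero.1 h]; exact right_mem_segment ℝ a b)
    have h1 : HasDerivAt (fun q : ℂ => b - q) (-1) q := by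
      simpa using (hasDerivAt_id q).const_sub b
    have h2 : HasDerivAt (fun q : ℂ => a - q) (-1) q := by
      simpa using (hasDerivAt_id q).const_sub a
    have h3 : HasDerivAt (fun q : ℂ => (b - q) / (a - q))
        ((-1 * (a - q) - (b - q) * -1) / (a - q) ^ 2) q := h1.div h2 ha
    refine (h3.clog (slit_of_not_mem_segment hq)).congr_deriv ?_
    field_simp
    ring
  · have h1 : Tendsto (fun q : ℂ => (a - q)⁻¹) (cocompact ℂ) (𝓝 0) := by
      rw [← Metric.cobounded_eq_cocompact]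
      exact tendsto_inv₀_cobounded.comp (tendsto_const_sub_cobounded a)
    have h2 : Tendsto (fun q : ℂ => 1 + (b - a) * (a - q)⁻¹) (cocompact ℂ) (𝓝 1) := by
      simpa using (h1.const_mul (b - a)).const_add 1
    have h3 : Tendsto (fun q : ℂ => Complex.log (1 + (b - a) * (a - q)⁻¹)) (cocompact ℂ)
        (𝓝 0) := by
      have := (continuousAt_clog (x := 1) (by simp)).tendsto.comp h2
      simpa [Function.comp_def] using this
    refine h3.congr' ?_
    have h4 : ∀ᶠ q in cocompact ℂ, q ∈ ({a} : Set ℂ)ᶜ := isCompact_singleton.compl_mem_cocompact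
    filter_upwards [h4] with q hq
    have ha : a - q ≠ 0 := by
      intro h
      exact hq (by simpa using (sub_eq_zero.1 h).symm)
    congr 1
    field_simp
    ring

theorem chain_fun {F : Set ℂ} {x y : ℂ} (h : Ch F x y) : ∃ K ⊆ F, IsCompact K ∧ ∃ g : ℂ → ℂ,
    (∀ q, q ∉ K → HasDerivAt g (1 / (x - q) - 1 / (y - q)) q) ∧
    Tendsto g (cocompact ℂ) (𝓝 0) := by
  induction h with
  | refl =>
    refine ⟨∅, empty_subset _, isCompact_empty, fun _ => 0, ?_, tendsto_const_nhds⟩
    intro q _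
    simpa using hasDerivAt_const q (0 : ℂ)
  | @tail b c h1 h2 ih =>
    obtain ⟨K, hKF, hK, g, hg, hg0⟩ := ih
    obtain ⟨g', -, hg', hg0'⟩ := seg_fun b c
    refine ⟨K ∪ segment ℝ b c, union_subset hKF h2, hK.union ?_, fun q => g q + g' q, ?_, ?_⟩
    · rw [segment_eq_image ℝ b c]
      exact isCompact_Icc.image (by fun_prop)
    · intro q hq
      rw [mem_union, not_or] at hq
      exact ((hg q hq.1).add (hg' q hq.2)).congr_deriv (by ring)
    · simpa using hg0.add hg0'

/-- a function with derivative `0` off a closed set is locally constant there -/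
theorem locConst {K : Set ℂ} (hK : IsClosed K) {G : ℂ → ℂ} (hG : ∀ q, q ∉ K → HasDerivAt G 0 q)
    {q : ℂ} (hq : q ∉ K) : ∀ᶠ z in 𝓝 q, G z = G q := by
  obtain ⟨ε, hε, hb⟩ := Metric.isOpen_iff.1 hK.isOpen_compl q hq
  filter_upwards [ball_mem_nhds q hε] with z hz
  have hd : DifferentiableOn ℂ G (ball q ε) := fun w hw =>
    (hG w (hb hw)).differentiableAt.differentiableWithinAt
  exact isOpen_ball.is_const_of_deriv_eq_zero (convex_ball q ε).isPreconnected hd
    (fun w hw => (hG w (hb hw)).deriv) hz (mem_ball_self hε)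

/-- it vanishes outside a disc containing the set, if it tends to zero -/
theorem zeroOut {K : Set ℂ} {ρ : ℝ} (hρ : 0 ≤ ρ) (hK : K ⊆ closedBall 0 ρ) {G : ℂ → ℂ}
    (hG : ∀ q, q ∉ K → HasDerivAt G 0 q) (h0 : Tendsto G (cocompact ℂ) (𝓝 0))
    {q : ℂ} (hq : ρ < ‖q‖) : G q = 0 := by
  set H : Set ℂ := {z | ρ * ‖q‖ < (z * (starRingEnd ℂ) q).re} with hH
  have hHo : IsOpen H := isOpen_lt continuous_const (by fun_prop)
  have hHc : Convex ℝ H := by
    have : H = (fun z : ℂ => (z * (starRingEnd ℂ) q).re) ⁻¹' (Ioi (ρ * ‖q‖)) := rfl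
    rw [this]
    have hl : IsLinearMap ℝ (fun z : ℂ => (z * (starRingEnd ℂ) q).re) := by
      constructor
      · intro x y; simp [add_mul]
      · intro c x; simp; ring
    exact (convex_Ioi _).is_linear_preimage hl
  have hHK : ∀ z ∈ H, z ∉ K := by
    intro z hz hzK
    have h1 : ‖z‖ ≤ ρ := by simpa using hK hzK
    have h2 : (z * (starRingEnd ℂ) q).re ≤ ‖z‖ * ‖q‖ := by
      calc (z * (starRingEnd ℂ) q).re ≤ ‖z * (starRingEnd ℂ) q‖ := Complex.re_le_norm _
        _ = ‖z‖ * ‖q‖ := by rw [norm_mul, Complex.norm_conj]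
    have h3 : ‖z‖ * ‖q‖ ≤ ρ * ‖q‖ := mul_le_mul_of_nonneg_right h1 (norm_nonneg _)
    have h4 : ρ * ‖q‖ < (z * (starRingEnd ℂ) q).re := hz
    linarith
  have hqn : 0 < ‖q‖ := lt_of_le_of_lt hρ hq
  have hmem : ∀ t : ℝ, 1 ≤ t → ((t : ℂ) * q) ∈ H := by
    intro t ht
    show ρ * ‖q‖ < ((t : ℂ) * q * (starRingEnd ℂ) q).re
    have : ((t : ℂ) * q * (starRingEnd ℂ) q) = ((t * ‖q‖ ^ 2 : ℝ) : ℂ) := by
      rw [mul_assoc, Complex.mul_conj, Complex.normSq_eq_norm_sq]; push_cast; ring
    rw [this, Complex.ofReal_re]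
    nlinarith [mul_lt_mul_of_pos_right hq hqn, mul_nonneg (sub_nonneg.2 ht) (sq_nonneg ‖q‖)]
  have hd : DifferentiableOn ℂ G H := fun w hw =>
    (hG w (hHK w hw)).differentiableAt.differentiableWithinAt
  have hconst : ∀ t : ℝ, 1 ≤ t → G ((t : ℂ) * q) = G q := by
    intro t ht
    have h1 : q ∈ H := by simpa using hmem 1 le_rfl
    exact hHo.is_const_of_deriv_eq_zero hHc.isPreconnected hd
      (fun w hw => (hG w (hHK w hw)).deriv) (hmem t ht) h1
  have ht : Tendsto (fun t : ℝ => (t : ℂ) * q) atTop (cocompact ℂ) := by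
    rw [← Metric.cobounded_eq_cocompact, ← tendsto_norm_atTop_iff_cobounded]
    have : (fun t : ℝ => ‖(t : ℂ) * q‖) = fun t : ℝ => |t| * ‖q‖ := by
      ext t; rw [norm_mul, Complex.norm_real, Real.norm_eq_abs]
    rw [this]
    exact (tendsto_abs_atTop_atTop).atTop_mul_const hqn
  have h5 : Tendsto (fun t : ℝ => G ((t : ℂ) * q)) atTop (𝓝 0) := h0.comp ht
  have h6 : Tendsto (fun t : ℝ => G ((t : ℂ) * q)) atTop (𝓝 (G q)) := by
    refine tendsto_const_nhds.congr' ?_
    filter_upwards [eventually_ge_atTop (1 : ℝ)] with t ht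
    exact (hconst t ht).symm
  exact tendsto_nhds_unique h6 h5

end Vale.Agent.P142.Brn
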