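import Vale.Agent.P142.Brn.Topo1

/-!
Critical points of an exhaustion function satisfying the weak maximum principle: the number of saddles
below a level is smaller than the number of minima below that level.
-/

namespace Vale.Agent.P142.Brn

open Set Filter Topology Metric

section Jump

variable {v : ℂ → ℝ} {D : Set ℂ}

/-- The potential of a closed polygon contained in `{v ≤ c}` vanishes at all points with
`v > c`. -/
theorem zero_above {c ρ : ℝ} (hρ : 0 ≤ ρ) (hD : closedBall 0 ρ ⊆ D) (hDo : IsOpen D)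
    (hcont : ContinuousOn v D)
    (hwm : ∀ O : Set ℂ, IsOpen O → closure O ⊆ D → ∀ p ∈ O, ∃ q ∈ frontier O, v p ≤ v q)
    {K : Set ℂ} (hKc : IsClosed K) (hKρ : K ⊆ closedBall 0 ρ) (hKv : ∀ z ∈ K, v z ≤ c)
    {G : ℂ → ℂ} (hG : ∀ q, q ∉ K → HasDerivAt G 0 q) (h0 : Tendsto G (cocompact ℂ) (𝓝 0))
    {q : ℂ} (hqD : q ∈ D) (hq : c < v q) : G q = 0 := by
  by_contra hne
  set B : Set ℂ := {z | z ∈ D ∧ c < v z ∧ G z ≠ 0} with hB
  have hnotK : ∀ z, c < v z → z ∉ K := fun z hz hzK => absurd (hKv z hzK) (not_le.2 hz)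
  have hBρ : B ⊆ closedBall 0 ρ := by
    intro z hz
    by_contra hzρ
    have : ρ < ‖z‖ := by simpa using hzρ
    exact hz.2.2 (zeroOut hρ hKρ hG h0 this)
  have hcl : closure B ⊆ closedBall 0 ρ := closure_minimal hBρ isClosed_closedBall
  have hqB : q ∈ B := ⟨hqD, hq, hne⟩
  have hnear : ∀ m ∈ D, c < v m → G m ≠ 0 → B ∈ 𝓝 m := by
    intro m hmD hvm hGm
    have hcm : ContinuousAt v m := hcont.continuousAt (hDo.mem_nhds hmD)
    have hloc := locConst hKc hG (hnotK m hvm)
    filter_upwards [hDo.mem_nhds hmD, hcm.eventually (lt_mem_nhds hvm), hloc] with z h1 h2 h3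
    exact ⟨h1, h2, by rw [h3]; exact hGm⟩
  have hBo : IsOpen B := isOpen_iff_mem_nhds.2 fun m hm => hnear m hm.1 hm.2.1 hm.2.2
  obtain ⟨m, hm, hmq⟩ := hwm B hBo (hcl.trans hD) q hqB
  have hmcl : m ∈ closure B := frontier_subset_closure hm
  have hmD : m ∈ D := hD (hcl hmcl)
  have hvm : c < v m := lt_of_lt_of_le hq hmq
  have hloc := locConst hKc hG (hnotK m hvm)
  have hGm : G m ≠ 0 := by
    intro h
    have h2 := (mem_closure_iff_frequently.1 hmcl).and_eventually hloc
    obtain ⟨z, hz, hz2⟩ := h2.exists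
    exact hz.2.2 (by rw [hz2, h])
  rw [hBo.frontier_eq] at hm
  exact hm.2 ⟨hmD, hvm, hGm⟩

theorem log_im_pos {w : ℂ} (h1 : w.re < 0) (h2 : 0 < w.im) : Real.pi / 2 < (Complex.log w).im := by
  rw [Complex.log_im]
  by_contra h
  have := Complex.arg_le_pi_div_two_iff.1 (not_lt.1 h)
  rcases this with h3 | h3 <;> linarith

theorem log_im_neg {w : ℂ} (h1 : w.re < 0) (h2 : w.im < 0) :
    (Complex.log w).im < -(Real.pi / 2) := by
  rw [Complex.log_im]
  by_contra h
  have := Complex.neg_pi_div_two_le_arg_iff.1 (not_lt.1 h)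
  rcases this with h3 | h3 <;> linarith

/-- Jump lemma: the two lower rays at a saddle are not joined in `{v ≤ c} \ {s}`. -/
theorem jump {c ρ : ℝ} (hρ : 0 ≤ ρ) (hD : closedBall 0 ρ ⊆ D) (hDo : IsOpen D)
    (hcont : ContinuousOn v D)
    (hwm : ∀ O : Set ℂ, IsOpen O → closure O ⊆ D → ∀ p ∈ O, ∃ q ∈ frontier O, v p ≤ v q)
    (hsub : ∀ z ∈ D, v z ≤ c → ‖z‖ ≤ ρ)
    {s u : ℂ} (hu : u ≠ 0)
    (hlow : ∀ x : ℝ, -1 ≤ x → x ≤ 1 → s + x * u ∈ D ∧ v (s + x * u) ≤ c)
    (hupp : ∀ x : ℝ, x ≠ 0 → -1 ≤ x → x ≤ 1 →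
      s + x * (Complex.I * u) ∈ D ∧ c < v (s + x * (Complex.I * u)))
    (hch : Ch {z | z ∈ D ∧ v z ≤ c ∧ z ≠ s} (s + u) (s - u)) : False := by
  obtain ⟨K, hKF, hK, g, hg, hg0⟩ := chain_fun hch
  obtain ⟨g', hg'def, hg', hg0'⟩ := seg_fun (s - u) (s + u)
  set K' : Set ℂ := K ∪ segment ℝ (s - u) (s + u) with hK'
  have hseg : ∀ z ∈ segment ℝ (s - u) (s + u), z ∈ D ∧ v z ≤ c := by
    rintro z ⟨a, b, ha, hb, hab, rfl⟩
    have h := hlow (b - a) (by linarith) (by linarith)
    have e : s + ((b - a : ℝ) : ℂ) * u = a • (s - u) + b • (s + u) := by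
      have : (a : ℂ) + b = 1 := by exact_mod_cast hab
      simp only [Complex.real_smul]
      push_cast
      linear_combination (-s) * this
    rwa [e] at h
  have hsegc : IsCompact (segment ℝ (s - u) (s + u)) := by
    rw [segment_eq_image ℝ (s - u) (s + u)]
    exact isCompact_Icc.image (by fun_prop)
  have hK'v : ∀ z ∈ K', z ∈ D ∧ v z ≤ c := by
    rintro z (hz | hz)
    · exact ⟨(hKF hz).1, (hKF hz).2.1⟩
    · exact hseg z hz
  have hK'ρ : K' ⊆ closedBall 0 ρ := by
    intro z hz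
    simpa using hsub z (hK'v z hz).1 (hK'v z hz).2
  have hK'c : IsClosed K' := (hK.union hsegc).isClosed
  have hG : ∀ q, q ∉ K' → HasDerivAt (fun q => g q + g' q) 0 q := by
    intro q hq
    rw [hK', mem_union, not_or] at hq
    exact ((hg q hq.1).add (hg' q hq.2)).congr_deriv (by ring)
  have hG0 : Tendsto (fun q => g q + g' q) (cocompact ℂ) (𝓝 0) := by
    simpa using hg0.add hg0'
  have hz : ∀ x : ℝ, x ≠ 0 → -1 ≤ x → x ≤ 1 →
      g (s + x * (Complex.I * u)) + g' (s + x * (Complex.I * u)) = 0 := by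
    intro x hx h1 h2
    exact zero_above hρ hD hDo hcont hwm hK'c hK'ρ (fun z hz => (hK'v z hz).2) hG hG0
      (hupp x hx h1 h2).1 (hupp x hx h1 h2).2
  -- values of g'
  have hval : ∀ x : ℝ, g' (s + x * (Complex.I * u)) =
      Complex.log ((1 - x * Complex.I) / (-1 - x * Complex.I)) := by
    intro x
    rw [hg'def]
    simp only
    congr 1
    have h1 : s + u - (s + x * (Complex.I * u)) = u * (1 - x * Complex.I) := by ring
    have h2 : s - u - (s + x * (Complex.I * u)) = u * (-1 - x * Complex.I) := by ring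
    rw [h1, h2, mul_div_mul_left _ _ hu]
  have hquot : ∀ x : ℝ, ((1 - x * Complex.I) / (-1 - x * Complex.I) : ℂ) =
      (((x ^ 2 - 1) / (1 + x ^ 2) : ℝ) : ℂ) + ((2 * x / (1 + x ^ 2) : ℝ) : ℂ) * Complex.I := by
    intro x
    have hne : (-1 - x * Complex.I : ℂ) ≠ 0 := by
      intro h
      have := congrArg Complex.re h
      simp at this
    have hne2 : (1 + (x : ℂ) ^ 2) ≠ 0 := by
      have : (1 + x ^ 2 : ℝ) ≠ 0 := by positivity
      exact_mod_cast this
    push_cast
    rw [div_eq_iff hne]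
    field_simp
    linear_combination (2 * (x : ℂ) ^ 2 - x * Complex.I * (1 + (x : ℂ) ^ 2) * 0) * Complex.I_sq
  have hp : ∀ x : ℝ, 0 < x → x < 1 → Real.pi / 2 < (g' (s + x * (Complex.I * u))).im := by
    intro x hx hx1
    rw [hval, hquot]
    apply log_im_pos
    · simp only [Complex.add_re, Complex.ofReal_re, Complex.mul_re, Complex.I_re, mul_zero,
        Complex.ofReal_im, Complex.I_im, mul_one, sub_self, add_zero]
      apply div_neg_of_neg_of_pos <;> nlinarith
    · simp only [Complex.add_im, Complex.ofReal_im, Complex.mul_im, Complex.I_re, mul_zero,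
        Complex.ofReal_re, Complex.I_im, mul_one, zero_add, add_zero]
      positivity
  have hn : ∀ x : ℝ, 0 < x → x < 1 →
      (g' (s + ((-x : ℝ) : ℂ) * (Complex.I * u))).im < -(Real.pi / 2) := by
    intro x hx hx1
    rw [hval, hquot]
    apply log_im_neg
    · simp only [Complex.add_re, Complex.ofReal_re, Complex.mul_re, Complex.I_re, mul_zero,
        Complex.ofReal_im, Complex.I_im, mul_one, sub_self, add_zero]
      apply div_neg_of_neg_of_pos <;> nlinarith
    · simp only [Complex.add_im, Complex.ofReal_im, Complex.mul_im, Complex.I_re, mul_zero,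
        Complex.ofReal_re, Complex.I_im, mul_one, zero_add, add_zero]
      apply div_neg_of_neg_of_pos <;> nlinarith
  -- continuity of g at s
  have hsK : s ∉ K := fun h => (hKF h).2.2 rfl
  have hgc : ContinuousAt g s := (hg s hsK).continuousAt
  have hlim1 : Tendsto (fun x : ℝ => (g (s + x * (Complex.I * u))).im) (𝓝[>] 0) (𝓝 (g s).im) := by
    have h1 : ContinuousAt (fun x : ℝ => (g (s + x * (Complex.I * u))).im) 0 := by
      have h2 : ContinuousAt (fun x : ℝ => s + x * (Complex.I * u)) 0 := by fun_prop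
      have h3 : ContinuousAt g ((fun x : ℝ => s + x * (Complex.I * u)) 0) := by simpa using hgc
      exact Complex.continuous_im.continuousAt.comp (ContinuousAt.comp h3 h2)
    have := h1.tendsto.mono_left (nhdsWithin_le_nhds (s := Ioi (0 : ℝ)))
    simpa using this
  have hlim2 : Tendsto (fun x : ℝ => (g (s + ((-x : ℝ) : ℂ) * (Complex.I * u))).im) (𝓝[>] 0)
      (𝓝 (g s).im) := by
    have h1 : ContinuousAt (fun x : ℝ => (g (s + ((-x : ℝ) : ℂ) * (Complex.I * u))).im) 0 := by
      have h2 : ContinuousAt (fun x : ℝ => s + ((-x : ℝ) : ℂ) * (Complex.I * u)) 0 := by fun_prop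
      have h3 : ContinuousAt g ((fun x : ℝ => s + ((-x : ℝ) : ℂ) * (Complex.I * u)) 0) := by
        simpa using hgc
      exact Complex.continuous_im.continuousAt.comp (ContinuousAt.comp h3 h2)
    have := h1.tendsto.mono_left (nhdsWithin_le_nhds (s := Ioi (0 : ℝ)))
    simpa using this
  have hlim := hlim1.sub hlim2
  rw [sub_self] at hlim
  have hev : ∀ᶠ x : ℝ in 𝓝[>] 0, (g (s + x * (Complex.I * u))).im -
      (g (s + ((-x : ℝ) : ℂ) * (Complex.I * u))).im < -Real.pi := by
    have h1 : Ioo (0 : ℝ) 1 ∈ 𝓝[>] (0 : ℝ) := Ioo_mem_nhdsGT one_pos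
    filter_upwards [h1] with x hx
    have e1 := hz x hx.1.ne' (by linarith [hx.1]) hx.2.le
    have e2 := hz (-x) (by linarith [hx.1]) (by linarith [hx.2]) (by linarith [hx.1])
    have e3 := congrArg Complex.im e1
    have e4 := congrArg Complex.im e2
    rw [Complex.add_im, Complex.zero_im] at e3 e4
    have := hp x hx.1 hx.2
    have := hn x hx.1 hx.2
    linarith
  have hpos := Real.pi_pos
  have h4 : (0 : ℝ) ≤ -Real.pi := le_of_tendsto hlim (hev.mono fun x hx => hx.le)
  linarith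

end Jump

end Vale.Agent.P142.Brn
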